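import Mathlib

/-! A product formula for the matrix exponential. -/

namespace Vale.Agent.P348

open Matrix Filter Topology

theorem Trotter_pow_sub {𝔸 : Type} [NormedRing 𝔸] (h1 : ‖(1 : 𝔸)‖ ≤ 1) {a b : 𝔸} {K : ℝ}
    (hK : 1 ≤ K) (ha : ‖a‖ ≤ K) (hb : ‖b‖ ≤ K) (n : ℕ) :
    ‖b ^ n‖ ≤ K ^ n ∧ ‖a ^ n - b ^ n‖ ≤ n * ‖a - b‖ * K ^ n := by
  induction n with
  | zero => simpa using h1
  | succ n ih =>
    obtain ⟨ih1, ih2⟩ := ih
    have hK0 : 0 ≤ K := by linarith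
    constructor
    · rw [pow_succ', pow_succ']
      exact (norm_mul_le _ _).trans (mul_le_mul hb ih1 (norm_nonneg _) hK0)
    · have h2 : a ^ (n + 1) - b ^ (n + 1) = a * (a ^ n - b ^ n) + (a - b) * b ^ n := by
        rw [pow_succ', pow_succ']
        noncomm_ring
      rw [h2]
      have h3 : ‖a * (a ^ n - b ^ n)‖ ≤ K * (n * ‖a - b‖ * K ^ n) :=
        (norm_mul_le _ _).trans (mul_le_mul ha ih2 (norm_nonneg _) hK0)
      have h4 : ‖(a - b) * b ^ n‖ ≤ ‖a - b‖ * K ^ (n + 1) :=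
        (norm_mul_le _ _).trans (mul_le_mul_of_nonneg_left
          (ih1.trans (pow_le_pow_right₀ hK (Nat.le_succ n))) (norm_nonneg _))
      refine (norm_add_le _ _).trans ((add_le_add h3 h4).trans (le_of_eq ?_))
      push_cast
      ring

theorem Trotter_norm_le {𝔸 : Type} [NormedRing 𝔸] [NormedAlgebra ℝ 𝔸] (h1 : ‖(1 : 𝔸)‖ ≤ 1)
    (A G : 𝔸) {M : ℝ} (hM : 0 < M) (h : M * ‖G - (1 + M⁻¹ • A)‖ ≤ 1) :
    ‖G‖ ≤ 1 + (‖A‖ + 1) / M := by
  have h2 : G = (G - (1 + M⁻¹ • A)) + (1 + M⁻¹ • A) := by abel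
  have h3 : ‖G - (1 + M⁻¹ • A)‖ ≤ 1 / M := by
    rw [le_div_iff₀ hM]
    linarith
  have h4 : ‖(1 : 𝔸) + M⁻¹ • A‖ ≤ 1 + ‖A‖ / M := by
    refine (norm_add_le _ _).trans (add_le_add h1 (le_of_eq ?_))
    rw [norm_smul, Real.norm_eq_abs, abs_of_pos (inv_pos.2 hM), div_eq_inv_mul]
  rw [h2]
  refine (norm_add_le _ _).trans ((add_le_add h3 h4).trans (le_of_eq ?_))
  ring

theorem Trotter_banach {𝔸 : Type} [NormedRing 𝔸] [NormedAlgebra ℝ 𝔸] [CompleteSpace 𝔸]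
    (h1 : ‖(1 : 𝔸)‖ ≤ 1) (A : 𝔸) (G : ℕ → 𝔸)
    (hG : Tendsto (fun M : ℕ => (M : ℝ) * ‖G M - (1 + ((M : ℝ)⁻¹) • A)‖) atTop (𝓝 0)) :
    Tendsto (fun M => G M ^ M) atTop (𝓝 (NormedSpace.exp A)) := by
  let _ : NormedAlgebra ℚ 𝔸 := NormedAlgebra.restrictScalars ℚ ℝ 𝔸
  have hd := hasDerivAt_exp_smul_const (𝕂 := ℝ) A 0
  rw [zero_smul, NormedSpace.exp_zero, one_mul, hasDerivAt_iff_tendsto] at hd
  have hE : Tendsto (fun M : ℕ => (M : ℝ) *
      ‖NormedSpace.exp (((M : ℝ)⁻¹) • A) - (1 + ((M : ℝ)⁻¹) • A)‖) atTop (𝓝 0) := by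
    refine (hd.comp (tendsto_inv_atTop_nhds_zero_nat (𝕜 := ℝ))).congr fun M => ?_
    simp only [Function.comp_apply, sub_zero, zero_smul, NormedSpace.exp_zero, norm_inv,
      Real.norm_natCast, inv_inv, sub_sub]
  rw [tendsto_iff_norm_sub_tendsto_zero]
  have hlim := (hG.add hE).mul_const (Real.exp (‖A‖ + 1))
  rw [add_zero, zero_mul] at hlim
  refine squeeze_zero' (Eventually.of_forall fun _ => norm_nonneg _) ?_ hlim
  filter_upwards [hG.eventually (gt_mem_nhds zero_lt_one), hE.eventually (gt_mem_nhds zero_lt_one),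
    eventually_gt_atTop 0] with M h2 h3 hM
  have hM' : (0 : ℝ) < M := by exact_mod_cast hM
  have h4 := Trotter_norm_le h1 A _ hM' h2.le
  have h5 := Trotter_norm_le h1 A _ hM' h3.le
  have hK : (1 : ℝ) ≤ 1 + (‖A‖ + 1) / M := le_add_of_nonneg_right (by positivity)
  have h6 := (Trotter_pow_sub h1 hK h4 h5 M).2
  have h7 : NormedSpace.exp (((M : ℝ)⁻¹) • A) ^ M = NormedSpace.exp A := by
    rw [← NormedSpace.exp_nsmul, ← Nat.cast_smul_eq_nsmul ℝ, smul_smul, mul_inv_cancel₀ hM'.ne',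
      one_smul]
  rw [h7] at h6
  refine h6.trans (mul_le_mul ?_ ?_ (by positivity) (by positivity))
  · rw [← mul_add]
    refine mul_le_mul_of_nonneg_left ?_ hM'.le
    exact (norm_sub_le_norm_sub_add_norm_sub _ (1 + ((M : ℝ)⁻¹) • A) _).trans
      (by rw [norm_sub_rev (1 + _)])
  · have h8 : 1 + (‖A‖ + 1) / M ≤ Real.exp ((‖A‖ + 1) / M) := by
      linarith [Real.add_one_le_exp ((‖A‖ + 1) / M)]
    refine (pow_le_pow_left₀ (by positivity) h8 M).trans (le_of_eq ?_)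
    rw [← Real.exp_nat_mul, mul_div_cancel₀ _ hM'.ne']

open scoped Matrix.Norms.Operator in
theorem Trotter_norm_entry {ι : Type} [Fintype ι] [DecidableEq ι] (B : Matrix ι ι ℝ) {c : ℝ}
    (hc : 0 ≤ c) (h : ∀ i j, |B i j| ≤ c) : ‖B‖ ≤ Fintype.card ι * c := by
  rw [Matrix.linfty_opNorm_def]
  lift c to NNReal using hc
  have h1 : (Finset.univ.sup fun i => ∑ j, ‖B i j‖₊) ≤ Fintype.card ι * c := by
    refine Finset.sup_le fun i _ => ?_
    calc ∑ j, ‖B i j‖₊ ≤ ∑ _j : ι, c := Finset.sum_le_sum fun j _ => h i j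
      _ = _ := by simp
  exact_mod_cast h1

set_option backward.isDefEq.respectTransparency false in
open scoped Matrix.Norms.Operator in
theorem trotter_limit {ι : Type} [Fintype ι] [DecidableEq ι] (A : Matrix ι ι ℝ)
    (G : ℕ → Matrix ι ι ℝ) (C : ℝ)
    (hG : ∀ᶠ M : ℕ in atTop, ∀ i j, |(G M - (1 + ((M : ℝ)⁻¹) • A)) i j| ≤ C / (M : ℝ) ^ 2) :
    Tendsto (fun M => G M ^ M) atTop (𝓝 (NormedSpace.exp A)) := by
  refine Trotter_banach ?_ A G ?_
  · rcases isEmpty_or_nonempty ι with h | h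
    · rw [Subsingleton.elim (1 : Matrix ι ι ℝ) 0, norm_zero]
      exact zero_le_one
    · exact norm_one.le
  · have hlim := (tendsto_inv_atTop_nhds_zero_nat (𝕜 := ℝ)).const_mul (Fintype.card ι * |C|)
    rw [mul_zero] at hlim
    refine squeeze_zero' (Eventually.of_forall fun _ => by positivity) ?_ hlim
    filter_upwards [hG, eventually_gt_atTop 0] with M h hM
    have hM' : (0 : ℝ) < M := by exact_mod_cast hM
    have h2 := Trotter_norm_entry _ (c := |C| / (M : ℝ) ^ 2) (by positivity) fun i j =>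
      (h i j).trans (div_le_div_of_nonneg_right (le_abs_self C) (by positivity))
    refine (mul_le_mul_of_nonneg_left h2 hM'.le).trans (le_of_eq ?_)
    field_simp

end Vale.Agent.P348
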