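import Vale.Agent.P348.Tens

/-! Change of basis between the cartesian basis and the eigenbasis of the third spin component. -/

namespace Vale.Agent.P348

open Matrix Filter Topology

/-- complexification of real matrices -/
noncomputable def Basis_c {m : Type} [Fintype m] [DecidableEq m] :
    Matrix m m ℝ →+* Matrix m m ℂ := Complex.ofRealHom.mapMatrix

theorem Basis_c_apply {m : Type} [Fintype m] [DecidableEq m] (A : Matrix m m ℝ) (i j : m) :
    Basis_c A i j = (A i j : ℂ) := rfl

theorem Basis_c_smul {m : Type} [Fintype m] [DecidableEq m] (a : ℝ) (A : Matrix m m ℝ) :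
    Basis_c (a • A) = (a : ℂ) • Basis_c A := by
  ext i j
  simp [Basis_c_apply]

theorem Basis_c_trace {m : Type} [Fintype m] [DecidableEq m] (A : Matrix m m ℝ) :
    trace (Basis_c A) = ((trace A : ℝ) : ℂ) := by
  simp [Matrix.trace, Basis_c_apply]

theorem Basis_c_cont {m : Type} [Fintype m] [DecidableEq m] :
    Continuous (Basis_c : Matrix m m ℝ → Matrix m m ℂ) := by
  refine continuous_pi fun i => continuous_pi fun j => ?_
  exact Complex.continuous_ofReal.comp ((continuous_apply j).comp (continuous_apply i))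

theorem Basis_c_exp {m : Type} [Fintype m] [DecidableEq m] (A : Matrix m m ℝ) :
    Basis_c (NormedSpace.exp A) = NormedSpace.exp (Basis_c A) := by
  open scoped Matrix.Norms.Operator in
  exact NormedSpace.map_exp Basis_c Basis_c_cont A

theorem Basis_trace_eq {m : Type} [Fintype m] [DecidableEq m] {U V : Matrix m m ℂ}
    (hUV : U * V = 1) {G G' X X' : Matrix m m ℝ}
    (hG : V * Basis_c G * U = Basis_c G') (hX : V * Basis_c X * U = Basis_c X') :
    trace (G * X) = trace (G' * X') := by
  apply Complex.ofReal_injective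
  rw [← Basis_c_trace, ← Basis_c_trace, map_mul, map_mul, ← hG, ← hX]
  have e : V * Basis_c G * U * (V * Basis_c X * U) = V * (Basis_c G * Basis_c X) * U := by
    calc V * Basis_c G * U * (V * Basis_c X * U)
        = V * Basis_c G * (U * V) * Basis_c X * U := by simp only [mul_assoc]
      _ = _ := by rw [hUV, mul_one]; simp only [mul_assoc]
  rw [e, trace_mul_comm _ U, ← mul_assoc, hUV, one_mul]

theorem Basis_conj_mul {m : Type} [Fintype m] [DecidableEq m] {U V : Matrix m m ℂ}
    (hUV : U * V = 1) (A B : Matrix m m ℂ) : V * (A * B) * U = (V * A * U) * (V * B * U) := by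
  calc V * (A * B) * U = V * A * (U * V) * B * U := by rw [hUV, mul_one]; simp only [mul_assoc]
    _ = _ := by simp only [mul_assoc]

theorem Basis_conj_pow {m : Type} [Fintype m] [DecidableEq m] {U V : Matrix m m ℂ}
    (hUV : U * V = 1) (hVU : V * U = 1) (A : Matrix m m ℂ) (k : ℕ) :
    V * A ^ k * U = (V * A * U) ^ k := by
  induction k with
  | zero => simp [hVU]
  | succ k ih => rw [pow_succ, pow_succ, Basis_conj_mul hUV, ih]

theorem Basis_aeval {m : Type} [Fintype m] [DecidableEq m] {U V : Matrix m m ℂ}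
    (hUV : U * V = 1) (hVU : V * U = 1) {X X' : Matrix m m ℝ}
    (hX : V * Basis_c X * U = Basis_c X') (q : Polynomial ℝ) :
    V * Basis_c (Polynomial.aeval X q) * U = Basis_c (Polynomial.aeval X' q) := by
  induction q using Polynomial.induction_on' with
  | add p q hp hq => rw [map_add, map_add, map_add, map_add, mul_add, add_mul, hp, hq]
  | monomial k a =>
    rw [Polynomial.aeval_monomial, Polynomial.aeval_monomial, Algebra.algebraMap_eq_smul_one,
      smul_mul_assoc, smul_mul_assoc, one_mul, one_mul, Basis_c_smul, Basis_c_smul, map_pow, map_pow,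
      ← hX, ← Basis_conj_pow hUV hVU, mul_smul_comm, smul_mul_assoc]

theorem Basis_exp {m : Type} [Fintype m] [DecidableEq m] {U V : Matrix m m ℂ}
    (hUV : U * V = 1) (hVU : V * U = 1) {X X' : Matrix m m ℝ}
    (hX : V * Basis_c X * U = Basis_c X') :
    V * Basis_c (NormedSpace.exp X) * U = Basis_c (NormedSpace.exp X') := by
  rw [Basis_c_exp, Basis_c_exp, ← hX]
  exact (Matrix.exp_units_conj (⟨V, U, hVU, hUV⟩ : (Matrix m m ℂ)ˣ) (Basis_c X)).symm

/-- the inverse square root of two -/
noncomputable def Basis_r : ℂ := ((Real.sqrt 2)⁻¹ : ℝ)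

theorem Basis_r_sq : Basis_r * Basis_r = 1 / 2 := by
  unfold Basis_r
  rw [← Complex.ofReal_mul, ← mul_inv, Real.mul_self_sqrt (by norm_num)]
  norm_num

noncomputable def Basis_B : Matrix (Fin 3) (Fin 3) ℂ :=
  !![Basis_r, 0, -Basis_r; -Complex.I * Basis_r, 0, -Complex.I * Basis_r; 0, 1, 0]

noncomputable def Basis_Bi : Matrix (Fin 3) (Fin 3) ℂ :=
  !![Basis_r, Complex.I * Basis_r, 0; 0, 0, 1; -Basis_r, Complex.I * Basis_r, 0]

theorem Basis_B_Bi : Basis_B * Basis_Bi = 1 := by
  have h := Basis_r_sq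
  have hI := Complex.I_mul_I
  ext i j
  fin_cases i <;> fin_cases j <;>
    simp [Basis_B, Basis_Bi, Matrix.mul_apply, Fin.sum_univ_three] <;> grind

theorem Basis_Bi_B : Basis_Bi * Basis_B = 1 := mul_eq_one_comm.1 Basis_B_Bi

theorem Basis_L2 : Basis_Bi * Basis_c (Lm 2) * Basis_B = Complex.I • Basis_c Zm := by
  have h := Basis_r_sq
  have hI := Complex.I_mul_I
  ext i j
  simp only [Matrix.mul_apply, Fin.sum_univ_three, Basis_c_apply, Matrix.smul_apply]
  fin_cases i <;> fin_cases j <;>
    simp [Basis_B, Basis_Bi, Lm, Zm] <;> grind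

theorem Basis_L0 : Basis_Bi * Basis_c (Lm 0) * Basis_B
    = (Complex.I * Basis_r) • Basis_c Up + (Complex.I * Basis_r) • Basis_c Dn := by
  have h := Basis_r_sq
  have hI := Complex.I_mul_I
  ext i j
  simp only [Matrix.mul_apply, Fin.sum_univ_three, Basis_c_apply, Matrix.smul_apply,
    Matrix.add_apply]
  fin_cases i <;> fin_cases j <;>
    simp [Basis_B, Basis_Bi, Lm, Up, Dn] <;> grind

theorem Basis_L1 : Basis_Bi * Basis_c (Lm 1) * Basis_B
    = Basis_r • Basis_c Up + (-Basis_r) • Basis_c Dn := by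
  have h := Basis_r_sq
  have hI := Complex.I_mul_I
  ext i j
  simp only [Matrix.mul_apply, Fin.sum_univ_three, Basis_c_apply, Matrix.smul_apply,
    Matrix.add_apply]
  fin_cases i <;> fin_cases j <;>
    simp [Basis_B, Basis_Bi, Lm, Up, Dn] <;> grind

theorem Basis_sg (g : Fin 4) :
    Basis_Bi * Basis_c (diagonal (sg g)) * Basis_B = Basis_c (gS g) := by
  have h := Basis_r_sq
  have hI := Complex.I_mul_I
  ext i j
  simp only [Matrix.mul_apply, Fin.sum_univ_three, Basis_c_apply]
  fin_cases g <;> fin_cases i <;> fin_cases j <;>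
    simp [Basis_B, Basis_Bi, sg, chi, gS, Matrix.diagonal_apply, Matrix.one_apply] <;>
    grind

theorem Basis_c_tens {n : ℕ} (A : Fin n → Matrix (Fin 3) (Fin 3) ℝ) :
    Basis_c (tens A) = tens (fun i => Basis_c (A i)) := by
  ext s t
  simp [tens, Basis_c_apply]

theorem Basis_c_site {n : ℕ} (j : Fin n) (A : Matrix (Fin 3) (Fin 3) ℝ) :
    Basis_c (site j A) = site j (Basis_c A) := by
  rw [site_eq_tens, site_eq_tens, Basis_c_tens]
  congr 1
  funext i
  split_ifs
  · rfl
  · exact map_one _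

theorem Basis_site_lin {n : ℕ} (j : Fin n) (a b : ℂ) (A B : Matrix (Fin 3) (Fin 3) ℂ) :
    site j (a • A + b • B) = a • site j A + b • site j B := by
  ext s t
  simp only [site, Matrix.of_apply, Matrix.add_apply, Matrix.smul_apply, smul_eq_mul]
  rw [← Finset.mul_prod_erase _ _ (Finset.mem_univ j), ← Finset.mul_prod_erase _ _ (Finset.mem_univ j),
    ← Finset.mul_prod_erase _ _ (Finset.mem_univ j)]
  have e : ∀ C : Matrix (Fin 3) (Fin 3) ℂ,
      ∏ i ∈ Finset.univ.erase j, (if i = j then C else 1) (s i) (t i)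
        = ∏ i ∈ Finset.univ.erase j, (1 : Matrix (Fin 3) (Fin 3) ℂ) (s i) (t i) := by
    intro C
    refine Finset.prod_congr rfl fun i hi => ?_
    rw [if_neg (Finset.ne_of_mem_erase hi)]
  rw [e, e, e]
  simp only [if_true, Matrix.add_apply, Matrix.smul_apply, smul_eq_mul]
  ring

theorem Basis_site_smul {n : ℕ} (j : Fin n) (a : ℂ) (A : Matrix (Fin 3) (Fin 3) ℂ) :
    site j (a • A) = a • site j A := by
  have := Basis_site_lin j a 0 A A
  simpa using this

noncomputable def Basis_U (n : ℕ) : Matrix (Cfg n) (Cfg n) ℂ := tens fun _ => Basis_B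

noncomputable def Basis_V (n : ℕ) : Matrix (Cfg n) (Cfg n) ℂ := tens fun _ => Basis_Bi

theorem Basis_UV (n : ℕ) : Basis_U n * Basis_V n = 1 := by
  unfold Basis_U Basis_V
  rw [tens_mul]
  simp only [Basis_B_Bi]
  exact tens_one

theorem Basis_VU (n : ℕ) : Basis_V n * Basis_U n = 1 := mul_eq_one_comm.1 (Basis_UV n)

theorem Basis_conj_site {n : ℕ} (j : Fin n) (A : Matrix (Fin 3) (Fin 3) ℂ) :
    Basis_V n * site j A * Basis_U n = site j (Basis_Bi * A * Basis_B) := by
  unfold Basis_U Basis_V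
  rw [site_eq_tens, site_eq_tens, tens_mul, tens_mul]
  congr 1
  funext i
  split_ifs
  · rfl
  · rw [mul_one, Basis_Bi_B]

theorem Basis_Gr (n : ℕ) (g : Fin 4) : Gr n g = tens fun _ => diagonal (sg g) := by
  ext s t
  simp only [Gr, tens, Matrix.of_apply, Matrix.diagonal_apply]
  by_cases h : s = t
  · subst h; simp
  · rw [if_neg h]
    obtain ⟨i, hi⟩ := Function.ne_iff.1 h
    exact (Finset.prod_eq_zero (Finset.mem_univ i) (if_neg hi)).symm

theorem Basis_conj_G (n : ℕ) (g : Fin 4) :
    Basis_V n * Basis_c (Gr n g) * Basis_U n = Basis_c (Gs n g) := by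
  rw [Basis_Gr]
  unfold Basis_U Basis_V Gs
  rw [Basis_c_tens, Basis_c_tens, tens_mul, tens_mul]
  simp only [Basis_sg]

theorem Basis_bsg0 {n : ℕ} (tw : Bool) (j : Fin n) : bsg (twOf tw) j 0 = tsg tw j := by
  cases tw <;> by_cases h : j.val + 1 = n <;> simp [bsg, tsg, twOf, sg, chi, h]

theorem Basis_bsg1 {n : ℕ} (tw : Bool) (j : Fin n) : bsg (twOf tw) j 1 = tsg tw j := by
  cases tw <;> by_cases h : j.val + 1 = n <;> simp [bsg, tsg, twOf, sg, chi, h]

theorem Basis_bsg2 {n : ℕ} (tw : Bool) (j : Fin n) : bsg (twOf tw) j 2 = 1 := by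
  cases tw <;> by_cases h : j.val + 1 = n <;> simp [bsg, twOf, sg, chi, h]

theorem Basis_conj_H (n : ℕ) (tw : Bool) :
    Basis_V n * Basis_c (Hr n (twOf tw)) * Basis_U n = Basis_c (Hs n tw) := by
  unfold Hr Hs
  rw [map_neg, map_sum, map_sum, ← Finset.sum_neg_distrib, Finset.mul_sum, Finset.sum_mul]
  refine Finset.sum_congr rfl fun j _ => ?_
  rw [Fin.sum_univ_three, Basis_bsg0, Basis_bsg1, Basis_bsg2]
  simp only [map_add, Basis_c_smul, map_mul, Basis_c_site, mul_neg, neg_mul, mul_add, add_mul,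
    mul_smul_comm, smul_mul_assoc, Basis_conj_mul (Basis_UV n), Basis_conj_site, Basis_L0, Basis_L1,
    Basis_L2, Basis_site_lin, Basis_site_smul]
  have h := Basis_r_sq
  have hI := Complex.I_mul_I
  match_scalars <;> grind

theorem trace_poly_basis (n : ℕ) (g : Fin 4) (tw : Bool) (q : Polynomial ℝ) :
    trace (Gr n g * Polynomial.aeval (Hr n (twOf tw)) q)
      = trace (Gs n g * Polynomial.aeval (Hs n tw) q) :=
  Basis_trace_eq (Basis_UV n) (Basis_conj_G n g)
    (Basis_aeval (Basis_UV n) (Basis_VU n) (Basis_conj_H n tw) q)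

theorem trace_exp_basis (n : ℕ) (β : ℝ) :
    Zf β n 0 0 = trace (NormedSpace.exp (-β • Hs n false)) := by
  have hH : Basis_V n * Basis_c (-β • Hr n 0) * Basis_U n = Basis_c (-β • Hs n false) := by
    rw [Basis_c_smul, Basis_c_smul, ← Basis_conj_H n false, mul_smul_comm, smul_mul_assoc]
    rfl
  have h := Basis_trace_eq (Basis_UV n) (Basis_conj_G n 0)
    (Basis_exp (Basis_UV n) (Basis_VU n) hH)
  have h1 : Gs n 0 = 1 := tens_one
  rw [h1, one_mul] at h
  exact h

end Vale.Agent.P348
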