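import Vale.Agent.P348.PSSector

/-! A checker for the hypotheses of the filter lemma. -/

namespace Vale.Agent.P348

def muQ (n l h : ℚ) : ℚ := min (1 - n / l) (1 - n / h)

def segOK (n1 n2 n3 eps lam : ℚ) (K : ℕ) (l h : ℚ) : Bool :=
  decide (0 < l) && decide (0 ≤ muQ n1 l h) && decide (0 ≤ muQ n2 l h) && decide (0 ≤ muQ n3 l h) &&
    decide (h ^ K ≤ lam * ((muQ n1 l h * muQ n2 l h * muQ n3 l h) ^ 2 + eps))

def chainOK (n1 n2 n3 eps lam : ℚ) (K : ℕ) (b : ℚ) : List ℚ → ℚ → Bool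
  | [], l => decide (b ≤ l)
  | h :: t, l => segOK n1 n2 n3 eps lam K l h && chainOK n1 n2 n3 eps lam K b t h

def sideCert (n1 n2 n3 eps lam M : ℚ) (K : ℕ) (c b : ℚ) (pts : List ℚ) : Bool :=
  chainOK n1 n2 n3 eps lam K b pts c && decide (n1 ≤ b) && decide (n2 ≤ b) && decide (n3 ≤ b) &&
    decide (0 ≤ b) && decide (M < b ^ 4 * (((b - n1) * (b - n2) * (b - n3)) ^ 2 + eps * b ^ 6))

theorem muQ_le {n l h : ℚ} (hl : 0 < l) {x : ℝ} (h1 : (l : ℝ) ≤ x) (h2 : x ≤ h) :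
    (muQ n l h : ℝ) * x ≤ x - n := by
  have hl' : (0 : ℝ) < l := by exact_mod_cast hl
  have hx : 0 < x := hl'.trans_le h1
  have hh : (0 : ℝ) < h := hx.trans_le h2
  have a1 : (muQ n l h : ℝ) ≤ 1 - n / l := by exact_mod_cast min_le_left _ _
  have a2 : (muQ n l h : ℝ) ≤ 1 - n / h := by exact_mod_cast min_le_right _ _
  rcases le_total (0 : ℝ) n with hn | hn
  · have : (n : ℝ) ≤ n / l * x := by
      rw [div_mul_eq_mul_div, le_div_iff₀ hl']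
      exact mul_le_mul_of_nonneg_left h1 hn
    nlinarith
  · have : (n : ℝ) ≤ n / h * x := by
      rw [div_mul_eq_mul_div, le_div_iff₀ hh]
      exact mul_le_mul_of_nonpos_left h2 hn
    nlinarith

theorem Qf_lower {n1 n2 n3 eps x m1 m2 m3 : ℝ} (hx : 0 ≤ x) (h1 : 0 ≤ m1) (h2 : 0 ≤ m2)
    (h3 : 0 ≤ m3) (a1 : m1 * x ≤ x - n1) (a2 : m2 * x ≤ x - n2) (a3 : m3 * x ≤ x - n3) :
    x ^ 10 * ((m1 * m2 * m3) ^ 2 + eps) ≤ Qf n1 n2 n3 eps x := by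
  have b : (m1 * x) * (m2 * x) * (m3 * x) ≤ (x - n1) * (x - n2) * (x - n3) := by
    have p1 := mul_nonneg h1 hx
    have p2 := mul_nonneg h2 hx
    have p3 := mul_nonneg h3 hx
    exact mul_le_mul (mul_le_mul a1 a2 p2 (p1.trans a1)) a3 p3
      (mul_nonneg (p1.trans a1) (p2.trans a2))
  have c := pow_le_pow_left₀ (by positivity) b 2
  have d := mul_le_mul_of_nonneg_left c (pow_nonneg hx 4)
  unfold Qf
  nlinarith

theorem segOK_sound {n1 n2 n3 eps lam : ℚ} {K : ℕ} {l h : ℚ} (hlam : (0 : ℝ) ≤ lam)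
    (H : segOK n1 n2 n3 eps lam K l h = true) {x : ℝ} (h1 : (l : ℝ) ≤ x) (h2 : x ≤ h) :
    x ^ (K + 10) ≤ lam * Qf n1 n2 n3 eps x := by
  simp only [segOK, Bool.and_eq_true, decide_eq_true_eq] at H
  obtain ⟨⟨⟨⟨hl, m1⟩, m2⟩, m3⟩, hK⟩ := H
  have hl' : (0 : ℝ) < l := by exact_mod_cast hl
  have hx : 0 ≤ x := hl'.le.trans h1
  have q := Qf_lower (eps := eps) hx (by exact_mod_cast m1) (by exact_mod_cast m2)
    (by exact_mod_cast m3) (muQ_le (n := n1) hl h1 h2) (muQ_le (n := n2) hl h1 h2)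
    (muQ_le (n := n3) hl h1 h2)
  have hK' : (h : ℝ) ^ K ≤ lam * (((muQ n1 l h : ℝ) * muQ n2 l h * muQ n3 l h) ^ 2 + eps) := by
    exact_mod_cast hK
  calc x ^ (K + 10) = x ^ 10 * x ^ K := by ring
    _ ≤ x ^ 10 * (lam * (((muQ n1 l h : ℝ) * muQ n2 l h * muQ n3 l h) ^ 2 + eps)) :=
      mul_le_mul_of_nonneg_left ((pow_le_pow_left₀ hx h2 K).trans hK') (pow_nonneg hx 10)
    _ = lam * (x ^ 10 * (((muQ n1 l h : ℝ) * muQ n2 l h * muQ n3 l h) ^ 2 + eps)) := by ring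
    _ ≤ _ := mul_le_mul_of_nonneg_left q hlam

theorem chainOK_sound {n1 n2 n3 eps lam : ℚ} {K : ℕ} {b : ℚ} (hlam : (0 : ℝ) ≤ lam)
    (pts : List ℚ) : ∀ l : ℚ, chainOK n1 n2 n3 eps lam K b pts l = true → ∀ x : ℝ, (l : ℝ) < x →
      x ≤ b → x ^ (K + 10) ≤ lam * Qf n1 n2 n3 eps x := by
  induction pts with
  | nil =>
    intro l H x h1 h2
    have : (b : ℝ) ≤ l := by exact_mod_cast of_decide_eq_true H
    linarith
  | cons h t ih =>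
    intro l H x h1 h2
    have H' : (segOK n1 n2 n3 eps lam K l h && chainOK n1 n2 n3 eps lam K b t h) = true := H
    rw [Bool.and_eq_true] at H'
    rcases le_or_gt x h with h3 | h3
    · exact segOK_sound hlam H'.1 h1.le h3
    · exact ih h H'.2 x h3 h2

theorem sideCert_sound {n1 n2 n3 eps lam M : ℚ} {K : ℕ} {c b : ℚ} {pts : List ℚ}
    (heps : (0 : ℝ) ≤ eps) (hlam : (0 : ℝ) ≤ lam) (hc : (c : ℝ) ^ K ≤ lam * eps)
    (H : sideCert n1 n2 n3 eps lam M K c b pts = true) {x : ℝ} (hx : 0 ≤ x) :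
    ((b : ℝ) < x → M < Qf n1 n2 n3 eps x) ∧ (x ≤ b → x ^ (K + 10) ≤ lam * Qf n1 n2 n3 eps x) := by
  simp only [sideCert, Bool.and_eq_true, decide_eq_true_eq] at H
  obtain ⟨⟨⟨⟨⟨hch, b1⟩, b2⟩, b3⟩, b0⟩, hM⟩ := H
  constructor
  · intro hb
    have c1 : (n1 : ℝ) ≤ b := by exact_mod_cast b1
    have c2 : (n2 : ℝ) ≤ b := by exact_mod_cast b2
    have c3 : (n3 : ℝ) ≤ b := by exact_mod_cast b3
    have c0 : (0 : ℝ) ≤ b := by exact_mod_cast b0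
    have hM' : (M : ℝ) < b ^ 4 * ((((b : ℝ) - n1) * (b - n2) * (b - n3)) ^ 2 + eps * b ^ 6) := by
      exact_mod_cast hM
    refine hM'.trans_le ?_
    unfold Qf
    have d1 := sub_nonneg.2 c1
    have d2 := sub_nonneg.2 c2
    have d3 := sub_nonneg.2 c3
    have e1 : (0 : ℝ) ≤ x - n1 := by linarith
    have e2 : (0 : ℝ) ≤ x - n2 := by linarith
    gcongr
  · intro hb
    rcases le_or_gt x c with h | h
    · have q2 : x ^ 10 * eps ≤ Qf n1 n2 n3 eps x := by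
        unfold Qf
        nlinarith [mul_nonneg (pow_nonneg hx 4) (sq_nonneg ((x - n1) * (x - n2) * (x - n3)))]
      calc x ^ (K + 10) = x ^ 10 * x ^ K := by ring
        _ ≤ x ^ 10 * (lam * eps) :=
          mul_le_mul_of_nonneg_left ((pow_le_pow_left₀ hx h K).trans hc) (pow_nonneg hx 10)
        _ = lam * (x ^ 10 * eps) := by ring
        _ ≤ _ := mul_le_mul_of_nonneg_left q2 hlam
    · exact chainOK_sound hlam pts c hch x h hb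

theorem Qf_neg (n1 n2 n3 eps x : ℝ) : Qf (-n1) (-n2) (-n3) eps (-x) = Qf n1 n2 n3 eps x := by
  unfold Qf
  ring

/-- an upper bound of `a * F` for `F` in `[s - e, s + e]` -/
def ubQ (a : ℚ) (p : ℚ × ℚ) : ℚ := a * p.1 + |a| * p.2

theorem ubQ_sound (a : ℚ) (p : ℚ × ℚ) {F : ℝ} (h : (p.1 : ℝ) - p.2 ≤ F ∧ F ≤ p.1 + p.2) :
    (a : ℝ) * F ≤ ubQ a p := by
  have h1 : |F - p.1| ≤ p.2 := abs_le.2 ⟨by linarith [h.1], by linarith [h.2]⟩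
  have h2 : (a : ℝ) * (F - p.1) ≤ |(a : ℝ)| * p.2 :=
    (le_abs_self _).trans (by rw [abs_mul]; exact mul_le_mul_of_nonneg_left h1 (abs_nonneg _))
  unfold ubQ
  push_cast
  linarith

def filtOK (n1 n2 n3 eps lam M : ℚ) (K : ℕ) (c b : ℚ) (pos neg : List ℚ)
    (p4 p5 p6 p7 p8 p9 p10 : ℚ × ℚ) (U : ℚ) : Bool :=
  decide (0 ≤ eps) && decide (0 ≤ lam) && decide (c ^ K ≤ lam * eps) &&
    sideCert n1 n2 n3 eps lam M K c b pos && sideCert (-n1) (-n2) (-n3) eps lam M K c b neg &&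
    decide (ubQ ((n1*n2*n3)^2) p4 + ubQ (-(2*(n1*n2*n3)*(n1*n2+n1*n3+n2*n3))) p5
      + ubQ ((n1*n2+n1*n3+n2*n3)^2 + 2*(n1+n2+n3)*(n1*n2*n3)) p6
      + ubQ (-(2*(n1*n2*n3) + 2*(n1+n2+n3)*(n1*n2+n1*n3+n2*n3))) p7
      + ubQ ((n1+n2+n3)^2 + 2*(n1*n2+n1*n3+n2*n3)) p8 + ubQ (-(2*(n1+n2+n3))) p9
      + ubQ (1+eps) p10 ≤ M) && decide (lam * M ≤ U)

theorem filter_cert {F : ℕ → ℝ} (hF : PS F) (n1 n2 n3 eps lam M : ℚ) (K : ℕ) (hK : Even K)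
    (c b : ℚ) (pos neg : List ℚ) (p4 p5 p6 p7 p8 p9 p10 : ℚ × ℚ) (U : ℚ)
    (H : filtOK n1 n2 n3 eps lam M K c b pos neg p4 p5 p6 p7 p8 p9 p10 U = true)
    (h4 : (p4.1 : ℝ) - p4.2 ≤ F 4 ∧ F 4 ≤ p4.1 + p4.2)
    (h5 : (p5.1 : ℝ) - p5.2 ≤ F 5 ∧ F 5 ≤ p5.1 + p5.2)
    (h6 : (p6.1 : ℝ) - p6.2 ≤ F 6 ∧ F 6 ≤ p6.1 + p6.2)
    (h7 : (p7.1 : ℝ) - p7.2 ≤ F 7 ∧ F 7 ≤ p7.1 + p7.2)
    (h8 : (p8.1 : ℝ) - p8.2 ≤ F 8 ∧ F 8 ≤ p8.1 + p8.2)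
    (h9 : (p9.1 : ℝ) - p9.2 ≤ F 9 ∧ F 9 ≤ p9.1 + p9.2)
    (h10 : (p10.1 : ℝ) - p10.2 ≤ F 10 ∧ F 10 ≤ p10.1 + p10.2) : F (K + 10) ≤ U := by
  simp only [filtOK, Bool.and_eq_true, decide_eq_true_eq] at H
  obtain ⟨⟨⟨⟨⟨⟨e0, l0⟩, hc⟩, hp⟩, hn⟩, hM⟩, hU⟩ := H
  have e0' : (0 : ℝ) ≤ eps := by exact_mod_cast e0
  have l0' : (0 : ℝ) ≤ lam := by exact_mod_cast l0
  have hc' : (c : ℝ) ^ K ≤ lam * eps := by exact_mod_cast hc
  have hU' : (lam : ℝ) * M ≤ U := by exact_mod_cast hU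
  have key : ∀ x : ℝ, ((b : ℝ) < |x| → M < Qf n1 n2 n3 eps x) ∧
      (|x| ≤ b → x ^ (K + 10) ≤ lam * Qf n1 n2 n3 eps x) := by
    intro x
    rcases le_total 0 x with hx | hx
    · rw [abs_of_nonneg hx]
      exact sideCert_sound e0' l0' hc' hp hx
    · have := sideCert_sound e0' l0' hc' hn (neg_nonneg.2 hx)
      push_cast at this
      rw [Qf_neg, (hK.add (by decide)).neg_pow] at this
      rwa [abs_of_nonpos hx]
  refine (hF.filter e0' l0' (by omega) ?_ (fun x => (key x).1) fun x => (key x).2).trans hU'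
  have a4 := ubQ_sound ((n1*n2*n3)^2) p4 h4
  have a5 := ubQ_sound (-(2*(n1*n2*n3)*(n1*n2+n1*n3+n2*n3))) p5 h5
  have a6 := ubQ_sound ((n1*n2+n1*n3+n2*n3)^2 + 2*(n1+n2+n3)*(n1*n2*n3)) p6 h6
  have a7 := ubQ_sound (-(2*(n1*n2*n3) + 2*(n1+n2+n3)*(n1*n2+n1*n3+n2*n3))) p7 h7
  have a8 := ubQ_sound ((n1+n2+n3)^2 + 2*(n1*n2+n1*n3+n2*n3)) p8 h8
  have a9 := ubQ_sound (-(2*(n1+n2+n3))) p9 h9
  have a10 := ubQ_sound (1+eps) p10 h10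
  have hM' := (Rat.cast_le (K := ℝ)).2 hM
  simp only [Rat.cast_add] at hM'
  push_cast at a4 a5 a6 a7 a8 a9 a10
  linarith

end Vale.Agent.P348
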