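import Vale.Agent.P348.Defs

/-! Elementary inequalities for power sums. -/

namespace Vale.Agent.P348

open Matrix Filter Topology

theorem PSBasic_pow_le {t : ℕ → ℝ} (ht : ∀ j, 0 ≤ t j) {r s : ℝ} {m : ℕ} (hm : 1 ≤ m)
    (h1 : HasSum t r) (h2 : HasSum (fun j => t j ^ m) s) : s ≤ r ^ m := by
  obtain ⟨m, rfl⟩ := Nat.exists_eq_add_of_le' hm
  rw [pow_succ]
  refine hasSum_le (fun j => ?_) h2 (h1.mul_left _)
  rw [pow_succ]
  exact mul_le_mul_of_nonneg_right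
    (pow_le_pow_left₀ (ht j) (le_hasSum h1 j fun i _ => ht i) _) (ht j)

theorem PSBasic_tail {t : ℕ → ℝ} {r : ℝ} (h : HasSum t r) :
    HasSum (fun j => t (j + 1)) (r - t 0) := by
  simpa using (hasSum_nat_add_iff' 1).2 h

theorem PSBasic_le {x : ℕ → ℝ} {a : ℝ} (hx : ∀ j, |x j| ≤ a) {N d : ℕ} (heN : Even N) {r s : ℝ}
    (h1 : HasSum (fun j => x j ^ N) r) (h2 : HasSum (fun j => x j ^ (d + N)) s) :
    s ≤ a ^ d * r := by
  refine hasSum_le (fun j => ?_) h2 (h1.mul_left _)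
  rw [pow_add]
  exact mul_le_mul_of_nonneg_right ((le_abs_self _).trans
    ((abs_pow _ _).le.trans (pow_le_pow_left₀ (abs_nonneg _) (hx j) _))) (heN.pow_nonneg _)

theorem PSBasic_top {x : ℕ → ℝ} {N : ℕ} (heN : Even N) {r : ℝ}
    (h : HasSum (fun j => x j ^ N) r) : |x 0| ^ N ≤ r := by
  rw [heN.pow_abs]
  exact le_hasSum h 0 fun i _ => heN.pow_nonneg _

theorem PSBasic_grow {a lam c B : ℝ} (ha : 0 ≤ a) (hlam : 0 < lam) (hc : 0 < c)
    (h : ∀ i : ℕ, c * lam ^ (2 * i + 4) ≤ a ^ (2 * i) * B) : lam ≤ a := by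
  by_contra hlt
  have h1 : (a / lam) ^ 2 < 1 :=
    pow_lt_one₀ (by positivity) ((div_lt_one hlam).2 (not_le.1 hlt)) two_ne_zero
  have h2 := (tendsto_pow_atTop_nhds_zero_of_lt_one (by positivity) h1).mul_const B
  rw [zero_mul] at h2
  refine absurd (ge_of_tendsto' h2 (b := c * lam ^ 4) fun i => ?_) (not_le.2 (by positivity))
  rw [← pow_mul, div_pow, div_mul_eq_mul_div, le_div_iff₀ (by positivity)]
  exact le_trans (le_of_eq (by ring)) (h i)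

theorem PS.smul_pow {F : ℕ → ℝ} (hF : PS F) (r : ℝ) : PS (fun n => F n * r ^ n) := by
  obtain ⟨x, h1, h2⟩ := hF
  refine ⟨fun j => x j * r, fun i j h => ?_, fun n hn => ?_⟩
  · rw [abs_mul, abs_mul]; exact mul_le_mul_of_nonneg_right (h1 i j h) (abs_nonneg _)
  · simpa only [mul_pow] using (h2 n hn).mul_right (r ^ n)

theorem PS.nonneg {F : ℕ → ℝ} (hF : PS F) {k : ℕ} (hk : 4 ≤ k) (he : Even k) : 0 ≤ F k := by
  obtain ⟨x, -, h2⟩ := hF
  exact (h2 k (by omega)).nonneg fun _ => he.pow_nonneg _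

theorem PS.mul_le_pow {F : ℕ → ℝ} (hF : PS F) {k : ℕ} (hk : 4 ≤ k) (he : Even k) {m : ℕ}
    (hm : 1 ≤ m) : F (m * k) ≤ F k ^ m := by
  obtain ⟨x, -, h2⟩ := hF
  refine PSBasic_pow_le (fun _ => he.pow_nonneg _) hm (h2 k (by omega)) ?_
  simpa only [← pow_mul, mul_comm k] using h2 (m * k) (by nlinarith)

theorem PS.pow_le {F : ℕ → ℝ} (hF : PS F) {N L : ℕ} (hN : 4 ≤ N) (heN : Even N) (heL : Even L)
    (hNL : N ≤ L) : F L ^ N ≤ F N ^ L := by
  have h0 := hF.nonneg (hN.trans hNL) heL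
  have h0' := hF.nonneg hN heN
  obtain ⟨x, h1, h2⟩ := hF
  obtain ⟨d, rfl⟩ := Nat.exists_eq_add_of_le' hNL
  have a1 := PSBasic_le (fun j => h1 0 j (Nat.zero_le _)) heN (h2 N (by omega))
    (h2 (d + N) (by omega))
  have a2 := PSBasic_top heN (h2 N (by omega))
  calc _ ≤ (|x 0| ^ d * F N) ^ N := pow_le_pow_left₀ h0 a1 _
    _ = (|x 0| ^ N) ^ d * F N ^ N := by ring
    _ ≤ F N ^ d * F N ^ N := by gcongr
    _ = _ := (pow_add _ _ _).symm

theorem purity_scalar {a r r2 u : ℝ} (ha : 0 < a) (hr : 0 ≤ r) (hr2 : r2 ≤ r ^ 2) (hr3 : r2 ≤ a * r)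
    (hu0 : 0 ≤ u) (hu : u ≤ 2 / 5)
    (h : (a + r) ^ 2 ≤ (1 + u) * (a ^ 2 + r2)) : r ≤ 53 / 100 * u * a := by
  have hua := mul_le_mul_of_nonneg_right hu ha.le
  have a1 : r ≤ u * a := by
    have : (a + r) * (a + r) ≤ (1 + u) * a * (a + r) := by nlinarith
    linarith [le_of_mul_le_mul_right this (by linarith)]
  have a2 : 2 * a * r ≤ u * (a ^ 2 + r ^ 2) := by nlinarith
  have step : ∀ w : ℝ, r ≤ w * a → r ≤ (1 + w ^ 2) / 2 * u * a := fun w hw => by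
    have := mul_le_mul_of_nonneg_left (pow_le_pow_left₀ hr hw 2) hu0
    exact le_of_mul_le_mul_left (by linarith) ha
  have a3 := step (2 / 5) (by linarith)
  have a4 := step (232 / 1000) (by linarith)
  linarith [mul_nonneg hu0 ha.le]

theorem PS.purity {F : ℕ → ℝ} (hF : PS F) {k : ℕ} (hk : 4 ≤ k) (he : Even k) {u : ℝ} (hu0 : 0 ≤ u)
    (hu : u ≤ 2 / 5) (h : F k ^ 2 ≤ (1 + u) * F (2 * k)) :
    F (2 * k) ^ 2 ≤ (1 + (53 / 100 * u) ^ 2) ^ 2 * F (4 * k) := by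
  have h0 := hF.nonneg (k := 2 * k) (by omega) (even_two_mul k)
  obtain ⟨x, h1, h2⟩ := hF
  have t1 := PSBasic_tail (h2 k (by omega))
  have t2 := PSBasic_tail (h2 (2 * k) (by omega))
  have a0 : 0 ≤ F k - x 0 ^ k := t1.nonneg fun _ => he.pow_nonneg _
  have a1 := PSBasic_pow_le (fun _ => he.pow_nonneg _) one_le_two t1
    (by simpa only [← pow_mul, mul_comm k] using t2)
  have a2 := PSBasic_le (fun j => h1 0 (j + 1) (Nat.zero_le _)) he t1
    (by simpa only [two_mul] using t2)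
  have a3 := PSBasic_top (he.mul_left 4) (h2 (4 * k) (by omega))
  rw [he.pow_abs] at a2
  rw [(he.mul_left 4).pow_abs, pow_mul'] at a3
  rw [← two_mul, pow_mul'] at a2
  rw [pow_mul'] at a1
  have a4 : F (2 * k) ≤ (1 + (53 / 100 * u) ^ 2) * (x 0 ^ k) ^ 2 := by
    rcases (he.pow_nonneg (x 0)).eq_or_lt with e | e
    · rw [← e] at a2 ⊢; linarith
    · have := pow_le_pow_left₀ a0 (purity_scalar e a0 a1 a2 hu0 hu (by simpa using h)) 2
      linarith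
  calc _ ≤ _ := pow_le_pow_left₀ h0 a4 2
    _ = (1 + (53 / 100 * u) ^ 2) ^ 2 * (x 0 ^ k) ^ 4 := by ring
    _ ≤ _ := by gcongr

theorem PS.top_lower {F : ℕ → ℝ} (hF : PS F) {lam c : ℝ} (hlam : 0 < lam) (hc : 0 < c)
    (hgrow : ∀ k, 4 ≤ k → Even k → c * lam ^ k ≤ F k) {N : ℕ} (hN : 4 ≤ N) (he : Even N) :
    lam ^ N ≤ F N := by
  obtain ⟨x, h1, h2⟩ := hF
  have a1 : lam ≤ |x 0| := PSBasic_grow (abs_nonneg _) hlam hc fun i =>
    (hgrow _ (by omega) ⟨i + 2, by ring⟩).trans (PSBasic_le (fun j => h1 0 j (Nat.zero_le _))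
      (by decide : Even 4) (h2 4 (by omega)) (h2 _ (by omega)))
  exact (pow_le_pow_left₀ hlam.le a1 N).trans (PSBasic_top he (h2 N (by omega)))

end Vale.Agent.P348
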