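import Vale.Agent.P348.Tens
import Vale.Agent.P348.PSBasic

/-! From the purity of the thermal state to the spectral gap, and the bootstrap recursion. -/

namespace Vale.Agent.P348

open Matrix Filter Topology

theorem GapOf_trace_exp {n : Type} [Fintype n] [DecidableEq n] {A : Matrix n n ℝ}
    (hA : A.IsHermitian) (c : ℝ) :
    trace (NormedSpace.exp (c • A)) = ∑ i, Real.exp (c * hA.eigenvalues i) := by
  obtain ⟨U, hU⟩ : ∃ U : Matrix n n ℝ, U = hA.eigenvectorUnitary := ⟨_, rfl⟩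
  have h1 : U * star U = 1 := by
    rw [hU]
    exact Unitary.coe_mul_star_self _
  have h2 : U⁻¹ = star U := Matrix.inv_eq_right_inv h1
  have h3 : IsUnit U := (Matrix.isUnit_iff_isUnit_det U).2 (Matrix.isUnit_det_of_right_inverse h1)
  have h4 : A = U * diagonal hA.eigenvalues * U⁻¹ := by
    have := hA.spectral_theorem
    rw [Unitary.conjStarAlgAut_apply] at this
    rw [h2, hU]
    exact this
  have h5 : c • A = U * diagonal (c • hA.eigenvalues) * U⁻¹ := by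
    rw [diagonal_smul, Matrix.mul_smul, Matrix.smul_mul, ← h4]
  rw [h5, Matrix.exp_conj _ _ h3, Matrix.trace_conj h3, Matrix.exp_diagonal, trace_diagonal]
  refine Finset.sum_congr rfl fun i _ => ?_
  rw [Pi.coe_exp, ← Real.exp_eq_exp_ℝ]
  rfl

theorem Zf_eq_sum (β : ℝ) (L : ℕ) (hL : 2 ≤ L) (h : Fin 4) :
    Zf β L 0 h = ∑ i, Real.exp (-β * (Hr_isHermitian L hL h).eigenvalues i) := by
  have h1 : Gr L 0 = 1 := by
    rw [Gr, ← diagonal_one]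
    congr 1
    funext s
    simp [sg, chi]
  rw [Zf, h1, Matrix.one_mul, GapOf_trace_exp]

theorem GapOf_gap {ι : Type} [Fintype ι] (lam : ι → ℝ) (i0 : ι) (h0 : ∀ i, lam i0 ≤ lam i)
    (β u : ℝ) (hβ : 0 < β) (hu0 : 0 < u) (hu : u ≤ 2 / 5)
    (h : (∑ i, Real.exp (-β * lam i)) ^ 2 ≤ (1 + u) * ∑ i, Real.exp (-(2 * β) * lam i))
    (i : ι) (hi : i ≠ i0) : lam i0 + (-Real.log u) / β ≤ lam i := by
  classical
  have e1 : ∀ j, Real.exp (-(2 * β) * lam j) = Real.exp (-β * lam j) ^ 2 := by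
    intro j
    rw [← Real.exp_nat_mul]
    congr 1
    push_cast
    ring
  simp only [e1] at h
  rw [← Finset.add_sum_erase _ _ (Finset.mem_univ i0),
    ← Finset.add_sum_erase _ (fun j => Real.exp (-β * lam j) ^ 2) (Finset.mem_univ i0)] at h
  have e2 := purity_scalar (Real.exp_pos _) (Finset.sum_nonneg fun j _ => (Real.exp_pos _).le)
    (Finset.sum_sq_le_sq_sum_of_nonneg fun j _ => (Real.exp_pos _).le)
    (by
      rw [Finset.mul_sum]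
      refine Finset.sum_le_sum fun j _ => ?_
      rw [sq]
      refine mul_le_mul_of_nonneg_right (Real.exp_le_exp.2 ?_) (Real.exp_pos _).le
      have := h0 j
      nlinarith) hu0.le hu h
  have e3 : Real.exp (-β * lam i) ≤ ∑ j ∈ Finset.univ.erase i0, Real.exp (-β * lam j) :=
    Finset.single_le_sum (f := fun j => Real.exp (-β * lam j)) (fun j _ => (Real.exp_pos _).le)
      (Finset.mem_erase.2 ⟨hi, Finset.mem_univ _⟩)
  have e4 : Real.exp (-β * lam i) ≤ Real.exp (Real.log u + -β * lam i0) := by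
    rw [Real.exp_add, Real.exp_log hu0]
    have := mul_pos hu0 (Real.exp_pos (-β * lam i0))
    linarith
  have e5 := Real.exp_le_exp.1 e4
  rw [← le_sub_iff_add_le', div_le_iff₀ hβ]
  linarith

theorem gap_of_purity (L : ℕ) (hL : 2 ≤ L) (β u : ℝ) (hβ : 0 < β) (hu0 : 0 < u) (hu : u ≤ 2 / 5)
    (h : Zf β L 0 0 ^ 2 ≤ (1 + u) * Zf (2 * β) L 0 0) :
    ∃ E0, IsLeast (spectrum ℝ (Hr L 0)) E0 ∧
      ∀ E ∈ spectrum ℝ (Hr L 0), E ≠ E0 → E0 + (-Real.log u) / β ≤ E := by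
  rw [Zf_eq_sum β L hL, Zf_eq_sum (2 * β) L hL] at h
  rw [(Hr_isHermitian L hL 0).spectrum_real_eq_range_eigenvalues]
  obtain ⟨i0, h0⟩ := Finite.exists_min (Hr_isHermitian L hL 0).eigenvalues
  refine ⟨_, ⟨⟨i0, rfl⟩, ?_⟩, ?_⟩
  · rintro _ ⟨i, rfl⟩
    exact h0 i
  · rintro _ ⟨i, rfl⟩ hne
    exact GapOf_gap _ i0 h0 β u hβ hu0 hu h i fun hi => hne (by rw [hi])

theorem gap_finite (L : ℕ) (hL : 2 ≤ L) : ∃ d > 0, ∃ E0, IsLeast (spectrum ℝ (Hr L 0)) E0 ∧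
    ∀ E ∈ spectrum ℝ (Hr L 0), E ≠ E0 → E0 + d ≤ E := by
  rw [(Hr_isHermitian L hL 0).spectrum_real_eq_range_eigenvalues]
  generalize (Hr_isHermitian L hL 0).eigenvalues = lam
  obtain ⟨i0, h0⟩ := Finite.exists_min lam
  obtain ⟨i1, h1⟩ := Finite.exists_min fun i => if lam i = lam i0 then 1 else lam i - lam i0
  refine ⟨if lam i1 = lam i0 then 1 else lam i1 - lam i0, ?_, lam i0, ⟨⟨i0, rfl⟩, ?_⟩, ?_⟩
  · split_ifs with h
    · exact one_pos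
    · exact sub_pos.2 (lt_of_le_of_ne (h0 i1) (Ne.symm h))
  · rintro _ ⟨i, rfl⟩
    exact h0 i
  · rintro _ ⟨i, rfl⟩ hne
    have := h1 i
    rw [if_neg hne] at this
    linarith

section Boot

variable {Z : ℕ → ℕ → ℝ} (ht : ∀ N, 4 ≤ N → PS (fun k => Z k N)) (hs : ∀ k, PS (fun N => Z k N))
include hs

theorem GapOf_a {k N : ℕ} (hN : 4 ≤ N) (heN : Even N) {t s D : ℝ}
    (hT : Z k N ^ 2 ≤ (1 + t) * Z (2 * k) N) (hS : Z (2 * k) N ^ 2 ≤ (1 + s) * Z (2 * k) (2 * N))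
    (hD0 : 0 ≤ D) (hD : (1 + t) ^ 2 * (1 + s) ≤ 1 + D) {L : ℕ} (heL : Even L) (h1 : N ≤ L)
    (h2 : L ≤ 2 * N) : Z k L ^ 2 ≤ (1 + D) * Z (2 * k) L := by
  have he2 : Even (2 * N) := even_two_mul N
  have p1 : 0 ≤ Z k L := (hs k).nonneg (hN.trans h1) heL
  have p2 : 0 ≤ Z (2 * k) L := (hs (2 * k)).nonneg (hN.trans h1) heL
  have p3 : 0 ≤ Z (2 * k) (2 * N) := (hs (2 * k)).nonneg (by omega) he2
  have a1 : Z k L ^ N ≤ Z k N ^ L := (hs k).pow_le hN heN heL h1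
  have a2 : Z (2 * k) (2 * N) ^ L ≤ Z (2 * k) L ^ (2 * N) :=
    (hs (2 * k)).pow_le (hN.trans h1) heL he2 h2
  have a3 : Z k N ^ 4 ≤ (1 + D) * Z (2 * k) (2 * N) := by
    calc Z k N ^ 4 = (Z k N ^ 2) ^ 2 := by ring
      _ ≤ ((1 + t) * Z (2 * k) N) ^ 2 := pow_le_pow_left₀ (sq_nonneg _) hT 2
      _ = (1 + t) ^ 2 * Z (2 * k) N ^ 2 := by ring
      _ ≤ (1 + t) ^ 2 * ((1 + s) * Z (2 * k) (2 * N)) :=
          mul_le_mul_of_nonneg_left hS (sq_nonneg _)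
      _ = ((1 + t) ^ 2 * (1 + s)) * Z (2 * k) (2 * N) := by ring
      _ ≤ _ := mul_le_mul_of_nonneg_right hD p3
  refine le_of_pow_le_pow_left₀ (n := 2 * N) (by omega) (mul_nonneg (by linarith) p2) ?_
  calc (Z k L ^ 2) ^ (2 * N) = (Z k L ^ N) ^ 4 := by ring
    _ ≤ (Z k N ^ L) ^ 4 := pow_le_pow_left₀ (pow_nonneg p1 _) a1 4
    _ = (Z k N ^ 4) ^ L := by ring
    _ ≤ ((1 + D) * Z (2 * k) (2 * N)) ^ L := pow_le_pow_left₀ (by positivity) a3 L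
    _ = (1 + D) ^ L * Z (2 * k) (2 * N) ^ L := mul_pow _ _ _
    _ ≤ (1 + D) ^ (2 * N) * Z (2 * k) L ^ (2 * N) :=
        mul_le_mul (pow_le_pow_right₀ (by linarith) h2) a2 (pow_nonneg p3 _) (by positivity)
    _ = _ := (mul_pow _ _ _).symm

include ht in
theorem GapOf_step {k N : ℕ} (hk : 4 ≤ k) (hek : Even k) (hN : 4 ≤ N) (heN : Even N)
    {t s D t1 u s1 t2 : ℝ}
    (hT : Z k N ^ 2 ≤ (1 + t) * Z (2 * k) N) (hS : Z (2 * k) N ^ 2 ≤ (1 + s) * Z (2 * k) (2 * N))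
    (hD0 : 0 ≤ D) (hD1 : D ≤ 2 / 5) (hD : (1 + t) ^ 2 * (1 + s) ≤ 1 + D)
    (ht1 : (1 + (53 / 100 * D) ^ 2) ^ 2 ≤ 1 + t1) (hu0 : 0 ≤ u) (hu1 : u ≤ 2 / 5)
    (hu : (1 + s) ^ 2 * (1 + t1) ≤ 1 + u) (hs1 : (1 + (53 / 100 * u) ^ 2) ^ 2 ≤ 1 + s1)
    (ht2 : t1 ≤ t2) :
    Z (2 * k) (2 * N) ^ 2 ≤ (1 + t2) * Z (2 * (2 * k)) (2 * N) ∧
      Z (2 * (2 * k)) (2 * N) ^ 2 ≤ (1 + s1) * Z (2 * (2 * k)) (2 * (2 * N)) := by
  have he2 : Even (2 * N) := even_two_mul N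
  have e1 : 2 * (2 * k) = 4 * k := by ring
  have e2 : 2 * (2 * N) = 4 * N := by ring
  rw [e1, e2]
  have p1 : 0 ≤ Z (4 * k) (2 * N) := (hs (4 * k)).nonneg (by omega) he2
  have p2 : 0 ≤ Z (4 * k) (4 * N) := (hs (4 * k)).nonneg (by omega) (e2 ▸ even_two_mul _)
  have p3 : 0 ≤ Z (4 * k) N := (hs (4 * k)).nonneg hN heN
  have a1 := GapOf_a hs hN heN hT hS hD0 hD he2 (by omega) le_rfl
  have a2 : Z (2 * k) (2 * N) ^ 2 ≤ (1 + t1) * Z (4 * k) (2 * N) :=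
    ((ht (2 * N) (by omega)).purity hk hek hD0 hD1 a1).trans (mul_le_mul_of_nonneg_right ht1 p1)
  refine ⟨a2.trans (mul_le_mul_of_nonneg_right (by linarith) p1), ?_⟩
  have a3 : Z (4 * k) N ≤ Z (2 * k) N ^ 2 := by
    have := (ht N hN).mul_le_pow (k := 2 * k) (by omega) (even_two_mul k) (m := 2) (by norm_num)
    rwa [e1] at this
  have a4 : Z (4 * k) N ^ 2 ≤ (1 + u) * Z (4 * k) (2 * N) := by
    calc Z (4 * k) N ^ 2 ≤ ((1 + s) * Z (2 * k) (2 * N)) ^ 2 :=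
          pow_le_pow_left₀ p3 (a3.trans hS) 2
      _ = (1 + s) ^ 2 * Z (2 * k) (2 * N) ^ 2 := by ring
      _ ≤ (1 + s) ^ 2 * ((1 + t1) * Z (4 * k) (2 * N)) :=
          mul_le_mul_of_nonneg_left a2 (sq_nonneg _)
      _ = ((1 + s) ^ 2 * (1 + t1)) * Z (4 * k) (2 * N) := by ring
      _ ≤ _ := mul_le_mul_of_nonneg_right hu p1
  exact ((hs (4 * k)).purity hN heN hu0 hu1 a4).trans (mul_le_mul_of_nonneg_right hs1 p2)

end Boot

theorem GapOf_num {v : ℝ} (h0 : 0 < v) (h1 : v ≤ 1 / 2) :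
    (1 + v / 7) ^ 2 * (1 + v / 7) ≤ 1 + v / 2 ∧
    (1 + (53 / 100 * (v / 2)) ^ 2) ^ 2 ≤ 1 + v ^ 2 / 7 ∧
    (1 + v / 7) ^ 2 * (1 + v ^ 2 / 7) ≤ 1 + 2 / 5 * v ∧
    (1 + (53 / 100 * (2 / 5 * v)) ^ 2) ^ 2 ≤ 1 + v ^ 2 / 7 := by
  have a1 : v ^ 2 ≤ v / 2 := by nlinarith
  have a2 : v ^ 3 ≤ v ^ 2 / 2 := by nlinarith
  have a3 : v ^ 4 ≤ v ^ 3 / 2 := by nlinarith [pow_pos h0 3]
  have a4 := pow_pos h0 2
  have a5 := pow_pos h0 3
  have a6 := pow_pos h0 4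
  refine ⟨?_, ?_, ?_, ?_⟩ <;> nlinarith

theorem bootstrap (Z : ℕ → ℕ → ℝ) (ht : ∀ N, 4 ≤ N → PS (fun k => Z k N))
    (hs : ∀ k, PS (fun N => Z k N))
    (h1 : Z 12 60 ^ 2 ≤ (1 + 7 / 100) * Z 24 60) (h2 : Z 24 60 ^ 2 ≤ (1 + 13 / 100) * Z 24 120) :
    ∀ i L : ℕ, Even L → 120 * 2 ^ i ≤ L → L ≤ 240 * 2 ^ i →
      Z (24 * 2 ^ i) L ^ 2 ≤ (1 + (1 / 2 : ℝ) ^ (2 ^ i) / 2) * Z (48 * 2 ^ i) L := by
  have hv0 : ∀ i : ℕ, (0 : ℝ) < (1 / 2 : ℝ) ^ (2 ^ i) := fun i => by positivity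
  have hv1 : ∀ i : ℕ, (1 / 2 : ℝ) ^ (2 ^ i) ≤ 1 / 2 := fun i =>
    pow_le_of_le_one (by norm_num) (by norm_num) (by positivity)
  have hp : ∀ i : ℕ, 1 ≤ 2 ^ i := fun i => Nat.one_le_two_pow
  have he : ∀ c i : ℕ, Even (2 * c * 2 ^ i) := fun c i => (even_two_mul c).mul_right _
  have key : ∀ i : ℕ,
      Z (24 * 2 ^ i) (120 * 2 ^ i) ^ 2 ≤
        (1 + (1 / 2 : ℝ) ^ (2 ^ i) / 7) * Z (2 * (24 * 2 ^ i)) (120 * 2 ^ i) ∧
      Z (2 * (24 * 2 ^ i)) (120 * 2 ^ i) ^ 2 ≤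
        (1 + (1 / 2 : ℝ) ^ (2 ^ i) / 7) * Z (2 * (24 * 2 ^ i)) (2 * (120 * 2 ^ i)) := by
    intro i
    induction i with
    | zero =>
      exact GapOf_step ht hs (k := 12) (N := 60) (by norm_num) (by decide) (by norm_num)
        (by decide) h1 h2 (D := 294 / 1000) (t1 := 5 / 100) (u := 341 / 1000) (by norm_num)
        (by norm_num) (by norm_num) (by norm_num) (by norm_num) (by norm_num) (by norm_num)
        (by norm_num) (by norm_num)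
    | succ i ih =>
      have e1 : 24 * 2 ^ (i + 1) = 2 * (24 * 2 ^ i) := by ring
      have e2 : 120 * 2 ^ (i + 1) = 2 * (120 * 2 ^ i) := by ring
      have e3 : (1 / 2 : ℝ) ^ (2 ^ (i + 1)) = ((1 / 2 : ℝ) ^ (2 ^ i)) ^ 2 := by
        rw [pow_succ, pow_mul]
      rw [e1, e2, e3]
      obtain ⟨n1, n2, n3, n4⟩ := GapOf_num (hv0 i) (hv1 i)
      have q0 := hv0 i
      have q1 := hv1 i
      have q2 := hp i
      exact GapOf_step ht hs (by omega) (he 12 i) (by omega) (he 60 i) ih.1 ih.2 (by linarith)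
        (by linarith) n1 n2 (by linarith) (by linarith) n3 n4 le_rfl
  intro i L heL hL1 hL2
  have e1 : 48 * 2 ^ i = 2 * (24 * 2 ^ i) := by ring
  have q0 := hv0 i
  have q2 := hp i
  rw [e1]
  exact GapOf_a hs (by omega) (he 60 i) (key i).1 (key i).2 (by linarith)
    (GapOf_num (hv0 i) (hv1 i)).1 heL hL1 (by omega)

end Vale.Agent.P348
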