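import Vale.Agent.P348.Init
import Vale.Agent.P348.GapOf

/-! The uniform gap of the real form of the Hamiltonian, from the two starting inequalities. -/

namespace Vale.Agent.P348

open Matrix

/-- the spectrum of the ring of length `L` has a least point, at distance at least `d` from the rest -/
def GapAt (L : ℕ) (d : ℝ) : Prop :=
  ∃ E0, IsLeast (spectrum ℝ (Hr L 0)) E0 ∧ ∀ E ∈ spectrum ℝ (Hr L 0), E ≠ E0 → E0 + d ≤ E

theorem GapAt.mono {L : ℕ} {d d' : ℝ} (h : GapAt L d) (hd : d' ≤ d) : GapAt L d' := by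
  obtain ⟨E0, h1, h2⟩ := h
  exact ⟨E0, h1, fun E hE hne => by linarith [h2 E hE hne]⟩

theorem gap_small (M : ℕ) : ∃ d > 0, ∀ L, 2 ≤ L → L < M → GapAt L d := by
  induction M with
  | zero => exact ⟨1, one_pos, fun L _ h => absurd h (Nat.not_lt_zero L)⟩
  | succ M ih =>
    obtain ⟨d, hd, h⟩ := ih
    by_cases hM : 2 ≤ M
    · obtain ⟨d', hd', h'⟩ := gap_finite M hM
      refine ⟨min d d', lt_min hd hd', fun L h1 h2 => ?_⟩
      rcases Nat.lt_succ_iff_lt_or_eq.1 h2 with h3 | rfl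
      · exact (h L h1 h3).mono (min_le_left _ _)
      · exact GapAt.mono h' (min_le_right _ _)
    · exact ⟨d, hd, fun L h1 h2 => h L h1 (by omega)⟩

theorem exists_scale (L : ℕ) (hL : 120 ≤ L) : ∃ i, 120 * 2 ^ i ≤ L ∧ L ≤ 240 * 2 ^ i := by
  induction L, hL using Nat.le_induction with
  | base => exact ⟨0, by norm_num, by norm_num⟩
  | succ L _ ih =>
    obtain ⟨i, h1, h2⟩ := ih
    by_cases h : L + 1 ≤ 240 * 2 ^ i
    · exact ⟨i, by omega, h⟩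
    · exact ⟨i + 1, by rw [pow_succ]; omega, by rw [pow_succ]; omega⟩

theorem purity_large
    (h1 : Zf ((12 : ℕ) * (7 / 4)) 60 0 0 ^ 2 ≤ (1 + 7 / 100) * Zf ((24 : ℕ) * (7 / 4)) 60 0 0)
    (h2 : Zf ((24 : ℕ) * (7 / 4)) 60 0 0 ^ 2 ≤ (1 + 13 / 100) * Zf ((24 : ℕ) * (7 / 4)) 120 0 0)
    (L : ℕ) (he : Even L) (hL : 120 ≤ L) : ∃ β u : ℝ, 0 < β ∧ 0 < u ∧ u ≤ 2 / 5 ∧
      Real.log 2 / 42 ≤ -Real.log u / β ∧ Zf β L 0 0 ^ 2 ≤ (1 + u) * Zf (2 * β) L 0 0 := by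
  obtain ⟨i, i1, i2⟩ := exists_scale L hL
  have h := bootstrap (fun k N => Zf (k * (7 / 4)) N 0 0)
    (fun N hN => ps_time_tot (7 / 4) N (by omega) 0)
    (fun k => ps_space_tot _ (by positivity) 0) h1 h2 i L he i1 i2
  have e1 : ((24 * 2 ^ i : ℕ) : ℝ) * (7 / 4) = 42 * 2 ^ i := by
    push_cast
    ring
  have e2 : ((48 * 2 ^ i : ℕ) : ℝ) * (7 / 4) = 2 * (42 * 2 ^ i) := by
    push_cast
    ring
  rw [e1, e2] at h
  refine ⟨42 * 2 ^ i, (1 / 2 : ℝ) ^ (2 ^ i) / 2, by positivity, by positivity, ?_, ?_, h⟩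
  · have : (1 / 2 : ℝ) ^ (2 ^ i) ≤ (1 / 2) ^ 1 :=
      pow_le_pow_of_le_one (by norm_num) (by norm_num) Nat.one_le_two_pow
    linarith
  · have l2 : 0 < Real.log 2 := Real.log_pos (by norm_num)
    rw [Real.log_div (by positivity) (by norm_num), Real.log_pow, one_div, Real.log_inv,
      div_le_div_iff₀ (by norm_num) (by positivity)]
    push_cast
    nlinarith

theorem gap_large
    (h1 : Zf ((12 : ℕ) * (7 / 4)) 60 0 0 ^ 2 ≤ (1 + 7 / 100) * Zf ((24 : ℕ) * (7 / 4)) 60 0 0)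
    (h2 : Zf ((24 : ℕ) * (7 / 4)) 60 0 0 ^ 2 ≤ (1 + 13 / 100) * Zf ((24 : ℕ) * (7 / 4)) 120 0 0)
    (L : ℕ) (he : Even L) (hL : 120 ≤ L) : GapAt L (Real.log 2 / 42) := by
  obtain ⟨β, u, hβ, hu, hu', hd, h⟩ := purity_large h1 h2 L he hL
  exact GapAt.mono (gap_of_purity L (by omega) β u hβ hu hu' h) hd

theorem gap_all
    (h1 : Zf ((12 : ℕ) * (7 / 4)) 60 0 0 ^ 2 ≤ (1 + 7 / 100) * Zf ((24 : ℕ) * (7 / 4)) 60 0 0)
    (h2 : Zf ((24 : ℕ) * (7 / 4)) 60 0 0 ^ 2 ≤ (1 + 13 / 100) * Zf ((24 : ℕ) * (7 / 4)) 120 0 0) :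
    ∃ d > 0, ∀ L, Even L → 4 ≤ L → GapAt L d := by
  obtain ⟨d, hd, h⟩ := gap_small 120
  have l2 : 0 < Real.log 2 / 42 := div_pos (Real.log_pos (by norm_num)) (by norm_num)
  refine ⟨min d (Real.log 2 / 42), lt_min hd l2, fun L he hL => ?_⟩
  rcases lt_or_ge L 120 with h3 | h3
  · exact (h L (by omega) h3).mono (min_le_left _ _)
  · exact (gap_large h1 h2 L he h3).mono (min_le_right _ _)

end Vale.Agent.P348
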