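import Vale.Agent.P348.Init
import Vale.Agent.P348.G.All10

/-! Enclosures of the partition functions of the ring with 10 sites. -/

set_option maxRecDepth 100000

namespace Vale.Agent.P348.M10

open Matrix

theorem s0_0 : wsum (phi1 10 false cf10) (repL 10 0) =
    ((5834773803750173882685240408682221158083022576521708658 : ℕ) : ℝ) :=
  Cov.val _ (Cov.app (Cov.one 10 9 rfl (by decide) (by decide) A10_0.side_ok0 R10_0_0_0.res)
    (Cov.nil _ _ _ _))
    A10_0.cover A10_0.len_ok A10_0.wt_ok (by decide +kernel)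

theorem s1_0 : wsum (phi1 10 false cf10) (repL 10 1) =
    ((7560809337652434794785381111235952789777827822973449544660 : ℕ) : ℝ) :=
  Cov.val _ (Cov.app (Cov.one 10 9 rfl (by decide) (by decide) A10_1.side_ok0 R10_1_0_0.res)
    (Cov.nil _ _ _ _))
    A10_1.cover A10_1.len_ok A10_1.wt_ok (by decide +kernel)

theorem s2_0 : wsum (phi1 10 false cf10) (repL 10 2) =
    ((57396962577335376882356873907673946617227122230012562702810 : ℕ) : ℝ) :=
  Cov.val _ (Cov.app (Cov.one 10 9 rfl (by decide) (by decide) A10_2.side_ok0 R10_2_0_0.res)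
    (Cov.nil _ _ _ _))
    A10_2.cover A10_2.len_ok A10_2.wt_ok (by decide +kernel)

theorem s3_0 : wsum (phi1 10 false cf10) (repL 10 3) =
    ((214584020418154911459232067065630196137964118397067176439220 : ℕ) : ℝ) :=
  Cov.val _ (Cov.app (Cov.one 10 9 rfl (by decide) (by decide) A10_3.side_ok0 R10_3_0_0.res)
    (Cov.nil _ _ _ _))
    A10_3.cover A10_3.len_ok A10_3.wt_ok (by decide +kernel)

theorem s4_0 : wsum (phi1 10 false cf10) (repL 10 4) =
    ((702169994516375763787313793691746819301112408207590817985530 : ℕ) : ℝ) :=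
  Cov.val _ (Cov.app (Cov.one 10 9 rfl (by decide) (by decide) A10_4.side_ok0 R10_4_0_0.res)
    (Cov.nil _ _ _ _))
    A10_4.cover A10_4.len_ok A10_4.wt_ok (by decide +kernel)

theorem s5_0 : wsum (phi1 10 false cf10) (repL 10 5) =
    ((1786416358526051941569299571962311602235068872111958585601776 : ℕ) : ℝ) :=
  Cov.val _ (Cov.app (Cov.one 10 9 rfl (by decide) (by decide) A10_5.side_ok0 R10_5_0_0.res)
    (Cov.nil _ _ _ _))
    A10_5.cover A10_5.len_ok A10_5.wt_ok (by decide +kernel)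

theorem s6_0 : wsum (phi1 10 false cf10) (repL 10 6) =
    ((3622220376236993929150336984291108307543850286032284274179280 : ℕ) : ℝ) :=
  Cov.val _ (Cov.app (Cov.one 10 9 rfl (by decide) (by decide) A10_6.side_ok0 R10_6_0_0.res)
    (Cov.app (Cov.one 10 9 rfl (by decide) (by decide) A10_6.side_ok1 R10_6_0_1.res)
    (Cov.nil _ _ _ _)))
    A10_6.cover A10_6.len_ok A10_6.wt_ok (by decide +kernel)

theorem s7_0 : wsum (phi1 10 false cf10) (repL 10 7) =
    ((865995868642208758586331919086615231348797492220038884780862160 : ℕ) : ℝ) :=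
  Cov.val _ (Cov.app (Cov.one 10 9 rfl (by decide) (by decide) A10_7.side_ok0 R10_7_0_0.res)
    (Cov.app (Cov.one 10 9 rfl (by decide) (by decide) A10_7.side_ok1 R10_7_0_1.res)
    (Cov.app (Cov.one 10 9 rfl (by decide) (by decide) A10_7.side_ok2 R10_7_0_2.res)
    (Cov.app (Cov.one 10 9 rfl (by decide) (by decide) A10_7.side_ok3 R10_7_0_3.res)
    (Cov.app (Cov.one 10 9 rfl (by decide) (by decide) A10_7.side_ok4 R10_7_0_4.res)
    (Cov.app (Cov.one 10 9 rfl (by decide) (by decide) A10_7.side_ok5 R10_7_0_5.res)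
    (Cov.nil _ _ _ _)))))))
    A10_7.cover A10_7.len_ok A10_7.wt_ok (by decide +kernel)

theorem s8_0 : wsum (phi1 10 false cf10) (repL 10 8) =
    ((20786915311389331870323609213384965469682632145492582109269497432850 : ℕ) : ℝ) :=
  Cov.val _ (Cov.app (Cov.one 10 9 rfl (by decide) (by decide) A10_8.side_ok0 R10_8_0_0.res)
    (Cov.app (Cov.one 10 9 rfl (by decide) (by decide) A10_8.side_ok1 R10_8_0_1.res)
    (Cov.app (Cov.one 10 9 rfl (by decide) (by decide) A10_8.side_ok2 R10_8_0_2.res)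
    (Cov.app (Cov.one 10 9 rfl (by decide) (by decide) A10_8.side_ok3 R10_8_0_3.res)
    (Cov.app (Cov.one 10 9 rfl (by decide) (by decide) A10_8.side_ok4 R10_8_0_4.res)
    (Cov.app (Cov.one 10 9 rfl (by decide) (by decide) A10_8.side_ok5 R10_8_0_5.res)
    (Cov.app (Cov.one 10 9 rfl (by decide) (by decide) A10_8.side_ok6 R10_8_0_6.res)
    (Cov.app (Cov.one 10 9 rfl (by decide) (by decide) A10_8.side_ok7 R10_8_0_7.res)
    (Cov.app (Cov.one 10 9 rfl (by decide) (by decide) A10_8.side_ok8 R10_8_0_8.res)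
    (Cov.app (Cov.one 10 9 rfl (by decide) (by decide) A10_8.side_ok9 R10_8_0_9.res)
    (Cov.app (Cov.one 10 9 rfl (by decide) (by decide) A10_8.side_ok10 R10_8_0_10.res)
    (Cov.app (Cov.one 10 9 rfl (by decide) (by decide) A10_8.side_ok11 R10_8_0_11.res)
    (Cov.nil _ _ _ _)))))))))))))
    A10_8.cover A10_8.len_ok A10_8.wt_ok (by decide +kernel)

theorem s9_0 : wsum (phi1 10 false cf10) (repL 10 9) =
    ((18802313837132661177109047042586766550724915875277043324847953293950820 : ℕ) : ℝ) :=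
  Cov.val _ (Cov.app (Cov.one 10 9 rfl (by decide) (by decide) A10_9.side_ok0 R10_9_0_0.res)
    (Cov.app (Cov.one 10 9 rfl (by decide) (by decide) A10_9.side_ok1 R10_9_0_1.res)
    (Cov.app (Cov.one 10 9 rfl (by decide) (by decide) A10_9.side_ok2 R10_9_0_2.res)
    (Cov.app (Cov.one 10 9 rfl (by decide) (by decide) A10_9.side_ok3 R10_9_0_3.res)
    (Cov.app (Cov.one 10 9 rfl (by decide) (by decide) A10_9.side_ok4 R10_9_0_4.res)
    (Cov.app (Cov.one 10 9 rfl (by decide) (by decide) A10_9.side_ok5 R10_9_0_5.res)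
    (Cov.app (Cov.one 10 9 rfl (by decide) (by decide) A10_9.side_ok6 R10_9_0_6.res)
    (Cov.app (Cov.one 10 9 rfl (by decide) (by decide) A10_9.side_ok7 R10_9_0_7.res)
    (Cov.app (Cov.one 10 9 rfl (by decide) (by decide) A10_9.side_ok8 R10_9_0_8.res)
    (Cov.app (Cov.one 10 9 rfl (by decide) (by decide) A10_9.side_ok9 R10_9_0_9.res)
    (Cov.app (Cov.one 10 9 rfl (by decide) (by decide) A10_9.side_ok10 R10_9_0_10.res)
    (Cov.app (Cov.one 10 9 rfl (by decide) (by decide) A10_9.side_ok11 R10_9_0_11.res)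
    (Cov.app (Cov.one 10 9 rfl (by decide) (by decide) A10_9.side_ok12 R10_9_0_12.res)
    (Cov.app (Cov.one 10 9 rfl (by decide) (by decide) A10_9.side_ok13 R10_9_0_13.res)
    (Cov.app (Cov.one 10 9 rfl (by decide) (by decide) A10_9.side_ok14 R10_9_0_14.res)
    (Cov.app (Cov.one 10 9 rfl (by decide) (by decide) A10_9.side_ok15 R10_9_0_15.res)
    (Cov.app (Cov.one 10 9 rfl (by decide) (by decide) A10_9.side_ok16 R10_9_0_16.res)
    (Cov.app (Cov.one 10 9 rfl (by decide) (by decide) A10_9.side_ok17 R10_9_0_17.res)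
    (Cov.app (Cov.one 10 9 rfl (by decide) (by decide) A10_9.side_ok18 R10_9_0_18.res)
    (Cov.nil _ _ _ _))))))))))))))))))))
    A10_9.cover A10_9.len_ok A10_9.wt_ok (by decide +kernel)

theorem s10_0 : wsum (phi1 10 false cf10) (repL 10 10) =
    ((378964231884218860508797983245365553647509447671458209197451234399281917 : ℕ) : ℝ) :=
  Cov.val _ (Cov.app (Cov.one 10 9 rfl (by decide) (by decide) A10_10.side_ok0 R10_10_0_0.res)
    (Cov.app (Cov.one 10 9 rfl (by decide) (by decide) A10_10.side_ok1 R10_10_0_1.res)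
    (Cov.app (Cov.one 10 9 rfl (by decide) (by decide) A10_10.side_ok2 R10_10_0_2.res)
    (Cov.app (Cov.one 10 9 rfl (by decide) (by decide) A10_10.side_ok3 R10_10_0_3.res)
    (Cov.app (Cov.one 10 9 rfl (by decide) (by decide) A10_10.side_ok4 R10_10_0_4.res)
    (Cov.app (Cov.one 10 9 rfl (by decide) (by decide) A10_10.side_ok5 R10_10_0_5.res)
    (Cov.app (Cov.one 10 9 rfl (by decide) (by decide) A10_10.side_ok6 R10_10_0_6.res)
    (Cov.app (Cov.one 10 9 rfl (by decide) (by decide) A10_10.side_ok7 R10_10_0_7.res)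
    (Cov.app (Cov.one 10 9 rfl (by decide) (by decide) A10_10.side_ok8 R10_10_0_8.res)
    (Cov.app (Cov.one 10 9 rfl (by decide) (by decide) A10_10.side_ok9 R10_10_0_9.res)
    (Cov.app (Cov.one 10 9 rfl (by decide) (by decide) A10_10.side_ok10 R10_10_0_10.res)
    (Cov.app (Cov.one 10 9 rfl (by decide) (by decide) A10_10.side_ok11 R10_10_0_11.res)
    (Cov.app (Cov.one 10 9 rfl (by decide) (by decide) A10_10.side_ok12 R10_10_0_12.res)
    (Cov.app (Cov.one 10 9 rfl (by decide) (by decide) A10_10.side_ok13 R10_10_0_13.res)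
    (Cov.app (Cov.one 10 9 rfl (by decide) (by decide) A10_10.side_ok14 R10_10_0_14.res)
    (Cov.nil _ _ _ _))))))))))))))))
    A10_10.cover A10_10.len_ok A10_10.wt_ok (by decide +kernel)

theorem s0_1 : wsum (phi1 10 true cf10) (repL 10 0) =
    ((5834773803750173882685240408682221158083022576521708658 : ℕ) : ℝ) :=
  Cov.val _ (Cov.app (Cov.one 10 9 rfl (by decide) (by decide) A10_0.side_ok0 R10_0_1_0.res)
    (Cov.nil _ _ _ _))
    A10_0.cover A10_0.len_ok A10_0.wt_ok (by decide +kernel)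

theorem s1_1 : wsum (phi1 10 true cf10) (repL 10 1) =
    ((8014176085503527126504629275589300048839213257472576198340 : ℕ) : ℝ) :=
  Cov.val _ (Cov.app (Cov.one 10 9 rfl (by decide) (by decide) A10_1.side_ok0 R10_1_1_0.res)
    (Cov.nil _ _ _ _))
    A10_1.cover A10_1.len_ok A10_1.wt_ok (by decide +kernel)

theorem s2_1 : wsum (phi1 10 true cf10) (repL 10 2) =
    ((56556248481751017380924531295809729406805588840070369489690 : ℕ) : ℝ) :=
  Cov.val _ (Cov.app (Cov.one 10 9 rfl (by decide) (by decide) A10_2.side_ok0 R10_2_1_0.res)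
    (Cov.nil _ _ _ _))
    A10_2.cover A10_2.len_ok A10_2.wt_ok (by decide +kernel)

theorem s3_1 : wsum (phi1 10 true cf10) (repL 10 3) =
    ((260338239587952291368853750606794516905314788921598380841780 : ℕ) : ℝ) :=
  Cov.val _ (Cov.app (Cov.one 10 9 rfl (by decide) (by decide) A10_3.side_ok0 R10_3_1_0.res)
    (Cov.nil _ _ _ _))
    A10_3.cover A10_3.len_ok A10_3.wt_ok (by decide +kernel)

theorem s4_1 : wsum (phi1 10 true cf10) (repL 10 4) =
    ((729443587192879808576148314256772390351945601100369979956410 : ℕ) : ℝ) :=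
  Cov.val _ (Cov.app (Cov.one 10 9 rfl (by decide) (by decide) A10_4.side_ok0 R10_4_1_0.res)
    (Cov.nil _ _ _ _))
    A10_4.cover A10_4.len_ok A10_4.wt_ok (by decide +kernel)

theorem s5_1 : wsum (phi1 10 true cf10) (repL 10 5) =
    ((1819171327033238913711874570945925203972795257888183899467296 : ℕ) : ℝ) :=
  Cov.val _ (Cov.app (Cov.one 10 9 rfl (by decide) (by decide) A10_5.side_ok0 R10_5_1_0.res)
    (Cov.nil _ _ _ _))
    A10_5.cover A10_5.len_ok A10_5.wt_ok (by decide +kernel)

theorem s6_1 : wsum (phi1 10 true cf10) (repL 10 6) =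
    ((3668150955736719805485111989273992608177354666292214309939280 : ℕ) : ℝ) :=
  Cov.val _ (Cov.app (Cov.one 10 9 rfl (by decide) (by decide) A10_6.side_ok0 R10_6_1_0.res)
    (Cov.app (Cov.one 10 9 rfl (by decide) (by decide) A10_6.side_ok1 R10_6_1_1.res)
    (Cov.nil _ _ _ _)))
    A10_6.cover A10_6.len_ok A10_6.wt_ok (by decide +kernel)

theorem s7_1 : wsum (phi1 10 true cf10) (repL 10 7) =
    ((74795237257960145788808767692464355519574261608950489909532720 : ℕ) : ℝ) :=
  Cov.val _ (Cov.app (Cov.one 10 9 rfl (by decide) (by decide) A10_7.side_ok0 R10_7_1_0.res)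
    (Cov.app (Cov.one 10 9 rfl (by decide) (by decide) A10_7.side_ok1 R10_7_1_1.res)
    (Cov.app (Cov.one 10 9 rfl (by decide) (by decide) A10_7.side_ok2 R10_7_1_2.res)
    (Cov.app (Cov.one 10 9 rfl (by decide) (by decide) A10_7.side_ok3 R10_7_1_3.res)
    (Cov.app (Cov.one 10 9 rfl (by decide) (by decide) A10_7.side_ok4 R10_7_1_4.res)
    (Cov.app (Cov.one 10 9 rfl (by decide) (by decide) A10_7.side_ok5 R10_7_1_5.res)
    (Cov.nil _ _ _ _)))))))
    A10_7.cover A10_7.len_ok A10_7.wt_ok (by decide +kernel)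

theorem s8_1 : wsum (phi1 10 true cf10) (repL 10 8) =
    ((1707273112122844243854561431506854064326454524285937249898234663570 : ℕ) : ℝ) :=
  Cov.val _ (Cov.app (Cov.one 10 9 rfl (by decide) (by decide) A10_8.side_ok0 R10_8_1_0.res)
    (Cov.app (Cov.one 10 9 rfl (by decide) (by decide) A10_8.side_ok1 R10_8_1_1.res)
    (Cov.app (Cov.one 10 9 rfl (by decide) (by decide) A10_8.side_ok2 R10_8_1_2.res)
    (Cov.app (Cov.one 10 9 rfl (by decide) (by decide) A10_8.side_ok3 R10_8_1_3.res)
    (Cov.app (Cov.one 10 9 rfl (by decide) (by decide) A10_8.side_ok4 R10_8_1_4.res)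
    (Cov.app (Cov.one 10 9 rfl (by decide) (by decide) A10_8.side_ok5 R10_8_1_5.res)
    (Cov.app (Cov.one 10 9 rfl (by decide) (by decide) A10_8.side_ok6 R10_8_1_6.res)
    (Cov.app (Cov.one 10 9 rfl (by decide) (by decide) A10_8.side_ok7 R10_8_1_7.res)
    (Cov.app (Cov.one 10 9 rfl (by decide) (by decide) A10_8.side_ok8 R10_8_1_8.res)
    (Cov.app (Cov.one 10 9 rfl (by decide) (by decide) A10_8.side_ok9 R10_8_1_9.res)
    (Cov.app (Cov.one 10 9 rfl (by decide) (by decide) A10_8.side_ok10 R10_8_1_10.res)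
    (Cov.app (Cov.one 10 9 rfl (by decide) (by decide) A10_8.side_ok11 R10_8_1_11.res)
    (Cov.nil _ _ _ _)))))))))))))
    A10_8.cover A10_8.len_ok A10_8.wt_ok (by decide +kernel)

theorem s9_1 : wsum (phi1 10 true cf10) (repL 10 9) =
    ((2284920249543130638321163451763970597907751023514412317657142325010660 : ℕ) : ℝ) :=
  Cov.val _ (Cov.app (Cov.one 10 9 rfl (by decide) (by decide) A10_9.side_ok0 R10_9_1_0.res)
    (Cov.app (Cov.one 10 9 rfl (by decide) (by decide) A10_9.side_ok1 R10_9_1_1.res)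
    (Cov.app (Cov.one 10 9 rfl (by decide) (by decide) A10_9.side_ok2 R10_9_1_2.res)
    (Cov.app (Cov.one 10 9 rfl (by decide) (by decide) A10_9.side_ok3 R10_9_1_3.res)
    (Cov.app (Cov.one 10 9 rfl (by decide) (by decide) A10_9.side_ok4 R10_9_1_4.res)
    (Cov.app (Cov.one 10 9 rfl (by decide) (by decide) A10_9.side_ok5 R10_9_1_5.res)
    (Cov.app (Cov.one 10 9 rfl (by decide) (by decide) A10_9.side_ok6 R10_9_1_6.res)
    (Cov.app (Cov.one 10 9 rfl (by decide) (by decide) A10_9.side_ok7 R10_9_1_7.res)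
    (Cov.app (Cov.one 10 9 rfl (by decide) (by decide) A10_9.side_ok8 R10_9_1_8.res)
    (Cov.app (Cov.one 10 9 rfl (by decide) (by decide) A10_9.side_ok9 R10_9_1_9.res)
    (Cov.app (Cov.one 10 9 rfl (by decide) (by decide) A10_9.side_ok10 R10_9_1_10.res)
    (Cov.app (Cov.one 10 9 rfl (by decide) (by decide) A10_9.side_ok11 R10_9_1_11.res)
    (Cov.app (Cov.one 10 9 rfl (by decide) (by decide) A10_9.side_ok12 R10_9_1_12.res)
    (Cov.app (Cov.one 10 9 rfl (by decide) (by decide) A10_9.side_ok13 R10_9_1_13.res)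
    (Cov.app (Cov.one 10 9 rfl (by decide) (by decide) A10_9.side_ok14 R10_9_1_14.res)
    (Cov.app (Cov.one 10 9 rfl (by decide) (by decide) A10_9.side_ok15 R10_9_1_15.res)
    (Cov.app (Cov.one 10 9 rfl (by decide) (by decide) A10_9.side_ok16 R10_9_1_16.res)
    (Cov.app (Cov.one 10 9 rfl (by decide) (by decide) A10_9.side_ok17 R10_9_1_17.res)
    (Cov.app (Cov.one 10 9 rfl (by decide) (by decide) A10_9.side_ok18 R10_9_1_18.res)
    (Cov.nil _ _ _ _))))))))))))))))))))
    A10_9.cover A10_9.len_ok A10_9.wt_ok (by decide +kernel)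

theorem s10_1 : wsum (phi1 10 true cf10) (repL 10 10) =
    ((179281431035798862144175235925830866100793878831930115562075860134094077 : ℕ) : ℝ) :=
  Cov.val _ (Cov.app (Cov.one 10 9 rfl (by decide) (by decide) A10_10.side_ok0 R10_10_1_0.res.1)
    (Cov.app (Cov.one 10 9 rfl (by decide) (by decide) A10_10.side_ok1 R10_10_1_1.res.1)
    (Cov.app (Cov.one 10 9 rfl (by decide) (by decide) A10_10.side_ok2 R10_10_1_2.res.1)
    (Cov.app (Cov.one 10 9 rfl (by decide) (by decide) A10_10.side_ok3 R10_10_1_3.res.1)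
    (Cov.app (Cov.one 10 9 rfl (by decide) (by decide) A10_10.side_ok4 R10_10_1_4.res.1)
    (Cov.app (Cov.one 10 9 rfl (by decide) (by decide) A10_10.side_ok5 R10_10_1_5.res.1)
    (Cov.app (Cov.one 10 9 rfl (by decide) (by decide) A10_10.side_ok6 R10_10_1_6.res.1)
    (Cov.app (Cov.one 10 9 rfl (by decide) (by decide) A10_10.side_ok7 R10_10_1_7.res.1)
    (Cov.app (Cov.one 10 9 rfl (by decide) (by decide) A10_10.side_ok8 R10_10_1_8.res.1)
    (Cov.app (Cov.one 10 9 rfl (by decide) (by decide) A10_10.side_ok9 R10_10_1_9.res.1)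
    (Cov.app (Cov.one 10 9 rfl (by decide) (by decide) A10_10.side_ok10 R10_10_1_10.res.1)
    (Cov.app (Cov.one 10 9 rfl (by decide) (by decide) A10_10.side_ok11 R10_10_1_11.res.1)
    (Cov.app (Cov.one 10 9 rfl (by decide) (by decide) A10_10.side_ok12 R10_10_1_12.res.1)
    (Cov.app (Cov.one 10 9 rfl (by decide) (by decide) A10_10.side_ok13 R10_10_1_13.res.1)
    (Cov.app (Cov.one 10 9 rfl (by decide) (by decide) A10_10.side_ok14 R10_10_1_14.res.1)
    (Cov.nil _ _ _ _))))))))))))))))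
    A10_10.cover A10_10.len_ok A10_10.wt_ok (by decide +kernel)

theorem sF : wsum (phi2 10 true cf10) (repL 10 10) =
    ((42122880091983484064118178220153014893558396609513157947868906944760812 : ℕ) : ℝ) :=
  Cov.val _ (Cov.app (Cov.two 10 9 59048 rfl (by decide) (by decide) (by decide) A10_10.side_ok0 R10_10_1_0.res.2)
    (Cov.app (Cov.two 10 9 59048 rfl (by decide) (by decide) (by decide) A10_10.side_ok1 R10_10_1_1.res.2)
    (Cov.app (Cov.two 10 9 59048 rfl (by decide) (by decide) (by decide) A10_10.side_ok2 R10_10_1_2.res.2)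
    (Cov.app (Cov.two 10 9 59048 rfl (by decide) (by decide) (by decide) A10_10.side_ok3 R10_10_1_3.res.2)
    (Cov.app (Cov.two 10 9 59048 rfl (by decide) (by decide) (by decide) A10_10.side_ok4 R10_10_1_4.res.2)
    (Cov.app (Cov.two 10 9 59048 rfl (by decide) (by decide) (by decide) A10_10.side_ok5 R10_10_1_5.res.2)
    (Cov.app (Cov.two 10 9 59048 rfl (by decide) (by decide) (by decide) A10_10.side_ok6 R10_10_1_6.res.2)
    (Cov.app (Cov.two 10 9 59048 rfl (by decide) (by decide) (by decide) A10_10.side_ok7 R10_10_1_7.res.2)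
    (Cov.app (Cov.two 10 9 59048 rfl (by decide) (by decide) (by decide) A10_10.side_ok8 R10_10_1_8.res.2)
    (Cov.app (Cov.two 10 9 59048 rfl (by decide) (by decide) (by decide) A10_10.side_ok9 R10_10_1_9.res.2)
    (Cov.app (Cov.two 10 9 59048 rfl (by decide) (by decide) (by decide) A10_10.side_ok10 R10_10_1_10.res.2)
    (Cov.app (Cov.two 10 9 59048 rfl (by decide) (by decide) (by decide) A10_10.side_ok11 R10_10_1_11.res.2)
    (Cov.app (Cov.two 10 9 59048 rfl (by decide) (by decide) (by decide) A10_10.side_ok12 R10_10_1_12.res.2)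
    (Cov.app (Cov.two 10 9 59048 rfl (by decide) (by decide) (by decide) A10_10.side_ok13 R10_10_1_13.res.2)
    (Cov.app (Cov.two 10 9 59048 rfl (by decide) (by decide) (by decide) A10_10.side_ok14 R10_10_1_14.res.2)
    (Cov.nil _ _ _ _))))))))))))))))
    A10_10.cover A10_10.len_ok A10_10.wt_ok (by decide +kernel)

theorem T0_0 : trace (Gs 10 0 * Polynomial.aeval (Hs 10 false) (pl (cfZ cf10) ^ 2)) =
    (397787333509049134016372480591314831607589393034524396042271805359689681) := by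
  rw [trace_G0 10 (by norm_num)]
  simp only [Finset.sum_range_succ, Finset.sum_range_zero, s0_0, s1_0, s2_0, s3_0, s4_0, s5_0, s6_0, s7_0, s8_0, s9_0, s10_0]
  norm_num

theorem T3_0 : trace (Gs 10 3 * Polynomial.aeval (Hs 10 false) (pl (cfZ cf10) ^ 2)) =
    (360182704098774952001173150757830826292630743084049703315834130786892409) := by
  rw [trace_G3 10 (by norm_num)]
  simp only [Finset.sum_range_succ, Finset.sum_range_zero, s0_0, s1_0, s2_0, s3_0, s4_0, s5_0, s6_0, s7_0, s8_0, s9_0, s10_0]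
  norm_num

theorem T0_1 : trace (Gs 10 0 * Polynomial.aeval (Hs 10 true) (pl (cfZ cf10) ^ 2)) =
    (181568058639791033253592248841658411716125604260627288625255876640902481) := by
  rw [trace_G0 10 (by norm_num)]
  simp only [Finset.sum_range_succ, Finset.sum_range_zero, s0_1, s1_1, s2_1, s3_1, s4_1, s5_1, s6_1, s7_1, s8_1, s9_1, s10_1]
  norm_num

theorem T3_1 : trace (Gs 10 3 * Polynomial.aeval (Hs 10 true) (pl (cfZ cf10) ^ 2)) =
    (176998217986939249975616240896098469233724773132596042251906102458800889) := by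
  rw [trace_G3 10 (by norm_num)]
  simp only [Finset.sum_range_succ, Finset.sum_range_zero, s0_1, s1_1, s2_1, s3_1, s4_1, s5_1, s6_1, s7_1, s8_1, s9_1, s10_1]
  norm_num

theorem T1_1 : trace (Gs 10 1 * Polynomial.aeval (Hs 10 true) (pl (cfZ cf10) ^ 2)) =
    (-158219990989807120112116146815754358654014680527173536588141406661713671) := by
  rw [trace_G1 10 (by norm_num), sF, s10_1]
  norm_num

theorem z00 : (1876871 / 1000000) - (149 / 2000000) ≤ zn 10 0 0 ∧ zn 10 0 0 ≤ (1876871 / 1000000) + (149 / 2000000) :=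
  mom_of_T 10 (by norm_num) false good10 (1939 / 100000000) (19001 / 10000) (93 / 1250000) (by norm_num) (by norm_num) (by norm_num)
    (by norm_num) (by norm_num) (by norm_num) T0_0 (by norm_num [lam10]) T0_0 _ _ (by norm_num [lam10]) (by norm_num [lam10])

theorem z30 : (16994419 / 10000000) - (149 / 2000000) ≤ zn 10 3 0 ∧ zn 10 3 0 ≤ (16994419 / 10000000) + (149 / 2000000) :=
  mom_of_T 10 (by norm_num) false good10 (1939 / 100000000) (19001 / 10000) (93 / 1250000) (by norm_num) (by norm_num) (by norm_num)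
    (by norm_num) (by norm_num) (by norm_num) T0_0 (by norm_num [lam10]) T3_0 _ _ (by norm_num [lam10]) (by norm_num [lam10])

theorem z03 : (1713377 / 2000000) - (149 / 2000000) ≤ zn 10 0 3 ∧ zn 10 0 3 ≤ (1713377 / 2000000) + (149 / 2000000) :=
  mom_of_T 10 (by norm_num) true good10 (1939 / 100000000) (19001 / 10000) (93 / 1250000) (by norm_num) (by norm_num) (by norm_num)
    (by norm_num) (by norm_num) (by norm_num) T0_1 (by norm_num [lam10]) T0_1 _ _ (by norm_num [lam10]) (by norm_num [lam10])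

theorem z33 : (8351267 / 10000000) - (149 / 2000000) ≤ zn 10 3 3 ∧ zn 10 3 3 ≤ (8351267 / 10000000) + (149 / 2000000) :=
  mom_of_T 10 (by norm_num) true good10 (1939 / 100000000) (19001 / 10000) (93 / 1250000) (by norm_num) (by norm_num) (by norm_num)
    (by norm_num) (by norm_num) (by norm_num) T0_1 (by norm_num [lam10]) T3_1 _ _ (by norm_num [lam10]) (by norm_num [lam10])

theorem z13 : (-3732629 / 5000000) - (149 / 2000000) ≤ zn 10 1 3 ∧ zn 10 1 3 ≤ (-3732629 / 5000000) + (149 / 2000000) :=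
  mom_of_T 10 (by norm_num) true good10 (1939 / 100000000) (19001 / 10000) (93 / 1250000) (by norm_num) (by norm_num) (by norm_num)
    (by norm_num) (by norm_num) (by norm_num) T0_1 (by norm_num [lam10]) T1_1 _ _ (by norm_num [lam10]) (by norm_num [lam10])

def p00 : ℚ × ℚ := ((8893873 / 8000000), (149 / 2000000))

theorem y00 : (p00.1 : ℝ) - p00.2 ≤ yn 0 0 10 ∧ yn 0 0 10 ≤ p00.1 + p00.2 := by
  rw [yn00, p00]
  push_cast
  constructor <;> linarith [z00.1, z00.2, z03.1, z03.2]

def p03 : ℚ × ℚ := ((408073 / 1600000), (149 / 4000000))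

theorem y03 : (p03.1 : ℝ) - p03.2 ≤ yn 0 3 10 ∧ yn 0 3 10 ≤ p03.1 + p03.2 := by
  rw [yn03, p03]
  push_cast
  constructor <;> linarith [z00.1, z00.2, z03.1, z03.2]

def p33 : ℚ × ℚ := ((20138101 / 20000000), (149 / 2000000))

theorem y33 : (p33.1 : ℝ) - p33.2 ≤ yn 3 3 10 ∧ yn 3 3 10 ≤ p33.1 + p33.2 := by
  rw [yn33, p33]
  push_cast
  constructor <;> linarith [z30.1, z30.2, z33.1, z33.2, z13.1, z13.2]

def p30 : ℚ × ℚ := ((1041517 / 4000000), (149 / 2000000))

theorem y30 : (p30.1 : ℝ) - p30.2 ≤ yn 3 0 10 ∧ yn 3 0 10 ≤ p30.1 + p30.2 := by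
  rw [yn30, p30]
  push_cast
  constructor <;> linarith [z30.1, z30.2, z33.1, z33.2, z13.1, z13.2]

def p31 : ℚ × ℚ := ((540197 / 2500000), (149 / 4000000))

theorem y31 : (p31.1 : ℝ) - p31.2 ≤ yn 3 1 10 ∧ yn 3 1 10 ≤ p31.1 + p31.2 := by
  rw [yn31, p31]
  push_cast
  constructor <;> linarith [z30.1, z30.2, z33.1, z33.2]

end Vale.Agent.P348.M10
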