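import Vale.Agent.P348.Init
import Vale.Agent.P348.G.All5

/-! Enclosures of the partition functions of the ring with 5 sites. -/

set_option maxRecDepth 100000

namespace Vale.Agent.P348.M5

open Matrix

theorem s0_0 : wsum (phi1 5 false cf5) (repL 5 0) =
    ((216732685503198767162642 : ℕ) : ℝ) :=
  Cov.val _ (Cov.app (Cov.one 5 4 rfl (by decide) (by decide) A5_0.side_ok0 R5_0_0_0.res)
    (Cov.nil _ _ _ _))
    A5_0.cover A5_0.len_ok A5_0.wt_ok (by decide +kernel)

theorem s1_0 : wsum (phi1 5 false cf5) (repL 5 1) =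
    ((52624938645268706933823290 : ℕ) : ℝ) :=
  Cov.val _ (Cov.app (Cov.one 5 4 rfl (by decide) (by decide) A5_1.side_ok0 R5_1_0_0.res)
    (Cov.nil _ _ _ _))
    A5_1.cover A5_1.len_ok A5_1.wt_ok (by decide +kernel)

theorem s2_0 : wsum (phi1 5 false cf5) (repL 5 2) =
    ((194337250908150303529822620 : ℕ) : ℝ) :=
  Cov.val _ (Cov.app (Cov.one 5 4 rfl (by decide) (by decide) A5_2.side_ok0 R5_2_0_0.res)
    (Cov.nil _ _ _ _))
    A5_2.cover A5_2.len_ok A5_2.wt_ok (by decide +kernel)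

theorem s3_0 : wsum (phi1 5 false cf5) (repL 5 3) =
    ((931171343915795422803099070370 : ℕ) : ℝ) :=
  Cov.val _ (Cov.app (Cov.one 5 4 rfl (by decide) (by decide) A5_3.side_ok0 R5_3_0_0.res)
    (Cov.nil _ _ _ _))
    A5_3.cover A5_3.len_ok A5_3.wt_ok (by decide +kernel)

theorem s4_0 : wsum (phi1 5 false cf5) (repL 5 4) =
    ((99993649419247174456988705879022550 : ℕ) : ℝ) :=
  Cov.val _ (Cov.app (Cov.one 5 4 rfl (by decide) (by decide) A5_4.side_ok0 R5_4_0_0.res)
    (Cov.nil _ _ _ _))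
    A5_4.cover A5_4.len_ok A5_4.wt_ok (by decide +kernel)

theorem s5_0 : wsum (phi1 5 false cf5) (repL 5 5) =
    ((19708352965218431515555950117216871256 : ℕ) : ℝ) :=
  Cov.val _ (Cov.app (Cov.one 5 4 rfl (by decide) (by decide) A5_5.side_ok0 R5_5_0_0.res)
    (Cov.nil _ _ _ _))
    A5_5.cover A5_5.len_ok A5_5.wt_ok (by decide +kernel)

theorem s0_1 : wsum (phi1 5 true cf5) (repL 5 0) =
    ((216732685503198767162642 : ℕ) : ℝ) :=
  Cov.val _ (Cov.app (Cov.one 5 4 rfl (by decide) (by decide) A5_0.side_ok0 R5_0_1_0.res)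
    (Cov.nil _ _ _ _))
    A5_0.cover A5_0.len_ok A5_0.wt_ok (by decide +kernel)

theorem s1_1 : wsum (phi1 5 true cf5) (repL 5 1) =
    ((167054923191581952221421450 : ℕ) : ℝ) :=
  Cov.val _ (Cov.app (Cov.one 5 4 rfl (by decide) (by decide) A5_1.side_ok0 R5_1_1_0.res)
    (Cov.nil _ _ _ _))
    A5_1.cover A5_1.len_ok A5_1.wt_ok (by decide +kernel)

theorem s2_1 : wsum (phi1 5 true cf5) (repL 5 2) =
    ((496397134721436272675686700 : ℕ) : ℝ) :=
  Cov.val _ (Cov.app (Cov.one 5 4 rfl (by decide) (by decide) A5_2.side_ok0 R5_2_1_0.res)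
    (Cov.nil _ _ _ _))
    A5_2.cover A5_2.len_ok A5_2.wt_ok (by decide +kernel)

theorem s3_1 : wsum (phi1 5 true cf5) (repL 5 3) =
    ((210014134487150631060542390708930 : ℕ) : ℝ) :=
  Cov.val _ (Cov.app (Cov.one 5 4 rfl (by decide) (by decide) A5_3.side_ok0 R5_3_1_0.res)
    (Cov.nil _ _ _ _))
    A5_3.cover A5_3.len_ok A5_3.wt_ok (by decide +kernel)

theorem s4_1 : wsum (phi1 5 true cf5) (repL 5 4) =
    ((29459999235929338105139874351813689830 : ℕ) : ℝ) :=
  Cov.val _ (Cov.app (Cov.one 5 4 rfl (by decide) (by decide) A5_4.side_ok0 R5_4_1_0.res)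
    (Cov.nil _ _ _ _))
    A5_4.cover A5_4.len_ok A5_4.wt_ok (by decide +kernel)

theorem s5_1 : wsum (phi1 5 true cf5) (repL 5 5) =
    ((1024611930275401868511071512323491541096 : ℕ) : ℝ) :=
  Cov.val _ (Cov.app (Cov.one 5 4 rfl (by decide) (by decide) A5_5.side_ok0 R5_5_1_0.res.1)
    (Cov.nil _ _ _ _))
    A5_5.cover A5_5.len_ok A5_5.wt_ok (by decide +kernel)

theorem sF : wsum (phi2 5 true cf5) (repL 5 5) =
    ((4098333620010969328812679247409678108784 : ℕ) : ℝ) :=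
  Cov.val _ (Cov.app (Cov.two 5 4 242 rfl (by decide) (by decide) (by decide) A5_5.side_ok0 R5_5_1_0.res.2)
    (Cov.nil _ _ _ _))
    A5_5.cover A5_5.len_ok A5_5.wt_ok (by decide +kernel)

theorem T0_0 : trace (Gs 5 0 * Polynomial.aeval (Hs 5 false) (pl (cfZ cf5) ^ 2)) =
    (19808347546056201528047283835425772728) := by
  rw [trace_G0 5 (by norm_num)]
  simp only [Finset.sum_range_succ, Finset.sum_range_zero, s0_0, s1_0, s2_0, s3_0, s4_0, s5_0]
  norm_num

theorem T3_0 : trace (Gs 5 3 * Polynomial.aeval (Hs 5 false) (pl (cfZ cf5) ^ 2)) =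
    (19608360246828599211945999419073757104) := by
  rw [trace_G3 5 (by norm_num)]
  simp only [Finset.sum_range_succ, Finset.sum_range_zero, s0_0, s1_0, s2_0, s3_0, s4_0, s5_0]
  norm_num

theorem T0_1 : trace (Gs 5 0 * Polynomial.aeval (Hs 5 true) (pl (cfZ cf5) ^ 2)) =
    (1054072139526129362557440968641360210648) := by
  rw [trace_G0 5 (by norm_num)]
  simp only [Finset.sum_range_succ, Finset.sum_range_zero, s0_1, s1_1, s2_1, s3_1, s4_1, s5_1]
  norm_num

theorem T3_1 : trace (Gs 5 3 * Polynomial.aeval (Hs 5 true) (pl (cfZ cf5) ^ 2)) =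
    (995152141053277458612347340994847132304) := by
  rw [trace_G3 5 (by norm_num)]
  simp only [Finset.sum_range_succ, Finset.sum_range_zero, s0_1, s1_1, s2_1, s3_1, s4_1, s5_1]
  norm_num

theorem T1_1 : trace (Gs 5 1 * Polynomial.aeval (Hs 5 true) (pl (cfZ cf5) ^ 2)) =
    (-1024554879730082795895268111381347513296) := by
  rw [trace_G1 5 (by norm_num), sF, s5_1]
  norm_num

theorem z00 : (44923 / 1250000) - (23 / 1250000) ≤ zn 5 0 0 ∧ zn 5 0 0 ≤ (44923 / 1250000) + (23 / 1250000) :=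
  mom_of_T 5 (by norm_num) false good5 (207 / 50000000) (19401 / 10000) (183 / 10000000) (by norm_num) (by norm_num) (by norm_num)
    (by norm_num) (by norm_num) (by norm_num) T0_0 (by norm_num [lam5]) T0_0 _ _ (by norm_num [lam5]) (by norm_num [lam5])

theorem z30 : (88939 / 2500000) - (23 / 1250000) ≤ zn 5 3 0 ∧ zn 5 3 0 ≤ (88939 / 2500000) + (23 / 1250000) :=
  mom_of_T 5 (by norm_num) false good5 (207 / 50000000) (19401 / 10000) (183 / 10000000) (by norm_num) (by norm_num) (by norm_num)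
    (by norm_num) (by norm_num) (by norm_num) T0_0 (by norm_num [lam5]) T3_0 _ _ (by norm_num [lam5]) (by norm_num [lam5])

theorem z03 : (1912411 / 1000000) - (23 / 1250000) ≤ zn 5 0 3 ∧ zn 5 0 3 ≤ (1912411 / 1000000) + (23 / 1250000) :=
  mom_of_T 5 (by norm_num) true good5 (207 / 50000000) (19401 / 10000) (183 / 10000000) (by norm_num) (by norm_num) (by norm_num)
    (by norm_num) (by norm_num) (by norm_num) T0_1 (by norm_num [lam5]) T0_1 _ _ (by norm_num [lam5]) (by norm_num [lam5])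

theorem z33 : (225689 / 125000) - (23 / 1250000) ≤ zn 5 3 3 ∧ zn 5 3 3 ≤ (225689 / 125000) + (23 / 1250000) :=
  mom_of_T 5 (by norm_num) true good5 (207 / 50000000) (19401 / 10000) (183 / 10000000) (by norm_num) (by norm_num) (by norm_num)
    (by norm_num) (by norm_num) (by norm_num) T0_1 (by norm_num [lam5]) T3_1 _ _ (by norm_num [lam5]) (by norm_num [lam5])

theorem z13 : (-580893 / 312500) - (23 / 1250000) ≤ zn 5 1 3 ∧ zn 5 1 3 ≤ (-580893 / 312500) + (23 / 1250000) :=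
  mom_of_T 5 (by norm_num) true good5 (207 / 50000000) (19401 / 10000) (183 / 10000000) (by norm_num) (by norm_num) (by norm_num)
    (by norm_num) (by norm_num) (by norm_num) T0_1 (by norm_num [lam5]) T1_1 _ _ (by norm_num [lam5]) (by norm_num [lam5])

def p00 : ℚ × ℚ := ((28865857 / 20000000), (23 / 1250000))

theorem y00 : (p00.1 : ℝ) - p00.2 ≤ yn 0 0 5 ∧ yn 0 0 5 ≤ p00.1 + p00.2 := by
  rw [yn00, p00]
  push_cast
  constructor <;> linarith [z00.1, z00.2, z03.1, z03.2]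

def p03 : ℚ × ℚ := ((-9382363 / 20000000), (23 / 2500000))

theorem y03 : (p03.1 : ℝ) - p03.2 ≤ yn 0 3 5 ∧ yn 0 3 5 ≤ p03.1 + p03.2 := by
  rw [yn03, p03]
  push_cast
  constructor <;> linarith [z00.1, z00.2, z03.1, z03.2]

def p33 : ℚ × ℚ := ((13897007 / 10000000), (23 / 1250000))

theorem y33 : (p33.1 : ℝ) - p33.2 ≤ yn 3 3 5 ∧ yn 3 3 5 ≤ p33.1 + p33.2 := by
  rw [yn33, p33]
  push_cast
  constructor <;> linarith [z30.1, z30.2, z33.1, z33.2, z13.1, z13.2]

def p30 : ℚ × ℚ := ((-4691569 / 10000000), (23 / 1250000))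

theorem y30 : (p30.1 : ℝ) - p30.2 ≤ yn 3 0 5 ∧ yn 3 0 5 ≤ p30.1 + p30.2 := by
  rw [yn30, p30]
  push_cast
  constructor <;> linarith [z30.1, z30.2, z33.1, z33.2, z13.1, z13.2]

def p31 : ℚ × ℚ := ((-4424841 / 10000000), (23 / 2500000))

theorem y31 : (p31.1 : ℝ) - p31.2 ≤ yn 3 1 5 ∧ yn 3 1 5 ≤ p31.1 + p31.2 := by
  rw [yn31, p31]
  push_cast
  constructor <;> linarith [z30.1, z30.2, z33.1, z33.2]

end Vale.Agent.P348.M5
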