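import Vale.Agent.P348.Init
import Vale.Agent.P348.G.All6

/-! Enclosures of the partition functions of the ring with 6 sites. -/

set_option maxRecDepth 100000

namespace Vale.Agent.P348.M6

open Matrix

theorem s0_0 : wsum (phi1 6 false cf6) (repL 6 0) =
    ((41450783156248038449241638558898 : ℕ) : ℝ) :=
  Cov.val _ (Cov.app (Cov.one 6 5 rfl (by decide) (by decide) A6_0.side_ok0 R6_0_0_0.res)
    (Cov.nil _ _ _ _))
    A6_0.cover A6_0.len_ok A6_0.wt_ok (by decide +kernel)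

theorem s1_0 : wsum (phi1 6 false cf6) (repL 6 1) =
    ((31002797128346932397513789129824620 : ℕ) : ℝ) :=
  Cov.val _ (Cov.app (Cov.one 6 5 rfl (by decide) (by decide) A6_1.side_ok0 R6_1_0_0.res)
    (Cov.nil _ _ _ _))
    A6_1.cover A6_1.len_ok A6_1.wt_ok (by decide +kernel)

theorem s2_0 : wsum (phi1 6 false cf6) (repL 6 2) =
    ((145946561343654957262108210752720186 : ℕ) : ℝ) :=
  Cov.val _ (Cov.app (Cov.one 6 5 rfl (by decide) (by decide) A6_2.side_ok0 R6_2_0_0.res)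
    (Cov.nil _ _ _ _))
    A6_2.cover A6_2.len_ok A6_2.wt_ok (by decide +kernel)

theorem s3_0 : wsum (phi1 6 false cf6) (repL 6 3) =
    ((1469333075410851734704674074367499332 : ℕ) : ℝ) :=
  Cov.val _ (Cov.app (Cov.one 6 5 rfl (by decide) (by decide) A6_3.side_ok0 R6_3_0_0.res)
    (Cov.nil _ _ _ _))
    A6_3.cover A6_3.len_ok A6_3.wt_ok (by decide +kernel)

theorem s4_0 : wsum (phi1 6 false cf6) (repL 6 4) =
    ((3758856876138459803717596622747822185046172 : ℕ) : ℝ) :=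
  Cov.val _ (Cov.app (Cov.one 6 5 rfl (by decide) (by decide) A6_4.side_ok0 R6_4_0_0.res)
    (Cov.nil _ _ _ _))
    A6_4.cover A6_4.len_ok A6_4.wt_ok (by decide +kernel)

theorem s5_0 : wsum (phi1 6 false cf6) (repL 6 5) =
    ((86663481289506132574352223686940607321905236172 : ℕ) : ℝ) :=
  Cov.val _ (Cov.app (Cov.one 6 5 rfl (by decide) (by decide) A6_5.side_ok0 R6_5_0_0.res)
    (Cov.nil _ _ _ _))
    A6_5.cover A6_5.len_ok A6_5.wt_ok (by decide +kernel)

theorem s6_0 : wsum (phi1 6 false cf6) (repL 6 6) =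
    ((6765855992259876039209475183603519596728484110125 : ℕ) : ℝ) :=
  Cov.val _ (Cov.app (Cov.one 6 5 rfl (by decide) (by decide) A6_6.side_ok0 R6_6_0_0.res)
    (Cov.nil _ _ _ _))
    A6_6.cover A6_6.len_ok A6_6.wt_ok (by decide +kernel)

theorem s0_1 : wsum (phi1 6 true cf6) (repL 6 0) =
    ((41450783156248038449241638558898 : ℕ) : ℝ) :=
  Cov.val _ (Cov.app (Cov.one 6 5 rfl (by decide) (by decide) A6_0.side_ok0 R6_0_1_0.res)
    (Cov.nil _ _ _ _))
    A6_0.cover A6_0.len_ok A6_0.wt_ok (by decide +kernel)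

theorem s1_1 : wsum (phi1 6 true cf6) (repL 6 1) =
    ((36086905029225337904473717490734284 : ℕ) : ℝ) :=
  Cov.val _ (Cov.app (Cov.one 6 5 rfl (by decide) (by decide) A6_1.side_ok0 R6_1_1_0.res)
    (Cov.nil _ _ _ _))
    A6_1.cover A6_1.len_ok A6_1.wt_ok (by decide +kernel)

theorem s2_1 : wsum (phi1 6 true cf6) (repL 6 2) =
    ((100364417593635367295190165748843578 : ℕ) : ℝ) :=
  Cov.val _ (Cov.app (Cov.one 6 5 rfl (by decide) (by decide) A6_2.side_ok0 R6_2_1_0.res)
    (Cov.nil _ _ _ _))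
    A6_2.cover A6_2.len_ok A6_2.wt_ok (by decide +kernel)

theorem s3_1 : wsum (phi1 6 true cf6) (repL 6 3) =
    ((350162163695939618408664905958702948 : ℕ) : ℝ) :=
  Cov.val _ (Cov.app (Cov.one 6 5 rfl (by decide) (by decide) A6_3.side_ok0 R6_3_1_0.res)
    (Cov.nil _ _ _ _))
    A6_3.cover A6_3.len_ok A6_3.wt_ok (by decide +kernel)

theorem s4_1 : wsum (phi1 6 true cf6) (repL 6 4) =
    ((37500160477428196287672459144603226684380 : ℕ) : ℝ) :=
  Cov.val _ (Cov.app (Cov.one 6 5 rfl (by decide) (by decide) A6_4.side_ok0 R6_4_1_0.res)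
    (Cov.nil _ _ _ _))
    A6_4.cover A6_4.len_ok A6_4.wt_ok (by decide +kernel)

theorem s5_1 : wsum (phi1 6 true cf6) (repL 6 5) =
    ((888733253249645904514723926076018073635696332 : ℕ) : ℝ) :=
  Cov.val _ (Cov.app (Cov.one 6 5 rfl (by decide) (by decide) A6_5.side_ok0 R6_5_1_0.res)
    (Cov.nil _ _ _ _))
    A6_5.cover A6_5.len_ok A6_5.wt_ok (by decide +kernel)

theorem s6_1 : wsum (phi1 6 true cf6) (repL 6 6) =
    ((819578275778154451640946133775672436523885593453 : ℕ) : ℝ) :=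
  Cov.val _ (Cov.app (Cov.one 6 5 rfl (by decide) (by decide) A6_6.side_ok0 R6_6_1_0.res.1)
    (Cov.nil _ _ _ _))
    A6_6.cover A6_6.len_ok A6_6.wt_ok (by decide +kernel)

theorem sF : wsum (phi2 6 true cf6) (repL 6 6) =
    ((240146531590821597287357090390595961227612098892 : ℕ) : ℝ) :=
  Cov.val _ (Cov.app (Cov.two 6 5 728 rfl (by decide) (by decide) (by decide) A6_6.side_ok0 R6_6_1_0.res.2)
    (Cov.nil _ _ _ _))
    A6_6.cover A6_6.len_ok A6_6.wt_ok (by decide +kernel)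

theorem T0_0 : trace (Gs 6 0 * Polynomial.aeval (Hs 6 false) (pl (cfZ cf6) ^ 2)) =
    (6852523232407904634128297134759485697188462995505) := by
  rw [trace_G0 6 (by norm_num)]
  simp only [Finset.sum_range_succ, Finset.sum_range_zero, s0_0, s1_0, s2_0, s3_0, s4_0, s5_0, s6_0]
  norm_num

theorem T3_0 : trace (Gs 6 3 * Polynomial.aeval (Hs 6 false) (pl (cfZ cf6) ^ 2)) =
    (6679196269825891697234514290051400106817657875257) := by
  rw [trace_G3 6 (by norm_num)]
  simp only [Finset.sum_range_succ, Finset.sum_range_zero, s0_0, s1_0, s2_0, s3_0, s4_0, s5_0, s6_0]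
  norm_num

theorem T0_1 : trace (Gs 6 0 * Polynomial.aeval (Hs 6 true) (pl (cfZ cf6) ^ 2)) =
    (820467046532051229910759101945854377231584813873) := by
  rw [trace_G0 6 (by norm_num)]
  simp only [Finset.sum_range_succ, Finset.sum_range_zero, s0_1, s1_1, s2_1, s3_1, s4_1, s5_1, s6_1]
  norm_num

theorem T3_1 : trace (Gs 6 3 * Polynomial.aeval (Hs 6 true) (pl (cfZ cf6) ^ 2)) =
    (818689580024779439964279324181076063837414546745) := by
  rw [trace_G3 6 (by norm_num)]
  simp only [Finset.sum_range_succ, Finset.sum_range_zero, s0_1, s1_1, s2_1, s3_1, s4_1, s5_1, s6_1]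
  norm_num

theorem T1_1 : trace (Gs 6 1 * Polynomial.aeval (Hs 6 true) (pl (cfZ cf6) ^ 2)) =
    (-699505009982743652997267588580374455910079544007) := by
  rw [trace_G1 6 (by norm_num), sF, s6_1]
  norm_num

theorem z00 : (4390203 / 1000000) - (141 / 10000000) ≤ zn 6 0 0 ∧ zn 6 0 0 ≤ (4390203 / 1000000) + (141 / 10000000) :=
  mom_of_T 6 (by norm_num) false good6 (141 / 100000000) (44401 / 10000) (7 / 500000) (by norm_num) (by norm_num) (by norm_num)
    (by norm_num) (by norm_num) (by norm_num) T0_0 (by norm_num [lam6]) T0_0 _ _ (by norm_num [lam6]) (by norm_num [lam6])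

theorem z30 : (42791577 / 10000000) - (141 / 10000000) ≤ zn 6 3 0 ∧ zn 6 3 0 ≤ (42791577 / 10000000) + (141 / 10000000) :=
  mom_of_T 6 (by norm_num) false good6 (141 / 100000000) (44401 / 10000) (7 / 500000) (by norm_num) (by norm_num) (by norm_num)
    (by norm_num) (by norm_num) (by norm_num) T0_0 (by norm_num [lam6]) T3_0 _ _ (by norm_num [lam6]) (by norm_num [lam6])

theorem z03 : (5256483 / 10000000) - (141 / 10000000) ≤ zn 6 0 3 ∧ zn 6 0 3 ≤ (5256483 / 10000000) + (141 / 10000000) :=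
  mom_of_T 6 (by norm_num) true good6 (141 / 100000000) (44401 / 10000) (7 / 500000) (by norm_num) (by norm_num) (by norm_num)
    (by norm_num) (by norm_num) (by norm_num) T0_1 (by norm_num [lam6]) T0_1 _ _ (by norm_num [lam6]) (by norm_num [lam6])

theorem z33 : (1049019 / 2000000) - (141 / 10000000) ≤ zn 6 3 3 ∧ zn 6 3 3 ≤ (1049019 / 2000000) + (141 / 10000000) :=
  mom_of_T 6 (by norm_num) true good6 (141 / 100000000) (44401 / 10000) (7 / 500000) (by norm_num) (by norm_num) (by norm_num)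
    (by norm_num) (by norm_num) (by norm_num) T0_1 (by norm_num [lam6]) T3_1 _ _ (by norm_num [lam6]) (by norm_num [lam6])

theorem z13 : (-1120379 / 2500000) - (141 / 10000000) ≤ zn 6 1 3 ∧ zn 6 1 3 ≤ (-1120379 / 2500000) + (141 / 10000000) :=
  mom_of_T 6 (by norm_num) true good6 (141 / 100000000) (44401 / 10000) (7 / 500000) (by norm_num) (by norm_num) (by norm_num)
    (by norm_num) (by norm_num) (by norm_num) T0_1 (by norm_num [lam6]) T1_1 _ _ (by norm_num [lam6]) (by norm_num [lam6])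

def p00 : ℚ × ℚ := ((59671479 / 40000000), (141 / 10000000))

theorem y00 : (p00.1 : ℝ) - p00.2 ≤ yn 0 0 6 ∧ yn 0 0 6 ≤ p00.1 + p00.2 := by
  rw [yn00, p00]
  push_cast
  constructor <;> linarith [z00.1, z00.2, z03.1, z03.2]

def p03 : ℚ × ℚ := ((38645547 / 40000000), (141 / 20000000))

theorem y03 : (p03.1 : ℝ) - p03.2 ≤ yn 0 3 6 ∧ yn 0 3 6 ≤ p03.1 + p03.2 := by
  rw [yn03, p03]
  push_cast
  constructor <;> linarith [z00.1, z00.2, z03.1, z03.2]

def p33 : ℚ × ℚ := ((7124963 / 5000000), (141 / 10000000))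

theorem y33 : (p33.1 : ℝ) - p33.2 ≤ yn 3 3 6 ∧ yn 3 3 6 ≤ p33.1 + p33.2 := by
  rw [yn33, p33]
  push_cast
  constructor <;> linarith [z30.1, z30.2, z33.1, z33.2, z13.1, z13.2]

def p30 : ℚ × ℚ := ((976841 / 1000000), (141 / 10000000))

theorem y30 : (p30.1 : ℝ) - p30.2 ≤ yn 3 0 6 ∧ yn 3 0 6 ≤ p30.1 + p30.2 := by
  rw [yn30, p30]
  push_cast
  constructor <;> linarith [z30.1, z30.2, z33.1, z33.2, z13.1, z13.2]

def p31 : ℚ × ℚ := ((18773241 / 20000000), (141 / 20000000))

theorem y31 : (p31.1 : ℝ) - p31.2 ≤ yn 3 1 6 ∧ yn 3 1 6 ≤ p31.1 + p31.2 := by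
  rw [yn31, p31]
  push_cast
  constructor <;> linarith [z30.1, z30.2, z33.1, z33.2]

end Vale.Agent.P348.M6
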