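import Vale.Agent.P348.Init
import Vale.Agent.P348.G.All7

/-! Enclosures of the partition functions of the ring with 7 sites. -/

set_option maxRecDepth 100000

namespace Vale.Agent.P348.M7

open Matrix

theorem s0_0 : wsum (phi1 7 false cf7) (repL 7 0) =
    ((1325456422040789941807216268505870848 : ℕ) : ℝ) :=
  Cov.val _ (Cov.app (Cov.one 7 6 rfl (by decide) (by decide) A7_0.side_ok0 R7_0_0_0.res)
    (Cov.nil _ _ _ _))
    A7_0.cover A7_0.len_ok A7_0.wt_ok (by decide +kernel)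

theorem s1_0 : wsum (phi1 7 false cf7) (repL 7 1) =
    ((788266279125755363535782813662848071764 : ℕ) : ℝ) :=
  Cov.val _ (Cov.app (Cov.one 7 6 rfl (by decide) (by decide) A7_1.side_ok0 R7_1_0_0.res)
    (Cov.nil _ _ _ _))
    A7_1.cover A7_1.len_ok A7_1.wt_ok (by decide +kernel)

theorem s2_0 : wsum (phi1 7 false cf7) (repL 7 2) =
    ((7121800289301087523077944595318326742166 : ℕ) : ℝ) :=
  Cov.val _ (Cov.app (Cov.one 7 6 rfl (by decide) (by decide) A7_2.side_ok0 R7_2_0_0.res)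
    (Cov.nil _ _ _ _))
    A7_2.cover A7_2.len_ok A7_2.wt_ok (by decide +kernel)

theorem s3_0 : wsum (phi1 7 false cf7) (repL 7 3) =
    ((18124458444819582785354617004468694415258 : ℕ) : ℝ) :=
  Cov.val _ (Cov.app (Cov.one 7 6 rfl (by decide) (by decide) A7_3.side_ok0 R7_3_0_0.res)
    (Cov.nil _ _ _ _))
    A7_3.cover A7_3.len_ok A7_3.wt_ok (by decide +kernel)

theorem s4_0 : wsum (phi1 7 false cf7) (repL 7 4) =
    ((55501594839551240084525364432767151435638 : ℕ) : ℝ) :=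
  Cov.val _ (Cov.app (Cov.one 7 6 rfl (by decide) (by decide) A7_4.side_ok0 R7_4_0_0.res)
    (Cov.nil _ _ _ _))
    A7_4.cover A7_4.len_ok A7_4.wt_ok (by decide +kernel)

theorem s5_0 : wsum (phi1 7 false cf7) (repL 7 5) =
    ((4343997051728840566311734395915223974338122292 : ℕ) : ℝ) :=
  Cov.val _ (Cov.app (Cov.one 7 6 rfl (by decide) (by decide) A7_5.side_ok0 R7_5_0_0.res)
    (Cov.nil _ _ _ _))
    A7_5.cover A7_5.len_ok A7_5.wt_ok (by decide +kernel)

theorem s6_0 : wsum (phi1 7 false cf7) (repL 7 6) =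
    ((47976098337889127889754710211811001347104542761926 : ℕ) : ℝ) :=
  Cov.val _ (Cov.app (Cov.one 7 6 rfl (by decide) (by decide) A7_6.side_ok0 R7_6_0_0.res)
    (Cov.nil _ _ _ _))
    A7_6.cover A7_6.len_ok A7_6.wt_ok (by decide +kernel)

theorem s7_0 : wsum (phi1 7 false cf7) (repL 7 7) =
    ((4637674528095651927080523508362327707582913215791279 : ℕ) : ℝ) :=
  Cov.val _ (Cov.app (Cov.one 7 6 rfl (by decide) (by decide) A7_7.side_ok0 R7_7_0_0.res)
    (Cov.nil _ _ _ _))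
    A7_7.cover A7_7.len_ok A7_7.wt_ok (by decide +kernel)

theorem s0_1 : wsum (phi1 7 true cf7) (repL 7 0) =
    ((1325456422040789941807216268505870848 : ℕ) : ℝ) :=
  Cov.val _ (Cov.app (Cov.one 7 6 rfl (by decide) (by decide) A7_0.side_ok0 R7_0_1_0.res)
    (Cov.nil _ _ _ _))
    A7_0.cover A7_0.len_ok A7_0.wt_ok (by decide +kernel)

theorem s1_1 : wsum (phi1 7 true cf7) (repL 7 1) =
    ((1509312071131047136567103503481855330804 : ℕ) : ℝ) :=
  Cov.val _ (Cov.app (Cov.one 7 6 rfl (by decide) (by decide) A7_1.side_ok0 R7_1_1_0.res)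
    (Cov.nil _ _ _ _))
    A7_1.cover A7_1.len_ok A7_1.wt_ok (by decide +kernel)

theorem s2_1 : wsum (phi1 7 true cf7) (repL 7 2) =
    ((6413415082954050222238070731864622727142 : ℕ) : ℝ) :=
  Cov.val _ (Cov.app (Cov.one 7 6 rfl (by decide) (by decide) A7_2.side_ok0 R7_2_1_0.res)
    (Cov.nil _ _ _ _))
    A7_2.cover A7_2.len_ok A7_2.wt_ok (by decide +kernel)

theorem s3_1 : wsum (phi1 7 true cf7) (repL 7 3) =
    ((15507171071842558328342932371678078446218 : ℕ) : ℝ) :=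
  Cov.val _ (Cov.app (Cov.one 7 6 rfl (by decide) (by decide) A7_3.side_ok0 R7_3_1_0.res)
    (Cov.nil _ _ _ _))
    A7_3.cover A7_3.len_ok A7_3.wt_ok (by decide +kernel)

theorem s4_1 : wsum (phi1 7 true cf7) (repL 7 4) =
    ((353026250201392497364207720285272029690998 : ℕ) : ℝ) :=
  Cov.val _ (Cov.app (Cov.one 7 6 rfl (by decide) (by decide) A7_4.side_ok0 R7_4_1_0.res)
    (Cov.nil _ _ _ _))
    A7_4.cover A7_4.len_ok A7_4.wt_ok (by decide +kernel)

theorem s5_1 : wsum (phi1 7 true cf7) (repL 7 5) =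
    ((219537537011277363145151649238424639183347441652 : ℕ) : ℝ) :=
  Cov.val _ (Cov.app (Cov.one 7 6 rfl (by decide) (by decide) A7_5.side_ok0 R7_5_1_0.res)
    (Cov.nil _ _ _ _))
    A7_5.cover A7_5.len_ok A7_5.wt_ok (by decide +kernel)

theorem s6_1 : wsum (phi1 7 true cf7) (repL 7 6) =
    ((1836330957944550353614744657383439150437685186236438 : ℕ) : ℝ) :=
  Cov.val _ (Cov.app (Cov.one 7 6 rfl (by decide) (by decide) A7_6.side_ok0 R7_6_1_0.res)
    (Cov.nil _ _ _ _))
    A7_6.cover A7_6.len_ok A7_6.wt_ok (by decide +kernel)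

theorem s7_1 : wsum (phi1 7 true cf7) (repL 7 7) =
    ((35435092368779593534339782903459247285222476752425471 : ℕ) : ℝ) :=
  Cov.val _ (Cov.app (Cov.one 7 6 rfl (by decide) (by decide) A7_7.side_ok0 R7_7_1_0.res.1)
    (Cov.nil _ _ _ _))
    A7_7.cover A7_7.len_ok A7_7.wt_ok (by decide +kernel)

theorem sF : wsum (phi2 7 true cf7) (repL 7 7) =
    ((141672954198596842064633410207908591055523424135855680 : ℕ) : ℝ) :=
  Cov.val _ (Cov.app (Cov.two 7 6 2186 rfl (by decide) (by decide) (by decide) A7_7.side_ok0 R7_7_1_0.res.2)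
    (Cov.nil _ _ _ _))
    A7_7.cover A7_7.len_ok A7_7.wt_ok (by decide +kernel)

theorem T0_0 : trace (Gs 7 0 * Polynomial.aeval (Hs 7 false) (pl (cfZ cf7) ^ 2)) =
    (4685654970512130229120064236854970140216477623211171) := by
  rw [trace_G0 7 (by norm_num)]
  simp only [Finset.sum_range_succ, Finset.sum_range_zero, s0_0, s1_0, s2_0, s3_0, s4_0, s5_0, s6_0, s7_0]
  norm_num

theorem T3_0 : trace (Gs 7 3 * Polynomial.aeval (Hs 7 false) (pl (cfZ cf7) ^ 2)) =
    (4589702773711102532170006079636257905033560569590015) := by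
  rw [trace_G3 7 (by norm_num)]
  simp only [Finset.sum_range_succ, Finset.sum_range_zero, s0_0, s1_0, s2_0, s3_0, s4_0, s5_0, s6_0, s7_0]
  norm_num

theorem T0_1 : trace (Gs 7 0 * Polynomial.aeval (Hs 7 true) (pl (cfZ cf7) ^ 2)) =
    (37271642864637612639201414906333222494407910378169571) := by
  rw [trace_G0 7 (by norm_num)]
  simp only [Finset.sum_range_succ, Finset.sum_range_zero, s0_1, s1_1, s2_1, s3_1, s4_1, s5_1, s6_1, s7_1]
  norm_num

theorem T3_1 : trace (Gs 7 3 * Polynomial.aeval (Hs 7 true) (pl (cfZ cf7) ^ 2)) =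
    (33598980948029629950490388414813568997065729689118719) := by
  rw [trace_G3 7 (by norm_num)]
  simp only [Finset.sum_range_succ, Finset.sum_range_zero, s0_1, s1_1, s2_1, s3_1, s4_1, s5_1, s6_1, s7_1]
  norm_num

theorem T1_1 : trace (Gs 7 1 * Polynomial.aeval (Hs 7 true) (pl (cfZ cf7) ^ 2)) =
    (-35401384730518827497976922200495048242539235315502369) := by
  rw [trace_G1 7 (by norm_num), sF, s7_1]
  norm_num

theorem z00 : (1918267 / 10000000) - (39 / 2000000) ≤ zn 7 0 0 ∧ zn 7 0 0 ≤ (1918267 / 10000000) + (39 / 2000000) :=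
  mom_of_T 7 (by norm_num) false good7 (601 / 100000000) (15501 / 10000) (97 / 5000000) (by norm_num) (by norm_num) (by norm_num)
    (by norm_num) (by norm_num) (by norm_num) T0_0 (by norm_num [lam7]) T0_0 _ _ (by norm_num [lam7]) (by norm_num [lam7])

theorem z30 : (375797 / 2000000) - (39 / 2000000) ≤ zn 7 3 0 ∧ zn 7 3 0 ≤ (375797 / 2000000) + (39 / 2000000) :=
  mom_of_T 7 (by norm_num) false good7 (601 / 100000000) (15501 / 10000) (97 / 5000000) (by norm_num) (by norm_num) (by norm_num)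
    (by norm_num) (by norm_num) (by norm_num) T0_0 (by norm_num [lam7]) T3_0 _ _ (by norm_num [lam7]) (by norm_num [lam7])

theorem z03 : (3814673 / 2500000) - (39 / 2000000) ≤ zn 7 0 3 ∧ zn 7 0 3 ≤ (3814673 / 2500000) + (39 / 2000000) :=
  mom_of_T 7 (by norm_num) true good7 (601 / 100000000) (15501 / 10000) (97 / 5000000) (by norm_num) (by norm_num) (by norm_num)
    (by norm_num) (by norm_num) (by norm_num) T0_1 (by norm_num [lam7]) T0_1 _ _ (by norm_num [lam7]) (by norm_num [lam7])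

theorem z33 : (107462 / 78125) - (39 / 2000000) ≤ zn 7 3 3 ∧ zn 7 3 3 ≤ (107462 / 78125) + (39 / 2000000) :=
  mom_of_T 7 (by norm_num) true good7 (601 / 100000000) (15501 / 10000) (97 / 5000000) (by norm_num) (by norm_num) (by norm_num)
    (by norm_num) (by norm_num) (by norm_num) T0_1 (by norm_num [lam7]) T3_1 _ _ (by norm_num [lam7]) (by norm_num [lam7])

theorem z13 : (-452907 / 312500) - (39 / 2000000) ≤ zn 7 1 3 ∧ zn 7 1 3 ≤ (-452907 / 312500) + (39 / 2000000) :=
  mom_of_T 7 (by norm_num) true good7 (601 / 100000000) (15501 / 10000) (97 / 5000000) (by norm_num) (by norm_num) (by norm_num)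
    (by norm_num) (by norm_num) (by norm_num) T0_1 (by norm_num [lam7]) T1_1 _ _ (by norm_num [lam7]) (by norm_num [lam7])

def p00 : ℚ × ℚ := ((47694343 / 40000000), (39 / 2000000))

theorem y00 : (p00.1 : ℝ) - p00.2 ≤ yn 0 0 7 ∧ yn 0 0 7 ≤ p00.1 + p00.2 := by
  rw [yn00, p00]
  push_cast
  constructor <;> linarith [z00.1, z00.2, z03.1, z03.2]

def p03 : ℚ × ℚ := ((-533617 / 1600000), (39 / 4000000))

theorem y03 : (p03.1 : ℝ) - p03.2 ≤ yn 0 3 7 ∧ yn 0 3 7 ≤ p03.1 + p03.2 := by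
  rw [yn03, p03]
  push_cast
  constructor <;> linarith [z00.1, z00.2, z03.1, z03.2]

def p33 : ℚ × ℚ := ((44620169 / 40000000), (39 / 2000000))

theorem y33 : (p33.1 : ℝ) - p33.2 ≤ yn 3 3 7 ∧ yn 3 3 7 ≤ p33.1 + p33.2 := by
  rw [yn33, p33]
  push_cast
  constructor <;> linarith [z30.1, z30.2, z33.1, z33.2, z13.1, z13.2]

def p30 : ℚ × ℚ := ((-13351927 / 40000000), (39 / 2000000))

theorem y30 : (p30.1 : ℝ) - p30.2 ≤ yn 3 0 7 ∧ yn 3 0 7 ≤ p30.1 + p30.2 := by
  rw [yn30, p30]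
  push_cast
  constructor <;> linarith [z30.1, z30.2, z33.1, z33.2, z13.1, z13.2]

def p31 : ℚ × ℚ := ((-11876151 / 40000000), (39 / 4000000))

theorem y31 : (p31.1 : ℝ) - p31.2 ≤ yn 3 1 7 ∧ yn 3 1 7 ≤ p31.1 + p31.2 := by
  rw [yn31, p31]
  push_cast
  constructor <;> linarith [z30.1, z30.2, z33.1, z33.2]

end Vale.Agent.P348.M7
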