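import Vale.Agent.P348.Init
import Vale.Agent.P348.G.All8

/-! Enclosures of the partition functions of the ring with 8 sites. -/

set_option maxRecDepth 100000

namespace Vale.Agent.P348.M8

open Matrix

theorem s0_0 : wsum (phi1 8 false cf8) (repL 8 0) =
    ((64113735070749342175446927674607086260658882 : ℕ) : ℝ) :=
  Cov.val _ (Cov.app (Cov.one 8 7 rfl (by decide) (by decide) A8_0.side_ok0 R8_0_0_0.res)
    (Cov.nil _ _ _ _))
    A8_0.cover A8_0.len_ok A8_0.wt_ok (by decide +kernel)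

theorem s1_0 : wsum (phi1 8 false cf8) (repL 8 1) =
    ((52671197769640509513731447256170402621974372336 : ℕ) : ℝ) :=
  Cov.val _ (Cov.app (Cov.one 8 7 rfl (by decide) (by decide) A8_1.side_ok0 R8_1_0_0.res)
    (Cov.nil _ _ _ _))
    A8_1.cover A8_1.len_ok A8_1.wt_ok (by decide +kernel)

theorem s2_0 : wsum (phi1 8 false cf8) (repL 8 2) =
    ((238136078061735153536622401643377237509241501640 : ℕ) : ℝ) :=
  Cov.val _ (Cov.app (Cov.one 8 7 rfl (by decide) (by decide) A8_2.side_ok0 R8_2_0_0.res)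
    (Cov.nil _ _ _ _))
    A8_2.cover A8_2.len_ok A8_2.wt_ok (by decide +kernel)

theorem s3_0 : wsum (phi1 8 false cf8) (repL 8 3) =
    ((1137879952145896196976652488658335223448794628608 : ℕ) : ℝ) :=
  Cov.val _ (Cov.app (Cov.one 8 7 rfl (by decide) (by decide) A8_3.side_ok0 R8_3_0_0.res)
    (Cov.nil _ _ _ _))
    A8_3.cover A8_3.len_ok A8_3.wt_ok (by decide +kernel)

theorem s4_0 : wsum (phi1 8 false cf8) (repL 8 4) =
    ((3054567105038067632532369920333217353070822194708 : ℕ) : ℝ) :=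
  Cov.val _ (Cov.app (Cov.one 8 7 rfl (by decide) (by decide) A8_4.side_ok0 R8_4_0_0.res)
    (Cov.nil _ _ _ _))
    A8_4.cover A8_4.len_ok A8_4.wt_ok (by decide +kernel)

theorem s5_0 : wsum (phi1 8 false cf8) (repL 8 5) =
    ((578472170323823613668179097237331279640494393530256 : ℕ) : ℝ) :=
  Cov.val _ (Cov.app (Cov.one 8 7 rfl (by decide) (by decide) A8_5.side_ok0 R8_5_0_0.res)
    (Cov.nil _ _ _ _))
    A8_5.cover A8_5.len_ok A8_5.wt_ok (by decide +kernel)

theorem s6_0 : wsum (phi1 8 false cf8) (repL 8 6) =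
    ((98716986400515785897529801869769485030350559231347743072 : ℕ) : ℝ) :=
  Cov.val _ (Cov.app (Cov.one 8 7 rfl (by decide) (by decide) A8_6.side_ok0 R8_6_0_0.res)
    (Cov.nil _ _ _ _))
    A8_6.cover A8_6.len_ok A8_6.wt_ok (by decide +kernel)

theorem s7_0 : wsum (phi1 8 false cf8) (repL 8 7) =
    ((302692715035233789172226479142191645497396506662372042192592 : ℕ) : ℝ) :=
  Cov.val _ (Cov.app (Cov.one 8 7 rfl (by decide) (by decide) A8_7.side_ok0 R8_7_0_0.res)
    (Cov.nil _ _ _ _))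
    A8_7.cover A8_7.len_ok A8_7.wt_ok (by decide +kernel)

theorem s8_0 : wsum (phi1 8 false cf8) (repL 8 8) =
    ((9794213968368304950389305432217985261020970214997892331209091 : ℕ) : ℝ) :=
  Cov.val _ (Cov.app (Cov.one 8 7 rfl (by decide) (by decide) A8_8.side_ok0 R8_8_0_0.res)
    (Cov.nil _ _ _ _))
    A8_8.cover A8_8.len_ok A8_8.wt_ok (by decide +kernel)

theorem s0_1 : wsum (phi1 8 true cf8) (repL 8 0) =
    ((64113735070749342175446927674607086260658882 : ℕ) : ℝ) :=
  Cov.val _ (Cov.app (Cov.one 8 7 rfl (by decide) (by decide) A8_0.side_ok0 R8_0_1_0.res)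
    (Cov.nil _ _ _ _))
    A8_0.cover A8_0.len_ok A8_0.wt_ok (by decide +kernel)

theorem s1_1 : wsum (phi1 8 true cf8) (repL 8 1) =
    ((52776410072764884535473278112128341026666836272 : ℕ) : ℝ) :=
  Cov.val _ (Cov.app (Cov.one 8 7 rfl (by decide) (by decide) A8_1.side_ok0 R8_1_1_0.res)
    (Cov.nil _ _ _ _))
    A8_1.cover A8_1.len_ok A8_1.wt_ok (by decide +kernel)

theorem s2_1 : wsum (phi1 8 true cf8) (repL 8 2) =
    ((358362149656625384645454926743053035695741289416 : ℕ) : ℝ) :=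
  Cov.val _ (Cov.app (Cov.one 8 7 rfl (by decide) (by decide) A8_2.side_ok0 R8_2_1_0.res)
    (Cov.nil _ _ _ _))
    A8_2.cover A8_2.len_ok A8_2.wt_ok (by decide +kernel)

theorem s3_1 : wsum (phi1 8 true cf8) (repL 8 3) =
    ((1199343890038872192575076338048526435499586418752 : ℕ) : ℝ) :=
  Cov.val _ (Cov.app (Cov.one 8 7 rfl (by decide) (by decide) A8_3.side_ok0 R8_3_1_0.res)
    (Cov.nil _ _ _ _))
    A8_3.cover A8_3.len_ok A8_3.wt_ok (by decide +kernel)

theorem s4_1 : wsum (phi1 8 true cf8) (repL 8 4) =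
    ((3121750456822687879949092201024161729925531978772 : ℕ) : ℝ) :=
  Cov.val _ (Cov.app (Cov.one 8 7 rfl (by decide) (by decide) A8_4.side_ok0 R8_4_1_0.res)
    (Cov.nil _ _ _ _))
    A8_4.cover A8_4.len_ok A8_4.wt_ok (by decide +kernel)

theorem s5_1 : wsum (phi1 8 true cf8) (repL 8 5) =
    ((30288708307028557828200339181364149524705682195152 : ℕ) : ℝ) :=
  Cov.val _ (Cov.app (Cov.one 8 7 rfl (by decide) (by decide) A8_5.side_ok0 R8_5_1_0.res)
    (Cov.nil _ _ _ _))
    A8_5.cover A8_5.len_ok A8_5.wt_ok (by decide +kernel)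

theorem s6_1 : wsum (phi1 8 true cf8) (repL 8 6) =
    ((3458022402749629805217431854190224670396339455512763232 : ℕ) : ℝ) :=
  Cov.val _ (Cov.app (Cov.one 8 7 rfl (by decide) (by decide) A8_6.side_ok0 R8_6_1_0.res)
    (Cov.nil _ _ _ _))
    A8_6.cover A8_6.len_ok A8_6.wt_ok (by decide +kernel)

theorem s7_1 : wsum (phi1 8 true cf8) (repL 8 7) =
    ((14461361064587559658698533510611110859537422276894130638864 : ℕ) : ℝ) :=
  Cov.val _ (Cov.app (Cov.one 8 7 rfl (by decide) (by decide) A8_7.side_ok0 R8_7_1_0.res)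
    (Cov.nil _ _ _ _))
    A8_7.cover A8_7.len_ok A8_7.wt_ok (by decide +kernel)

theorem s8_1 : wsum (phi1 8 true cf8) (repL 8 8) =
    ((2903168930938104317817321629627031920621999195986729332629635 : ℕ) : ℝ) :=
  Cov.val _ (Cov.app (Cov.one 8 7 rfl (by decide) (by decide) A8_8.side_ok0 R8_8_1_0.res.1)
    (Cov.nil _ _ _ _))
    A8_8.cover A8_8.len_ok A8_8.wt_ok (by decide +kernel)

theorem sF : wsum (phi2 8 true cf8) (repL 8 8) =
    ((730032140397649006714162790628836801009956629712858019200360 : ℕ) : ℝ) :=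
  Cov.val _ (Cov.app (Cov.two 8 7 6560 rfl (by decide) (by decide) (by decide) A8_8.side_ok0 R8_8_1_0.res.2)
    (Cov.nil _ _ _ _))
    A8_8.cover A8_8.len_ok A8_8.wt_ok (by decide +kernel)

theorem T0_0 : trace (Gs 8 0 * Polynomial.aeval (Hs 8 false) (pl (cfZ cf8) ^ 2)) =
    (10097005400972894744118003465072127324945547126683727208031185) := by
  rw [trace_G0 8 (by norm_num)]
  simp only [Finset.sum_range_succ, Finset.sum_range_zero, s0_0, s1_0, s2_0, s3_0, s4_0, s5_0, s6_0, s7_0, s8_0]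
  norm_num

theorem T3_0 : trace (Gs 8 3 * Polynomial.aeval (Hs 8 false) (pl (cfZ cf8) ^ 2)) =
    (9491619969743101722826072206038405071604262542825852798583601) := by
  rw [trace_G3 8 (by norm_num)]
  simp only [Finset.sum_range_succ, Finset.sum_range_zero, s0_0, s1_0, s2_0, s3_0, s4_0, s5_0, s6_0, s7_0, s8_0]
  norm_num

theorem T0_1 : trace (Gs 8 0 * Polynomial.aeval (Hs 8 true) (pl (cfZ cf8) ^ 2)) =
    (2917633750060115632433179959488744833078426708277018445408977) := by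
  rw [trace_G0 8 (by norm_num)]
  simp only [Finset.sum_range_succ, Finset.sum_range_zero, s0_1, s1_1, s2_1, s3_1, s4_1, s5_1, s6_1, s7_1, s8_1]
  norm_num

theorem T3_1 : trace (Gs 8 3 * Polynomial.aeval (Hs 8 true) (pl (cfZ cf8) ^ 2)) =
    (2888711027867858855901502502656900833764302255120766313230897) := by
  rw [trace_G3 8 (by norm_num)]
  simp only [Finset.sum_range_succ, Finset.sum_range_zero, s0_1, s1_1, s2_1, s3_1, s4_1, s5_1, s6_1, s7_1, s8_1]
  norm_num

theorem T1_1 : trace (Gs 8 1 * Polynomial.aeval (Hs 8 true) (pl (cfZ cf8) ^ 2)) =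
    (-2538152860739279814460240234312613520117020881130300323029455) := by
  rw [trace_G1 8 (by norm_num), sF, s8_1]
  norm_num

theorem z00 : (25153021 / 10000000) - (241 / 10000000) ≤ zn 8 0 0 ∧ zn 8 0 0 ≤ (25153021 / 10000000) + (241 / 10000000) :=
  mom_of_T 8 (by norm_num) false good8 (457 / 100000000) (25501 / 10000) (3 / 125000) (by norm_num) (by norm_num) (by norm_num)
    (by norm_num) (by norm_num) (by norm_num) T0_0 (by norm_num [lam8]) T0_0 _ _ (by norm_num [lam8]) (by norm_num [lam8])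

theorem z30 : (23644923 / 10000000) - (241 / 10000000) ≤ zn 8 3 0 ∧ zn 8 3 0 ≤ (23644923 / 10000000) + (241 / 10000000) :=
  mom_of_T 8 (by norm_num) false good8 (457 / 100000000) (25501 / 10000) (3 / 125000) (by norm_num) (by norm_num) (by norm_num)
    (by norm_num) (by norm_num) (by norm_num) T0_0 (by norm_num [lam8]) T3_0 _ _ (by norm_num [lam8]) (by norm_num [lam8])

theorem z03 : (290729 / 400000) - (241 / 10000000) ≤ zn 8 0 3 ∧ zn 8 0 3 ≤ (290729 / 400000) + (241 / 10000000) :=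
  mom_of_T 8 (by norm_num) true good8 (457 / 100000000) (25501 / 10000) (3 / 125000) (by norm_num) (by norm_num) (by norm_num)
    (by norm_num) (by norm_num) (by norm_num) T0_1 (by norm_num [lam8]) T0_1 _ _ (by norm_num [lam8]) (by norm_num [lam8])

theorem z33 : (3598087 / 5000000) - (241 / 10000000) ≤ zn 8 3 3 ∧ zn 8 3 3 ≤ (3598087 / 5000000) + (241 / 10000000) :=
  mom_of_T 8 (by norm_num) true good8 (457 / 100000000) (25501 / 10000) (3 / 125000) (by norm_num) (by norm_num) (by norm_num)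
    (by norm_num) (by norm_num) (by norm_num) T0_1 (by norm_num [lam8]) T3_1 _ _ (by norm_num [lam8]) (by norm_num [lam8])

theorem z13 : (-3161443 / 5000000) - (241 / 10000000) ≤ zn 8 1 3 ∧ zn 8 1 3 ≤ (-3161443 / 5000000) + (241 / 10000000) :=
  mom_of_T 8 (by norm_num) true good8 (457 / 100000000) (25501 / 10000) (3 / 125000) (by norm_num) (by norm_num) (by norm_num)
    (by norm_num) (by norm_num) (by norm_num) T0_1 (by norm_num [lam8]) T1_1 _ _ (by norm_num [lam8]) (by norm_num [lam8])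

def p00 : ℚ × ℚ := ((366857 / 312500), (241 / 10000000))

theorem y00 : (p00.1 : ℝ) - p00.2 ≤ yn 0 0 8 ∧ yn 0 0 8 ≤ p00.1 + p00.2 := by
  rw [yn00, p00]
  push_cast
  constructor <;> linarith [z00.1, z00.2, z03.1, z03.2]

def p03 : ℚ × ℚ := ((4471199 / 10000000), (241 / 20000000))

theorem y03 : (p03.1 : ℝ) - p03.2 ≤ yn 0 3 8 ∧ yn 0 3 8 ≤ p03.1 + p03.2 := by
  rw [yn03, p03]
  push_cast
  constructor <;> linarith [z00.1, z00.2, z03.1, z03.2]

def p33 : ℚ × ℚ := ((43486869 / 40000000), (241 / 10000000))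

theorem y33 : (p33.1 : ℝ) - p33.2 ≤ yn 3 3 8 ∧ yn 3 3 8 ≤ p33.1 + p33.2 := by
  rw [yn33, p33]
  push_cast
  constructor <;> linarith [z30.1, z30.2, z33.1, z33.2, z13.1, z13.2]

def p30 : ℚ × ℚ := ((727813 / 1600000), (241 / 10000000))

theorem y30 : (p30.1 : ℝ) - p30.2 ≤ yn 3 0 8 ∧ yn 3 0 8 ≤ p30.1 + p30.2 := by
  rw [yn30, p30]
  push_cast
  constructor <;> linarith [z30.1, z30.2, z33.1, z33.2, z13.1, z13.2]

def p31 : ℚ × ℚ := ((16448749 / 40000000), (241 / 20000000))

theorem y31 : (p31.1 : ℝ) - p31.2 ≤ yn 3 1 8 ∧ yn 3 1 8 ≤ p31.1 + p31.2 := by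
  rw [yn31, p31]
  push_cast
  constructor <;> linarith [z30.1, z30.2, z33.1, z33.2]

end Vale.Agent.P348.M8
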