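import Vale.Agent.P348.Init
import Vale.Agent.P348.G.All9

/-! Enclosures of the partition functions of the ring with 9 sites. -/

set_option maxRecDepth 100000

namespace Vale.Agent.P348.M9

open Matrix

theorem s0_0 : wsum (phi1 9 false cf9) (repL 9 0) =
    ((125289182353525063012196371529415615802805104178 : ℕ) : ℝ) :=
  Cov.val _ (Cov.app (Cov.one 9 8 rfl (by decide) (by decide) A9_0.side_ok0 R9_0_0_0.res)
    (Cov.nil _ _ _ _))
    A9_0.cover A9_0.len_ok A9_0.wt_ok (by decide +kernel)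

theorem s1_0 : wsum (phi1 9 false cf9) (repL 9 1) =
    ((53120644212364807347598010765381968306435934277114 : ℕ) : ℝ) :=
  Cov.val _ (Cov.app (Cov.one 9 8 rfl (by decide) (by decide) A9_1.side_ok0 R9_1_0_0.res)
    (Cov.nil _ _ _ _))
    A9_1.cover A9_1.len_ok A9_1.wt_ok (by decide +kernel)

theorem s2_0 : wsum (phi1 9 false cf9) (repL 9 2) =
    ((909528984487693071506038258959400859129588066185116 : ℕ) : ℝ) :=
  Cov.val _ (Cov.app (Cov.one 9 8 rfl (by decide) (by decide) A9_2.side_ok0 R9_2_0_0.res)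
    (Cov.nil _ _ _ _))
    A9_2.cover A9_2.len_ok A9_2.wt_ok (by decide +kernel)

theorem s3_0 : wsum (phi1 9 false cf9) (repL 9 3) =
    ((3010309534864400912174202516407734842568440564471894 : ℕ) : ℝ) :=
  Cov.val _ (Cov.app (Cov.one 9 8 rfl (by decide) (by decide) A9_3.side_ok0 R9_3_0_0.res)
    (Cov.nil _ _ _ _))
    A9_3.cover A9_3.len_ok A9_3.wt_ok (by decide +kernel)

theorem s4_0 : wsum (phi1 9 false cf9) (repL 9 4) =
    ((8735512742081611121516269611771302863936499015850972 : ℕ) : ℝ) :=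
  Cov.val _ (Cov.app (Cov.one 9 8 rfl (by decide) (by decide) A9_4.side_ok0 R9_4_0_0.res)
    (Cov.nil _ _ _ _))
    A9_4.cover A9_4.len_ok A9_4.wt_ok (by decide +kernel)

theorem s5_0 : wsum (phi1 9 false cf9) (repL 9 5) =
    ((20818508812849995944555029456718905994813337627942342 : ℕ) : ℝ) :=
  Cov.val _ (Cov.app (Cov.one 9 8 rfl (by decide) (by decide) A9_5.side_ok0 R9_5_0_0.res)
    (Cov.nil _ _ _ _))
    A9_5.cover A9_5.len_ok A9_5.wt_ok (by decide +kernel)

theorem s6_0 : wsum (phi1 9 false cf9) (repL 9 6) =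
    ((70414556338614804152669500228605398131359474793518498 : ℕ) : ℝ) :=
  Cov.val _ (Cov.app (Cov.one 9 8 rfl (by decide) (by decide) A9_6.side_ok0 R9_6_0_0.res)
    (Cov.app (Cov.one 9 8 rfl (by decide) (by decide) A9_6.side_ok1 R9_6_0_1.res)
    (Cov.nil _ _ _ _)))
    A9_6.cover A9_6.len_ok A9_6.wt_ok (by decide +kernel)

theorem s7_0 : wsum (phi1 9 false cf9) (repL 9 7) =
    ((1941150028534441050276558944337126562644302668858192898976 : ℕ) : ℝ) :=
  Cov.val _ (Cov.app (Cov.one 9 8 rfl (by decide) (by decide) A9_7.side_ok0 R9_7_0_0.res)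
    (Cov.app (Cov.one 9 8 rfl (by decide) (by decide) A9_7.side_ok1 R9_7_0_1.res)
    (Cov.nil _ _ _ _)))
    A9_7.cover A9_7.len_ok A9_7.wt_ok (by decide +kernel)

theorem s8_0 : wsum (phi1 9 false cf9) (repL 9 8) =
    ((4923378218282694784387056064548904842887956475817228464895552 : ℕ) : ℝ) :=
  Cov.val _ (Cov.app (Cov.one 9 8 rfl (by decide) (by decide) A9_8.side_ok0 R9_8_0_0.res)
    (Cov.app (Cov.one 9 8 rfl (by decide) (by decide) A9_8.side_ok1 R9_8_0_1.res)
    (Cov.nil _ _ _ _)))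
    A9_8.cover A9_8.len_ok A9_8.wt_ok (by decide +kernel)

theorem s9_0 : wsum (phi1 9 false cf9) (repL 9 9) =
    ((263496774110399757337652299970731735768157741482479333346690990 : ℕ) : ℝ) :=
  Cov.val _ (Cov.app (Cov.one 9 8 rfl (by decide) (by decide) A9_9.side_ok0 R9_9_0_0.res)
    (Cov.app (Cov.one 9 8 rfl (by decide) (by decide) A9_9.side_ok1 R9_9_0_1.res)
    (Cov.nil _ _ _ _)))
    A9_9.cover A9_9.len_ok A9_9.wt_ok (by decide +kernel)

theorem s0_1 : wsum (phi1 9 true cf9) (repL 9 0) =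
    ((125289182353525063012196371529415615802805104178 : ℕ) : ℝ) :=
  Cov.val _ (Cov.app (Cov.one 9 8 rfl (by decide) (by decide) A9_0.side_ok0 R9_0_1_0.res)
    (Cov.nil _ _ _ _))
    A9_0.cover A9_0.len_ok A9_0.wt_ok (by decide +kernel)

theorem s1_1 : wsum (phi1 9 true cf9) (repL 9 1) =
    ((124578027300390141079270996485305326899088626197514 : ℕ) : ℝ) :=
  Cov.val _ (Cov.app (Cov.one 9 8 rfl (by decide) (by decide) A9_1.side_ok0 R9_1_1_0.res)
    (Cov.nil _ _ _ _))
    A9_1.cover A9_1.len_ok A9_1.wt_ok (by decide +kernel)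

theorem s2_1 : wsum (phi1 9 true cf9) (repL 9 2) =
    ((826732583856623656968982001464266993744881570014524 : ℕ) : ℝ) :=
  Cov.val _ (Cov.app (Cov.one 9 8 rfl (by decide) (by decide) A9_2.side_ok0 R9_2_1_0.res)
    (Cov.nil _ _ _ _))
    A9_2.cover A9_2.len_ok A9_2.wt_ok (by decide +kernel)

theorem s3_1 : wsum (phi1 9 true cf9) (repL 9 3) =
    ((3160557845921550969319433842805844881048131131874710 : ℕ) : ℝ) :=
  Cov.val _ (Cov.app (Cov.one 9 8 rfl (by decide) (by decide) A9_3.side_ok0 R9_3_1_0.res)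
    (Cov.nil _ _ _ _))
    A9_3.cover A9_3.len_ok A9_3.wt_ok (by decide +kernel)

theorem s4_1 : wsum (phi1 9 true cf9) (repL 9 4) =
    ((8644282873102837653598005429377489727581575669331532 : ℕ) : ℝ) :=
  Cov.val _ (Cov.app (Cov.one 9 8 rfl (by decide) (by decide) A9_4.side_ok0 R9_4_1_0.res)
    (Cov.nil _ _ _ _))
    A9_4.cover A9_4.len_ok A9_4.wt_ok (by decide +kernel)

theorem s5_1 : wsum (phi1 9 true cf9) (repL 9 5) =
    ((19702009441827674439420738254371049717515333233346374 : ℕ) : ℝ) :=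
  Cov.val _ (Cov.app (Cov.one 9 8 rfl (by decide) (by decide) A9_5.side_ok0 R9_5_1_0.res)
    (Cov.nil _ _ _ _))
    A9_5.cover A9_5.len_ok A9_5.wt_ok (by decide +kernel)

theorem s6_1 : wsum (phi1 9 true cf9) (repL 9 6) =
    ((650332093556759578240432201891671283166691433966802322 : ℕ) : ℝ) :=
  Cov.val _ (Cov.app (Cov.one 9 8 rfl (by decide) (by decide) A9_6.side_ok0 R9_6_1_0.res)
    (Cov.app (Cov.one 9 8 rfl (by decide) (by decide) A9_6.side_ok1 R9_6_1_1.res)
    (Cov.nil _ _ _ _)))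
    A9_6.cover A9_6.len_ok A9_6.wt_ok (by decide +kernel)

theorem s7_1 : wsum (phi1 9 true cf9) (repL 9 7) =
    ((34908558071204588307081944207901707005698978631047796740432 : ℕ) : ℝ) :=
  Cov.val _ (Cov.app (Cov.one 9 8 rfl (by decide) (by decide) A9_7.side_ok0 R9_7_1_0.res)
    (Cov.app (Cov.one 9 8 rfl (by decide) (by decide) A9_7.side_ok1 R9_7_1_1.res)
    (Cov.nil _ _ _ _)))
    A9_7.cover A9_7.len_ok A9_7.wt_ok (by decide +kernel)

theorem s8_1 : wsum (phi1 9 true cf9) (repL 9 8) =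
    ((58999129468710335306462344206873078638311327082223654137920992 : ℕ) : ℝ) :=
  Cov.val _ (Cov.app (Cov.one 9 8 rfl (by decide) (by decide) A9_8.side_ok0 R9_8_1_0.res)
    (Cov.app (Cov.one 9 8 rfl (by decide) (by decide) A9_8.side_ok1 R9_8_1_1.res)
    (Cov.nil _ _ _ _)))
    A9_8.cover A9_8.len_ok A9_8.wt_ok (by decide +kernel)

theorem s9_1 : wsum (phi1 9 true cf9) (repL 9 9) =
    ((840644532835694625907924739289960313708033069699003965040078126 : ℕ) : ℝ) :=
  Cov.val _ (Cov.app (Cov.one 9 8 rfl (by decide) (by decide) A9_9.side_ok0 R9_9_1_0.res.1)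
    (Cov.app (Cov.one 9 8 rfl (by decide) (by decide) A9_9.side_ok1 R9_9_1_1.res.1)
    (Cov.nil _ _ _ _)))
    A9_9.cover A9_9.len_ok A9_9.wt_ok (by decide +kernel)

theorem sF : wsum (phi2 9 true cf9) (repL 9 9) =
    ((3354659201029441610328345884004004153382464181569714884319704748 : ℕ) : ℝ) :=
  Cov.val _ (Cov.app (Cov.two 9 8 19682 rfl (by decide) (by decide) (by decide) A9_9.side_ok0 R9_9_1_0.res.2)
    (Cov.app (Cov.two 9 8 19682 rfl (by decide) (by decide) (by decide) A9_9.side_ok1 R9_9_1_1.res.2)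
    (Cov.nil _ _ _ _)))
    A9_9.cover A9_9.len_ok A9_9.wt_ok (by decide +kernel)

theorem T0_0 : trace (Gs 9 0 * Polynomial.aeval (Hs 9 false) (pl (cfZ cf9) ^ 2)) =
    (268422093582652648909382856129056628017207996336694998811835632) := by
  rw [trace_G0 9 (by norm_num)]
  simp only [Finset.sum_range_succ, Finset.sum_range_zero, s0_0, s1_0, s2_0, s3_0, s4_0, s5_0, s6_0, s7_0, s8_0, s9_0]
  norm_num

theorem T3_0 : trace (Gs 9 3 * Polynomial.aeval (Hs 9 false) (pl (cfZ cf9) ^ 2)) =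
    (258575336985967812631875820258449177740016820844977812520727000) := by
  rw [trace_G3 9 (by norm_num)]
  simp only [Finset.sum_range_succ, Finset.sum_range_zero, s0_0, s1_0, s2_0, s3_0, s4_0, s5_0, s6_0, s7_0, s8_0, s9_0]
  norm_num

theorem T0_1 : trace (Gs 9 0 * Polynomial.aeval (Hs 9 true) (pl (cfZ cf9) ^ 2)) =
    (899678571545266545420645174066922938665896864988954913977410704) := by
  rw [trace_G0 9 (by norm_num)]
  simp only [Finset.sum_range_succ, Finset.sum_range_zero, s0_1, s1_1, s2_1, s3_1, s4_1, s5_1, s6_1, s7_1, s8_1, s9_1]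
  norm_num

theorem T3_1 : trace (Gs 9 3 * Polynomial.aeval (Hs 9 true) (pl (cfZ cf9) ^ 2)) =
    (781680311288239406201917699501052378351505072217240217679063608) := by
  rw [trace_G3 9 (by norm_num)]
  simp only [Finset.sum_range_succ, Finset.sum_range_zero, s0_1, s1_1, s2_1, s3_1, s4_1, s5_1, s6_1, s7_1, s8_1, s9_1]
  norm_num

theorem T1_1 : trace (Gs 9 1 * Polynomial.aeval (Hs 9 true) (pl (cfZ cf9) ^ 2)) =
    (-836685067679026179256248202712041762983199021085853477119774248) := by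
  rw [trace_G1 9 (by norm_num), sF, s9_1]
  norm_num

theorem z00 : (2023869 / 5000000) - (903 / 10000000) ≤ zn 9 0 0 ∧ zn 9 0 0 ≤ (2023869 / 5000000) + (903 / 10000000) :=
  mom_of_T 9 (by norm_num) false good9 (129 / 4000000) (13801 / 10000) (451 / 5000000) (by norm_num) (by norm_num) (by norm_num)
    (by norm_num) (by norm_num) (by norm_num) T0_0 (by norm_num [lam9]) T0_0 _ _ (by norm_num [lam9]) (by norm_num [lam9])

theorem z30 : (3899251 / 10000000) - (903 / 10000000) ≤ zn 9 3 0 ∧ zn 9 3 0 ≤ (3899251 / 10000000) + (903 / 10000000) :=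
  mom_of_T 9 (by norm_num) false good9 (129 / 4000000) (13801 / 10000) (451 / 5000000) (by norm_num) (by norm_num) (by norm_num)
    (by norm_num) (by norm_num) (by norm_num) T0_0 (by norm_num [lam9]) T3_0 _ _ (by norm_num [lam9]) (by norm_num [lam9])

theorem z03 : (847933 / 625000) - (903 / 10000000) ≤ zn 9 0 3 ∧ zn 9 0 3 ≤ (847933 / 625000) + (903 / 10000000) :=
  mom_of_T 9 (by norm_num) true good9 (129 / 4000000) (13801 / 10000) (451 / 5000000) (by norm_num) (by norm_num) (by norm_num)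
    (by norm_num) (by norm_num) (by norm_num) T0_1 (by norm_num [lam9]) T0_1 _ _ (by norm_num [lam9]) (by norm_num [lam9])

theorem z33 : (1473443 / 1250000) - (903 / 10000000) ≤ zn 9 3 3 ∧ zn 9 3 3 ≤ (1473443 / 1250000) + (903 / 10000000) :=
  mom_of_T 9 (by norm_num) true good9 (129 / 4000000) (13801 / 10000) (451 / 5000000) (by norm_num) (by norm_num) (by norm_num)
    (by norm_num) (by norm_num) (by norm_num) T0_1 (by norm_num [lam9]) T3_1 _ _ (by norm_num [lam9]) (by norm_num [lam9])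

theorem z13 : (-6308501 / 5000000) - (903 / 10000000) ≤ zn 9 1 3 ∧ zn 9 1 3 ≤ (-6308501 / 5000000) + (903 / 10000000) :=
  mom_of_T 9 (by norm_num) true good9 (129 / 4000000) (13801 / 10000) (451 / 5000000) (by norm_num) (by norm_num) (by norm_num)
    (by norm_num) (by norm_num) (by norm_num) T0_1 (by norm_num [lam9]) T1_1 _ _ (by norm_num [lam9]) (by norm_num [lam9])

def p00 : ℚ × ℚ := ((22374261 / 20000000), (903 / 10000000))

theorem y00 : (p00.1 : ℝ) - p00.2 ≤ yn 0 0 9 ∧ yn 0 0 9 ≤ p00.1 + p00.2 := by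
  rw [yn00, p00]
  push_cast
  constructor <;> linarith [z00.1, z00.2, z03.1, z03.2]

def p03 : ℚ × ℚ := ((-951919 / 4000000), (903 / 20000000))

theorem y03 : (p03.1 : ℝ) - p03.2 ≤ yn 0 3 9 ∧ yn 0 3 9 ≤ p03.1 + p03.2 := by
  rw [yn03, p03]
  push_cast
  constructor <;> linarith [z00.1, z00.2, z03.1, z03.2]

def p33 : ℚ × ℚ := ((40920799 / 40000000), (903 / 10000000))

theorem y33 : (p33.1 : ℝ) - p33.2 ≤ yn 3 3 9 ∧ yn 3 3 9 ≤ p33.1 + p33.2 := by
  rw [yn33, p33]
  push_cast
  constructor <;> linarith [z30.1, z30.2, z33.1, z33.2, z13.1, z13.2]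

def p30 : ℚ × ℚ := ((-9547209 / 40000000), (903 / 10000000))

theorem y30 : (p30.1 : ℝ) - p30.2 ≤ yn 3 0 9 ∧ yn 3 0 9 ≤ p30.1 + p30.2 := by
  rw [yn30, p30]
  push_cast
  constructor <;> linarith [z30.1, z30.2, z33.1, z33.2, z13.1, z13.2]

def p31 : ℚ × ℚ := ((-7888293 / 40000000), (903 / 20000000))

theorem y31 : (p31.1 : ℝ) - p31.2 ≤ yn 3 1 9 ∧ yn 3 1 9 ≤ p31.1 + p31.2 := by
  rw [yn31, p31]
  push_cast
  constructor <;> linarith [z30.1, z30.2, z33.1, z33.2]

end Vale.Agent.P348.M9
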