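import Vale.Agent.P348.M4
import Vale.Agent.P348.M5
import Vale.Agent.P348.M6
import Vale.Agent.P348.M7
import Vale.Agent.P348.M8
import Vale.Agent.P348.M9
import Vale.Agent.P348.M10
import Vale.Agent.P348.Filt
import Vale.Agent.P348.Final

/-! The bounds on the symmetry sectors at lengths 30 and 60, and the two starting inequalities. -/

namespace Vale.Agent.P348

theorem bound00_30 : yn 0 0 30 ≤ 1273 / 1000 :=
  (filter_cert (yn_ps 0 0) (-371 / 1000) (67 / 1000) (21 / 40) (1 / 1000000) (98007 / 31250) (162353 / 400000) 20 (by decide)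
    (21 / 40) (100807 / 100000)
    [(262543 / 500000), (532159 / 1000000), (708299 / 1000000), (236647 / 250000), (250117 / 250000), (1007213 / 1000000), (1007983 / 1000000), (100807 / 100000)]
    [(37237 / 62500), (100807 / 100000)]
    M4.p00 M5.p00 M6.p00 M7.p00 M8.p00 M9.p00 M10.p00 (1273 / 1000) (by decide +kernel)
    M4.y00 M5.y00 M6.y00 M7.y00 M8.y00 M9.y00 M10.y00).trans (by norm_num)

theorem bound00_60 : yn 0 0 60 ≤ 162 / 100 :=
  (filter_cert (yn_ps 0 0) (-371 / 1000) (67 / 1000) (531 / 1000) (1 / 1000000) (4092257 / 1000000) (3958559 / 10000000) 50 (by decide)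
    (531 / 1000) (1008069 / 1000000)
    [(26081 / 40000), (9699 / 10000), (31443 / 31250), (62999 / 62500), (1008069 / 1000000)]
    [(23599 / 40000), (1008069 / 1000000)]
    M4.p00 M5.p00 M6.p00 M7.p00 M8.p00 M9.p00 M10.p00 (162 / 100) (by decide +kernel)
    M4.y00 M5.y00 M6.y00 M7.y00 M8.y00 M9.y00 M10.y00).trans (by norm_num)

theorem bound03_30 : yn 0 3 30 ≤ 95 / 10000 :=
  (filter_cert (yn_ps 0 3) (-541 / 1000) (-11 / 1000) (547 / 1000) (23 / 500000) (253257 / 2000000) (749551 / 10000000) 20 (by decide)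
    (547 / 1000) (856063 / 1000000)
    [(547301 / 1000000), (137019 / 250000), (34713 / 62500), (63369 / 100000), (156051 / 200000), (168211 / 200000), (85381 / 100000), (856063 / 1000000)]
    [(559773 / 1000000), (680333 / 1000000), (809077 / 1000000), (169519 / 200000), (854833 / 1000000), (856063 / 1000000)]
    M4.p03 M5.p03 M6.p03 M7.p03 M8.p03 M9.p03 M10.p03 (95 / 10000) (by decide +kernel)
    M4.y03 M5.y03 M6.y03 M7.y03 M8.y03 M9.y03 M10.y03).trans (by norm_num)

theorem bound03_60 : yn 0 3 60 ≤ 1 / 10000 :=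
  (filter_cert (yn_ps 0 3) (-547 / 1000) (-3 / 1000) (137 / 250) (1 / 1000000) (610493 / 500000000) (18411 / 250000) 50 (by decide)
    (137 / 250) (856107 / 1000000)
    [(619593 / 1000000), (163767 / 200000), (213363 / 250000), (856107 / 1000000)]
    [(138849 / 200000), (209603 / 250000), (427453 / 500000), (856107 / 1000000)]
    M4.p03 M5.p03 M6.p03 M7.p03 M8.p03 M9.p03 M10.p03 (1 / 10000) (by decide +kernel)
    M4.y03 M5.y03 M6.y03 M7.y03 M8.y03 M9.y03 M10.y03).trans (by norm_num)

theorem bound33_30 : yn 3 3 30 ≤ 9467 / 10000 :=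
  (filter_cert (yn_ps 3 3) (-361 / 1000) (27 / 500) (1 / 2) (1 / 1000000) (291677 / 125000) (4057077 / 10000000) 20 (by decide)
    (1 / 2) (998169 / 1000000)
    [(125621 / 250000), (127023 / 200000), (915713 / 1000000), (494257 / 500000), (997167 / 1000000), (39923 / 40000), (998169 / 1000000)]
    [(608013 / 1000000), (998169 / 1000000)]
    M4.p33 M5.p33 M6.p33 M7.p33 M8.p33 M9.p33 M10.p33 (9467 / 10000) (by decide +kernel)
    M4.y33 M5.y33 M6.y33 M7.y33 M8.y33 M9.y33 M10.y33).trans (by norm_num)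

theorem bound33_60 : yn 3 3 60 ≤ 8953 / 10000 :=
  (filter_cert (yn_ps 3 3) (-93 / 250) (53 / 1000) (517 / 1000) (1 / 1000000) (2322933 / 1000000) (1926947 / 5000000) 50 (by decide)
    (517 / 1000) (499077 / 500000)
    [(618623 / 1000000), (191043 / 200000), (199221 / 200000), (499033 / 500000), (499077 / 500000)]
    [(611757 / 1000000), (499077 / 500000)]
    M4.p33 M5.p33 M6.p33 M7.p33 M8.p33 M9.p33 M10.p33 (8953 / 10000) (by decide +kernel)
    M4.y33 M5.y33 M6.y33 M7.y33 M8.y33 M9.y33 M10.y33).trans (by norm_num)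

theorem bound30_30 : yn 3 0 30 ≤ 102 / 10000 :=
  (filter_cert (yn_ps 3 0) (-549 / 1000) (-1 / 200) (11 / 20) (47 / 1000000) (1371899 / 10000000) (743209 / 10000000) 20 (by decide)
    (11 / 20) (107213 / 125000)
    [(550093 / 1000000), (137551 / 250000), (550461 / 1000000), (275877 / 500000), (567271 / 1000000), (678593 / 1000000), (404009 / 500000), (212391 / 250000), (107213 / 125000)]
    [(13809 / 25000), (588803 / 1000000), (146203 / 200000), (20713 / 25000), (17063 / 20000), (107213 / 125000)]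
    M4.p30 M5.p30 M6.p30 M7.p30 M8.p30 M9.p30 M10.p30 (102 / 10000) (by decide +kernel)
    M4.y30 M5.y30 M6.y30 M7.y30 M8.y30 M9.y30 M10.y30).trans (by norm_num)

theorem bound30_60 : yn 3 0 60 ≤ 2 / 10000 :=
  (filter_cert (yn_ps 3 0) (-53 / 100) (-33 / 1000) (11 / 20) (1 / 1000000) (257879 / 200000000) (783647 / 10000000) 50 (by decide)
    (11 / 20) (857773 / 1000000)
    [(137749 / 250000), (697979 / 1000000), (168057 / 200000), (856579 / 1000000), (857773 / 1000000)]
    [(330157 / 500000), (835437 / 1000000), (856339 / 1000000), (857773 / 1000000)]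
    M4.p30 M5.p30 M6.p30 M7.p30 M8.p30 M9.p30 M10.p30 (2 / 10000) (by decide +kernel)
    M4.y30 M5.y30 M6.y30 M7.y30 M8.y30 M9.y30 M10.y30).trans (by norm_num)

theorem bound31_30 : yn 3 1 30 ≤ 46 / 10000 :=
  (filter_cert (yn_ps 3 1) (-11 / 20) (0) (11 / 20) (3 / 40000) (2149853 / 25000000) (33279 / 625000) 20 (by decide)
    (11 / 20) (835513 / 1000000)
    [(550133 / 1000000), (550229 / 1000000), (110079 / 200000), (275443 / 500000), (138421 / 250000), (291669 / 500000), (704127 / 1000000), (160139 / 200000), (828713 / 1000000), (417217 / 500000), (835513 / 1000000)]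
    [(550133 / 1000000), (550229 / 1000000), (110079 / 200000), (275443 / 500000), (138421 / 250000), (291669 / 500000), (704127 / 1000000), (160139 / 200000), (828713 / 1000000), (417217 / 500000), (835513 / 1000000)]
    M4.p31 M5.p31 M6.p31 M7.p31 M8.p31 M9.p31 M10.p31 (46 / 10000) (by decide +kernel)
    M4.y31 M5.y31 M6.y31 M7.y31 M8.y31 M9.y31 M10.y31).trans (by norm_num)

theorem bound31_60 : yn 3 1 60 ≤ 1 / 10000 :=
  (filter_cert (yn_ps 3 1) (-1 / 2) (0) (1 / 2) (1 / 1000000) (3210629 / 10000000000) (345899 / 5000000) 50 (by decide)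
    (1 / 2) (418193 / 500000)
    [(309187 / 500000), (12693 / 15625), (834987 / 1000000), (418193 / 500000)]
    [(309187 / 500000), (12693 / 15625), (834987 / 1000000), (418193 / 500000)]
    M4.p31 M5.p31 M6.p31 M7.p31 M8.p31 M9.p31 M10.p31 (1 / 10000) (by decide +kernel)
    M4.y31 M5.y31 M6.y31 M7.y31 M8.y31 M9.y31 M10.y31).trans (by norm_num)

theorem start_t : Zf ((12 : ℕ) * (7 / 4)) 60 0 0 ^ 2 ≤ (1 + 7 / 100) * Zf ((24 : ℕ) * (7 / 4)) 60 0 0 :=
  init_t bound00_60 bound03_60 bound33_60 bound30_60 bound31_60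

theorem start_s : Zf ((24 : ℕ) * (7 / 4)) 60 0 0 ^ 2 ≤ (1 + 13 / 100) * Zf ((24 : ℕ) * (7 / 4)) 120 0 0 :=
  init_s bound00_30 bound03_30 bound33_30 bound30_30 bound31_30

end Vale.Agent.P348
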