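import Vale.Agent.P348.Model

/-! Internal definitions of the proof. -/

namespace Vale.Agent.P348

open Matrix

abbrev Cfg (n : ℕ) := Fin n → Fin 3

/-- tensor product of one-site matrices -/
def tens {R : Type} [CommSemiring R] {n : ℕ} (A : Fin n → Matrix (Fin 3) (Fin 3) R) :
    Matrix (Cfg n) (Cfg n) R :=
  Matrix.of fun s t => ∏ i : Fin n, A i (s i) (t i)

/-- the real antisymmetric generators `(L a) b c = ε_{abc}`; the spin matrices are `-i L a` -/
def Lm (a : Fin 3) : Matrix (Fin 3) (Fin 3) ℝ :=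
  ![!![0, 0, 0; 0, 0, 1; 0, -1, 0], !![0, 0, -1; 0, 0, 0; 1, 0, 0], !![0, 1, 0; -1, 0, 0; 0, 0, 0]] a

/-- characters of the Klein four-group `Fin 4` (`0` is the unit, `a + 1` the half turn about axis `a`) -/
def chi (c g : Fin 4) : ℝ := if c = 0 ∨ g = 0 ∨ c = g then 1 else -1

/-- the diagonal entries of the half turn `g` in the basis `x, y, z` -/
def sg (g : Fin 4) (a : Fin 3) : ℝ := chi a.succ g

/-- the sign on the bond `(j, j + 1)`: the last bond is twisted by `h` -/
def bsg {n : ℕ} (h : Fin 4) (j : Fin n) (a : Fin 3) : ℝ := if j.val + 1 = n then sg h a else 1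

/-- the real Hamiltonian in the basis `x, y, z`, with the boundary twisted by `h` -/
noncomputable def Hr (n : ℕ) (h : Fin 4) : Matrix (Cfg n) (Cfg n) ℝ :=
  -∑ j : Fin n, ∑ a : Fin 3, bsg h j a • (site j (Lm a) * site (finRotate n j) (Lm a))

/-- the global half turn `g` -/
def Gr (n : ℕ) (g : Fin 4) : Matrix (Cfg n) (Cfg n) ℝ := diagonal fun s => ∏ j, sg g (s j)

/-- the doubly twisted partition function -/
noncomputable def Zf (β : ℝ) (n : ℕ) (g h : Fin 4) : ℝ :=
  trace (Gr n g * NormedSpace.exp (-β • Hr n h))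

/-- symmetry sectors of the spatial transfer matrix -/
noncomputable def Ysec (β : ℝ) (n : ℕ) (g c : Fin 4) : ℝ := (1 / 4) * ∑ h, chi c h * Zf β n g h

/-- symmetry sectors of the Hamiltonian -/
noncomputable def Zsec (β : ℝ) (n : ℕ) (h c : Fin 4) : ℝ := (1 / 4) * ∑ g, chi c g * Zf β n g h

/-- `F n` is the `n`-th power sum of a real sequence of decreasing modulus, for `n ≥ 3` -/
def PS (F : ℕ → ℝ) : Prop :=
  ∃ x : ℕ → ℝ, (∀ i j, i ≤ j → |x j| ≤ |x i|) ∧ ∀ n, 3 ≤ n → HasSum (fun j => x j ^ n) (F n)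

/-- the variational energy density -/
noncomputable def ev : ℝ := 140147 / 100000

/-! The basis of eigenvectors of `S^z`; the digit `a` has `S^z = a - 1`. -/

def Zm : Matrix (Fin 3) (Fin 3) ℝ := !![-1, 0, 0; 0, 0, 0; 0, 0, 1]
def Up : Matrix (Fin 3) (Fin 3) ℝ := !![0, 0, 0; 1, 0, 0; 0, 1, 0]
def Dn : Matrix (Fin 3) (Fin 3) ℝ := !![0, 1, 0; 0, 0, 1; 0, 0, 0]

def tsg {n : ℕ} (tw : Bool) (j : Fin n) : ℝ := if tw = true ∧ j.val + 1 = n then -1 else 1

/-- the Hamiltonian in the `S^z` basis; `tw = true` twists the boundary by the half turn about `z` -/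
noncomputable def Hs (n : ℕ) (tw : Bool) : Matrix (Cfg n) (Cfg n) ℝ :=
  ∑ j : Fin n, (site j Zm * site (finRotate n j) Zm +
    tsg tw j • (site j Up * site (finRotate n j) Dn + site j Dn * site (finRotate n j) Up))

/-- the half turns in the `S^z` basis -/
def gS (g : Fin 4) : Matrix (Fin 3) (Fin 3) ℝ :=
  ![1, !![0, 0, -1; 0, -1, 0; -1, 0, 0], !![0, 0, 1; 0, -1, 0; 1, 0, 0], !![-1, 0, 0; 0, 1, 0; 0, 0, -1]] g

def Gs (n : ℕ) (g : Fin 4) : Matrix (Cfg n) (Cfg n) ℝ := tens fun _ => gS g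

def twOf (tw : Bool) : Fin 4 := if tw = true then 3 else 0

/-- the real polynomial with the integer coefficients `l`, constant term first -/
noncomputable def pl : List ℤ → Polynomial ℝ
  | [] => 0
  | c :: l => Polynomial.C (c : ℝ) + Polynomial.X * pl l

/-- the base-three code of a configuration, site `0` being the lowest digit -/
def code {n : ℕ} (s : Cfg n) : ℕ := ∑ j : Fin n, (s j).val * 3 ^ j.val

end Vale.Agent.P348
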