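import Vale.Agent.P348.Defs

/-! Basic facts on tensor products of one-site matrices. -/

namespace Vale.Agent.P348

open Matrix

variable {R : Type} [CommSemiring R] {n : ℕ}

theorem tens_mul (A B : Fin n → Matrix (Fin 3) (Fin 3) R) :
    tens A * tens B = tens (fun i => A i * B i) := by
  ext s t
  simp only [tens, Matrix.mul_apply, Matrix.of_apply]
  rw [Finset.prod_univ_sum]
  simp only [Fintype.piFinset_univ, Finset.prod_mul_distrib]

theorem tens_one : tens (fun _ : Fin n => (1 : Matrix (Fin 3) (Fin 3) R)) = 1 := by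
  ext s t
  simp only [tens, Matrix.of_apply, Matrix.one_apply]
  rw [Finset.prod_boole]
  by_cases h : s = t
  · simp [h]
  · have : ¬ ∀ i ∈ Finset.univ, s i = t i := fun h' => h (funext fun i => h' i (Finset.mem_univ i))
    simp only [this, h, if_false]

theorem trace_tens (A : Fin n → Matrix (Fin 3) (Fin 3) R) :
    trace (tens A) = ∏ i, trace (A i) := by
  simp only [tens, Matrix.trace, Matrix.diag, Matrix.of_apply]
  rw [Finset.prod_univ_sum]
  simp only [Fintype.piFinset_univ]

theorem site_eq_tens (j : Fin n) (A : Matrix (Fin 3) (Fin 3) R) :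
    site j A = tens (fun i => if i = j then A else 1) := rfl

theorem tens_transpose (A : Fin n → Matrix (Fin 3) (Fin 3) R) :
    (tens A)ᵀ = tens (fun i => (A i)ᵀ) := by
  ext s t
  simp [tens]

theorem site_transpose (j : Fin n) (A : Matrix (Fin 3) (Fin 3) R) : (site j A)ᵀ = site j Aᵀ := by
  rw [site_eq_tens, site_eq_tens, tens_transpose]
  congr 1
  funext i
  split_ifs <;> simp

theorem site_mul_site {j k : Fin n} (hjk : j ≠ k) (A B : Matrix (Fin 3) (Fin 3) R) :
    site j A * site k B = tens (fun i => if i = j then A else if i = k then B else 1) := by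
  rw [site_eq_tens, site_eq_tens, tens_mul]
  congr 1
  funext i
  by_cases h1 : i = j
  · have : i ≠ k := h1 ▸ hjk
    simp [h1, hjk]
  · by_cases h2 : i = k
    · simp [h2, hjk.symm]
    · simp [h1, h2]

theorem site_comm {j k : Fin n} (hjk : j ≠ k) (A B : Matrix (Fin 3) (Fin 3) R) :
    site j A * site k B = site k B * site j A := by
  rw [site_mul_site hjk, site_mul_site hjk.symm]
  congr 1
  funext i
  by_cases h1 : i = j
  · simp [h1, hjk]
  · simp [h1]

theorem finRotate_ne (hn : 2 ≤ n) (j : Fin n) : j ≠ finRotate n j := by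
  obtain ⟨m, rfl⟩ : ∃ m, n = m + 2 := ⟨n - 2, by omega⟩
  rw [finRotate_apply]
  intro h
  have h2 : (0 : Fin (m + 2)) = 1 := by
    have := add_left_cancel (a := j) (b := 0) (c := 1) (by simpa using h)
    exact this
  exact absurd h2 (by simp)

theorem Lm_transpose (a : Fin 3) : (Lm a)ᵀ = -Lm a := by
  fin_cases a <;> ext i j <;> fin_cases i <;> fin_cases j <;> simp [Lm]

theorem site_neg {S : Type} [CommRing S] (j : Fin n) (A : Matrix (Fin 3) (Fin 3) S) :
    site j (-A) = -site j A := by
  ext s t
  simp only [site, Matrix.of_apply, Matrix.neg_apply]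
  rw [← Finset.mul_prod_erase _ _ (Finset.mem_univ j), ← Finset.mul_prod_erase _ _ (Finset.mem_univ j)]
  rw [Finset.prod_congr rfl (g := fun i => (if i = j then A else 1) (s i) (t i))]
  · simp
  · intro i hi
    simp [Finset.ne_of_mem_erase hi]

theorem Hr_isSymm (n : ℕ) (hn : 2 ≤ n) (h : Fin 4) : (Hr n h).IsSymm := by
  unfold Matrix.IsSymm Hr
  rw [Matrix.transpose_neg, Matrix.transpose_sum]
  congr 1
  refine Finset.sum_congr rfl fun j _ => ?_
  rw [Matrix.transpose_sum]
  refine Finset.sum_congr rfl fun a _ => ?_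
  rw [Matrix.transpose_smul, Matrix.transpose_mul, site_transpose, site_transpose, Lm_transpose,
    site_neg, site_neg, neg_mul_neg, site_comm (finRotate_ne hn j)]

theorem Hr_isHermitian (n : ℕ) (hn : 2 ≤ n) (h : Fin 4) : (Hr n h).IsHermitian := by
  have := Hr_isSymm n hn h
  unfold Matrix.IsHermitian
  rw [Matrix.conjTranspose_eq_transpose_of_trivial]
  exact this

theorem Hs_isSymm (n : ℕ) (hn : 2 ≤ n) (tw : Bool) : (Hs n tw).IsSymm := by
  have hZ : Zmᵀ = Zm := by ext i j; fin_cases i <;> fin_cases j <;> simp [Zm]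
  have hU : Upᵀ = Dn := by ext i j; fin_cases i <;> fin_cases j <;> simp [Up, Dn]
  have hD : Dnᵀ = Up := by ext i j; fin_cases i <;> fin_cases j <;> simp [Up, Dn]
  unfold Matrix.IsSymm Hs
  rw [Matrix.transpose_sum]
  refine Finset.sum_congr rfl fun j _ => ?_
  have hj := finRotate_ne hn j
  simp only [Matrix.transpose_add, Matrix.transpose_smul, Matrix.transpose_mul, site_transpose, hZ, hU, hD]
  rw [← site_comm hj, ← site_comm hj, ← site_comm hj, add_comm (site j Dn * _)]

end Vale.Agent.P348
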