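import Vale.Agent.P348.TDefs
import Vale.Agent.P348.Tens

/-! First order expansion of the Trotter step. -/

namespace Vale.Agent.P348

open Matrix Filter Topology

/-- the term of the bond labels `a` at `d = 1` -/
noncomputable def Expand_term (n : ℕ) (h : Fin 4) (a : Fin n → Fin 4) : Matrix (Cfg n) (Cfg n) ℝ :=
  (∏ j : Fin n, if j.val + 1 = n then chi (a j) h else 1) •
    tens fun j => Fm 1 (a ((finRotate n).symm j)) (a j)

/-- the number of nontrivial labels -/
def Expand_N {n : ℕ} (a : Fin n → Fin 4) : ℕ := (Finset.univ.filter fun j => a j ≠ 0).card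

theorem Expand_Om (d : ℝ) (a : Fin 4) : Om d a = (if a = 0 then 1 else d) • Om 1 a := by
  induction a using Fin.cases with
  | zero => simp [Om]
  | succ b => simp [Om, Fin.succ_ne_zero]

theorem Expand_Fm (d : ℝ) (a b : Fin 4) :
    Fm d a b = ((if a = 0 then 1 else d) * if b = 0 then 1 else d) • Fm 1 a b := by
  rw [Fm, Fm, Expand_Om d a, Expand_Om d b]
  simp only [Matrix.smul_mul, Matrix.mul_smul, smul_smul, smul_add]
  congr 2 <;> ring

theorem Expand_tens_smul {n : ℕ} (c : Fin n → ℝ) (B : Fin n → Matrix (Fin 3) (Fin 3) ℝ) :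
    tens (fun j => c j • B j) = (∏ j, c j) • tens B := by
  ext s t
  simp [tens, Finset.prod_mul_distrib]

theorem Expand_Gstep {e : ℝ} (he : 0 ≤ e) (n : ℕ) (h : Fin 4) :
    Gstep (Real.sqrt e) n h = ∑ a, e ^ Expand_N a • Expand_term n h a := by
  refine Finset.sum_congr rfl fun a _ => ?_
  simp only [Expand_Fm (Real.sqrt e)]
  rw [Expand_tens_smul, Expand_term, smul_comm]
  congr 1
  rw [Finset.prod_mul_distrib,
    Equiv.prod_comp (finRotate n).symm fun j => if a j = 0 then (1 : ℝ) else Real.sqrt e,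
    ← Finset.prod_mul_distrib, Expand_N, ← Finset.prod_const, Finset.prod_filter]
  refine Finset.prod_congr rfl fun j _ => ?_
  by_cases hj : a j = 0
  · simp [hj]
  · simp [hj, Real.mul_self_sqrt he]

theorem Expand_Fm_zero_left (b : Fin 4) : Fm 1 0 b = Om 1 b := by
  have h : Om 1 0 = 1 := rfl
  rw [Fm, h, Matrix.one_mul, Matrix.mul_one, ← two_smul ℝ, smul_smul]
  norm_num

theorem Expand_Fm_zero_right (b : Fin 4) : Fm 1 b 0 = Om 1 b := by
  have h : Om 1 0 = 1 := rfl
  rw [Fm, h, Matrix.one_mul, Matrix.mul_one, ← two_smul ℝ, smul_smul]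
  norm_num

theorem Expand_zero (n : ℕ) (h : Fin 4) :
    (∑ a, if Expand_N a = 0 then Expand_term n h a else 0) = 1 := by
  rw [Finset.sum_eq_single (fun _ => 0), if_pos (by simp [Expand_N])]
  · have h0 : Om 1 0 = 1 := rfl
    simp [Expand_term, Expand_Fm_zero_left, h0, tens_one, chi]
  · intro a _ ha
    refine if_neg fun h => ha ?_
    funext j
    simpa using Finset.filter_eq_empty_iff.1 (Finset.card_eq_zero.1 h) (Finset.mem_univ j)
  · simp

theorem Expand_single {n : ℕ} (hn : 2 ≤ n) (h : Fin 4) (j : Fin n) (b : Fin 3) :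
    Expand_term n h (Pi.single j b.succ) =
      bsg h j b • (site j (Lm b) * site (finRotate n j) (Lm b)) := by
  rw [Expand_term, site_mul_site (finRotate_ne hn j)]
  have h0 : Om 1 0 = 1 := rfl
  have h1 : Om 1 b.succ = Lm b := by simp [Om]
  congr 1
  · rw [Finset.prod_eq_single j]
    · simp [bsg, sg]
    · intro i _ hi
      simp [Pi.single_eq_of_ne hi, chi]
    · simp
  · congr 1
    funext i
    by_cases hi : i = j
    · subst hi
      have h2 : (finRotate n).symm i ≠ i := fun h' =>
        finRotate_ne hn i ((Equiv.symm_apply_eq _).1 h')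
      rw [if_pos rfl, Pi.single_eq_of_ne h2, Pi.single_eq_same, Expand_Fm_zero_left, h1]
    · rw [if_neg hi, Pi.single_eq_of_ne hi, Expand_Fm_zero_right]
      by_cases hk : i = finRotate n j
      · rw [if_pos hk, hk, Equiv.symm_apply_apply, Pi.single_eq_same, h1]
      · rw [if_neg hk, Pi.single_eq_of_ne fun h' => hk ((Equiv.symm_apply_eq _).1 h'), h0]

theorem Expand_one {n : ℕ} (hn : 2 ≤ n) (h : Fin 4) :
    (∑ a, if Expand_N a = 1 then Expand_term n h a else 0) = -Hr n h := by
  rw [Hr, neg_neg, ← Fintype.sum_prod_type']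
  symm
  refine Fintype.sum_of_injective (fun p : Fin n × Fin 3 => (Pi.single p.1 p.2.succ : Fin n → Fin 4))
    ?_ _ _ (fun a ha => ?_) fun p => ?_
  · rintro ⟨j, b⟩ ⟨j', b'⟩ hp
    have h1 := congrFun hp j
    simp only [Pi.single_eq_same] at h1
    by_cases hj : j = j'
    · subst hj
      rw [Pi.single_eq_same] at h1
      rw [Fin.succ_injective _ h1]
    · rw [Pi.single_eq_of_ne hj] at h1
      exact absurd h1 (Fin.succ_ne_zero b)
  · refine if_neg fun hN => ha ?_
    obtain ⟨j, hj⟩ := Finset.card_eq_one.1 hN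
    have h1 : ∀ i, a i ≠ 0 ↔ i = j := fun i => by
      simpa using Finset.ext_iff.1 hj i
    obtain ⟨b, hb⟩ := Fin.exists_succ_eq.2 ((h1 j).2 rfl)
    refine ⟨(j, b), funext fun i => ?_⟩
    by_cases hi : i = j
    · subst hi
      simp [hb]
    · simp only [Pi.single_eq_of_ne hi]
      by_contra h2
      exact hi ((h1 i).1 (Ne.symm h2))
  · rw [if_pos, Expand_single hn]
    refine Finset.card_eq_one.2 ⟨p.1, Finset.ext fun i => ?_⟩
    by_cases hi : i = p.1
    · subst hi
      simp [Fin.succ_ne_zero]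
    · simp [hi]

theorem Gstep_expand (n : ℕ) (hn : 2 ≤ n) (h : Fin 4) : ∃ C : ℝ, ∀ e : ℝ, 0 ≤ e → e ≤ 1 → ∀ s t,
    |(Gstep (Real.sqrt e) n h - (1 + e • (-Hr n h))) s t| ≤ C * e ^ 2 := by
  refine ⟨∑ s, ∑ t, ∑ a, |Expand_term n h a s t|, fun e he he1 s t => ?_⟩
  rw [Expand_Gstep he, ← Expand_one hn, ← Expand_zero n h, Finset.smul_sum,
    ← Finset.sum_add_distrib, ← Finset.sum_sub_distrib, Matrix.sum_apply]
  refine (Finset.abs_sum_le_sum_abs _ _).trans ?_
  calc _ ≤ ∑ a, |Expand_term n h a s t| * e ^ 2 := by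
        refine Finset.sum_le_sum fun a _ => ?_
        by_cases h0 : Expand_N a = 0
        · simp [h0]
          positivity
        · by_cases h1 : Expand_N a = 1
          · simp [h1]
            positivity
          · simp only [h0, h1, if_false, smul_zero, add_zero, sub_zero, Matrix.smul_apply,
              smul_eq_mul, abs_mul, abs_of_nonneg (pow_nonneg he _)]
            rw [mul_comm]
            exact mul_le_mul_of_nonneg_left (pow_le_pow_of_le_one he he1 (by omega)) (abs_nonneg _)
    _ ≤ _ := by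
        rw [← Finset.sum_mul]
        refine mul_le_mul_of_nonneg_right ?_ (by positivity)
        refine le_trans ?_ (Finset.single_le_sum (f := fun s => ∑ t, ∑ a, |Expand_term n h a s t|)
          (fun _ _ => by positivity) (Finset.mem_univ s))
        exact Finset.single_le_sum (f := fun t => ∑ a, |Expand_term n h a s t|)
          (fun _ _ => by positivity) (Finset.mem_univ t)

end Vale.Agent.P348
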