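import Vale.Agent.P348.PSBasic

/-! The sector lemma and the filter lemma for power sums. -/

namespace Vale.Agent.P348

open Matrix Filter Topology

theorem PS.sector {F0 F1 : ℕ → ℝ} (h0 : PS F0) (h1 : PS F1) {lam c : ℝ} (hlam : 0 < lam) (hc : 0 < c)
    (hgrow : ∀ k, 4 ≤ k → Even k → c * lam ^ k ≤ F0 k + 3 * F1 k) {N : ℕ} (hN : 4 ≤ N) (he : Even N)
    {A U W : ℝ} (hA : F0 N ≤ A * lam ^ N) (hU : F0 N + 3 * F1 N ≤ U * lam ^ N) (hU3 : U < 3)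
    {m : ℕ} (hm : 1 ≤ m)
    (hW : ∀ a b : ℝ, 0 ≤ a → 0 ≤ b → a ≤ A - 1 → a + 3 * b ≤ U - 1 → a ^ m + 3 * b ^ m ≤ W) :
    (F0 (m * N) + 3 * F1 (m * N)) ^ 2 ≤ (1 + W) ^ 2 * (F0 (2 * (m * N)) + 3 * F1 (2 * (m * N))) := by
  have hmN : 4 ≤ m * N := by nlinarith
  have n0 := h0.nonneg hN he
  have n1 := h1.nonneg hN he
  have n2 := h0.nonneg hmN (he.mul_left m)
  have n3 := h1.nonneg hmN (he.mul_left m)
  have n4 := h1.nonneg (k := 2 * (m * N)) (by omega) (even_two_mul _)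
  have b1 := h1.mul_le_pow hN he hm
  obtain ⟨x, x1, x2⟩ := h0
  obtain ⟨y, y1, y2⟩ := h1
  have hl : 0 < lam ^ N := by positivity
  have a1 : lam ≤ max |x 0| |y 0| := PSBasic_grow (B := F0 4 + 3 * F1 4)
    ((abs_nonneg _).trans (le_max_left _ _)) hlam hc fun i => by
      have c1 := PSBasic_le (fun j => (x1 0 j (Nat.zero_le _)).trans (le_max_left _ |y 0|))
        (by decide : Even 4) (x2 4 (by omega)) (x2 (2 * i + 4) (by omega))
      have c2 := PSBasic_le (fun j => (y1 0 j (Nat.zero_le _)).trans (le_max_right |x 0| _))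
        (by decide : Even 4) (y2 4 (by omega)) (y2 (2 * i + 4) (by omega))
      linarith [hgrow (2 * i + 4) (by omega) ⟨i + 2, by ring⟩]
  have a2 : lam ≤ |x 0| := (le_max_iff.1 a1).resolve_right fun h => by
    have := (pow_le_pow_left₀ hlam.le h N).trans (PSBasic_top he (y2 N (by omega)))
    nlinarith
  have a3 : lam ^ N ≤ x 0 ^ N := (pow_le_pow_left₀ hlam.le a2 N).trans_eq (he.pow_abs _)
  have a4 : x 0 ^ N ≤ F0 N := (he.pow_abs _).ge.trans (PSBasic_top he (x2 N (by omega)))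
  have a5 : 0 < x 0 ^ N := hl.trans_le a3
  have hA0 : 0 ≤ A := (mul_pos_iff_of_pos_right hl).1 (by linarith) |>.le
  have hU0 : 0 ≤ U := (mul_pos_iff_of_pos_right hl).1 (by linarith) |>.le
  have a6 := hW ((F0 N - x 0 ^ N) / x 0 ^ N) (F1 N / x 0 ^ N) (div_nonneg (by linarith) a5.le)
    (div_nonneg n1 a5.le)
    (by rw [div_le_iff₀ a5]; linarith [mul_le_mul_of_nonneg_left a3 hA0])
    (by rw [← mul_div_assoc, ← add_div, div_le_iff₀ a5]
        linarith [mul_le_mul_of_nonneg_left a3 hU0])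
  rw [div_pow, div_pow, ← mul_div_assoc, ← add_div, div_le_iff₀ (by positivity)] at a6
  have a7 := PSBasic_pow_le (fun _ => he.pow_nonneg _) hm (PSBasic_tail (x2 N (by omega)))
    (by simpa only [← pow_mul, mul_comm N] using PSBasic_tail (x2 (m * N) (by omega)))
  have a8 := PSBasic_top (even_two_mul _) (x2 (2 * (m * N)) (by omega))
  rw [(even_two_mul _).pow_abs, pow_mul', pow_mul'] at a8
  rw [pow_mul'] at a7
  calc _ ≤ ((1 + W) * (x 0 ^ N) ^ m) ^ 2 := pow_le_pow_left₀ (by linarith) (by linarith) 2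
    _ = (1 + W) ^ 2 * ((x 0 ^ N) ^ m) ^ 2 := mul_pow _ _ _
    _ ≤ _ := mul_le_mul_of_nonneg_left (by linarith) (sq_nonneg _)

/-- the filter polynomial -/
def Qf (n1 n2 n3 eps x : ℝ) : ℝ := x ^ 4 * (((x - n1) * (x - n2) * (x - n3)) ^ 2 + eps * x ^ 6)

theorem PS.filter {F : ℕ → ℝ} (hF : PS F) {n1 n2 n3 eps b lam M : ℝ} (heps : 0 ≤ eps)
    (hlam : 0 ≤ lam) {N : ℕ} (hN : 4 ≤ N)
    (hM : (n1*n2*n3)^2 * F 4 - 2*(n1*n2*n3)*(n1*n2+n1*n3+n2*n3) * F 5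
        + ((n1*n2+n1*n3+n2*n3)^2 + 2*(n1+n2+n3)*(n1*n2*n3)) * F 6
        - (2*(n1*n2*n3) + 2*(n1+n2+n3)*(n1*n2+n1*n3+n2*n3)) * F 7
        + ((n1+n2+n3)^2 + 2*(n1*n2+n1*n3+n2*n3)) * F 8 - 2*(n1+n2+n3) * F 9 + (1+eps) * F 10 ≤ M)
    (hb : ∀ x, b < |x| → M < Qf n1 n2 n3 eps x)
    (hl : ∀ x, |x| ≤ b → x ^ N ≤ lam * Qf n1 n2 n3 eps x) :
    F N ≤ lam * M := by
  obtain ⟨x, -, h2⟩ := hF
  have s := (((((((h2 4 (by omega)).mul_left ((n1*n2*n3)^2)).sub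
    ((h2 5 (by omega)).mul_left (2*(n1*n2*n3)*(n1*n2+n1*n3+n2*n3)))).add
    ((h2 6 (by omega)).mul_left ((n1*n2+n1*n3+n2*n3)^2 + 2*(n1+n2+n3)*(n1*n2*n3)))).sub
    ((h2 7 (by omega)).mul_left (2*(n1*n2*n3) + 2*(n1+n2+n3)*(n1*n2+n1*n3+n2*n3)))).add
    ((h2 8 (by omega)).mul_left ((n1+n2+n3)^2 + 2*(n1*n2+n1*n3+n2*n3)))).sub
    ((h2 9 (by omega)).mul_left (2*(n1+n2+n3)))).add ((h2 10 (by omega)).mul_left (1+eps))
  have cg : ∀ {f g : ℕ → ℝ} {a : ℝ}, HasSum f a → (∀ j, g j = f j) → HasSum g a :=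
    fun h e => (funext e).symm ▸ h
  replace s := cg (g := fun j => Qf n1 n2 n3 eps (x j)) s fun j => by unfold Qf; ring
  have a1 : ∀ j, |x j| ≤ b := fun j => not_lt.1 fun h => absurd
    ((le_hasSum s j fun i _ => by unfold Qf; positivity).trans hM) (not_le.2 (hb _ h))
  exact (hasSum_le (fun j => hl _ (a1 j)) (h2 N (by omega)) (s.mul_left lam)).trans
    (mul_le_mul_of_nonneg_left hM hlam)

end Vale.Agent.P348
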