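import Vale.Agent.P348.TDefs
import Vale.Agent.P348.Tens

/-! The Trotter approximation as a trace of the spatial transfer matrix. -/

namespace Vale.Agent.P348

open Matrix Filter Topology Finset

theorem Transfer_sum_pow {A κ : Type} [Semiring A] [Fintype κ] (f : κ → A) : ∀ M : ℕ,
    (∑ a, f a) ^ M = ∑ B : Fin M → κ, (List.ofFn fun t => f (B t)).prod
  | 0 => by simp
  | M + 1 => by
    rw [pow_succ', Transfer_sum_pow f M, sum_mul_sum, ← (Fin.consEquiv fun _ => κ).sum_comp,
      Fintype.sum_prod_type]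
    simp [Fin.consEquiv, List.ofFn_succ]

theorem Transfer_prod_tens {n : ℕ} : ∀ {M : ℕ} (c : Fin M → ℝ)
    (B : Fin M → Fin n → Matrix (Fin 3) (Fin 3) ℝ), (List.ofFn fun t => c t • tens (B t)).prod =
      (∏ t, c t) • tens fun j => (List.ofFn fun t => B t j).prod
  | 0, c, B => by simp [tens_one]
  | M + 1, c, B => by
    simp only [List.ofFn_succ, List.prod_cons, Fin.prod_univ_succ]
    rw [Transfer_prod_tens, smul_mul_smul_comm, tens_mul]

theorem Transfer_path {ι : Type} [Fintype ι] [DecidableEq ι] (X : Matrix ι ι ℝ) (F : ι → ℝ) :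
    ∀ (m : ℕ) (b : ι), ∑ c, (X ^ (m + 1)) b c * F c = ∑ p : Fin (m + 1) → ι,
      X b (p 0) * (∏ j : Fin m, X (p j.castSucc) (p j.succ)) * F (p (Fin.last m))
  | 0, b => by
    rw [← (Equiv.funUnique (Fin 1) ι).symm.sum_comp]; simp
  | m + 1, b => by
    rw [pow_succ', ← (Fin.consEquiv fun _ => ι).sum_comp, Fintype.sum_prod_type]
    simp only [mul_apply, sum_mul, mul_assoc]
    rw [sum_comm]
    refine sum_congr rfl fun e _ => ?_
    rw [← mul_sum, Transfer_path X F m e, mul_sum]
    refine sum_congr rfl fun p _ => ?_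
    simp only [Fin.consEquiv, Equiv.coe_fn_mk, Fin.cons_zero, Fin.prod_univ_succ, Fin.castSucc_zero,
      Fin.cons_succ, ← Fin.succ_castSucc, ← Fin.succ_last, mul_assoc]

theorem Transfer_cyc {ι : Type} [Fintype ι] [DecidableEq ι] (X : Matrix ι ι ℝ) (r : ι → ℝ) (m : ℕ) :
    trace (X ^ (m + 1) * diagonal r) = ∑ p : Fin (m + 1) → ι,
      r (p (Fin.last m)) * ∏ j, X (p ((finRotate (m + 1)).symm j)) (p j) := by
  have e : ∀ b, (X ^ (m + 1) * diagonal r) b b =
      ∑ c, (X ^ (m + 1)) b c * if c = b then r b else 0 := fun b => by simp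
  have e0 : (finRotate (m + 1)).symm 0 = Fin.last m := by
    rw [Equiv.symm_apply_eq, finRotate_last]
  have e1 : ∀ j : Fin m, (finRotate (m + 1)).symm j.succ = j.castSucc := fun j => by
    rw [Equiv.symm_apply_eq, finRotate_apply, Fin.coeSucc_eq_succ]
  simp only [trace, Matrix.diag, e, Transfer_path]
  rw [sum_comm]
  refine sum_congr rfl fun p _ => ?_
  simp only [mul_ite, mul_zero, sum_ite_eq, mem_univ, if_true, Fin.prod_univ_succ, e0, e1]
  ring

theorem Transfer_Gr (n : ℕ) (g : Fin 4) : Gr n g = tens fun _ => diagonal (sg g) := by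
  ext s t
  simp only [Gr, tens, of_apply, diagonal_apply]
  split_ifs with h
  · simp [h]
  · obtain ⟨j, hj⟩ := Function.ne_iff.1 h
    exact (prod_eq_zero (mem_univ j) (if_neg hj)).symm

theorem transfer (d : ℝ) (n M : ℕ) (hn : 1 ≤ n) (g h : Fin 4) :
    trace (Gr n g * Gstep d n h ^ M) = trace (Xm d M g ^ n * Rm M h) := by
  obtain ⟨m, rfl⟩ := Nat.exists_eq_add_of_le' hn
  rw [Rm, Transfer_cyc, Gstep, Transfer_sum_pow, Finset.mul_sum, trace_sum,
    ← (Equiv.piComm fun _ _ => Fin 4).sum_comp]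
  refine sum_congr rfl fun p _ => ?_
  rw [Transfer_prod_tens, Transfer_Gr, mul_smul_comm, tens_mul, trace_smul, trace_tens, smul_eq_mul]
  congr 1
  refine prod_congr rfl fun t _ => ?_
  rw [prod_eq_single (Fin.last m) (fun j _ hj => if_neg fun e => hj (Fin.ext (by simpa using e)))
    (by simp), if_pos (by simp)]
  rfl

end Vale.Agent.P348
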