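import Vale.Agent.P348.TDefs
import Vale.Agent.P348.Tens

/-! Symmetries of the spatial transfer matrix. -/

namespace Vale.Agent.P348

open Matrix Filter Topology Finset

theorem Xm_symm (d : ℝ) (M : ℕ) (g : Fin 4) : (Xm d M g).IsSymm := by
  ext a b
  simp only [Xm, transpose_apply, of_apply, Fm, add_comm]

theorem XmSym_chi_sq (a h : Fin 4) : chi a h * chi a h = 1 := by
  unfold chi; split_ifs <;> norm_num

theorem XmSym_DD (h : Fin 4) : diagonal (sg h) * diagonal (sg h) = 1 := by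
  simp only [diagonal_mul_diagonal, sg, XmSym_chi_sq, diagonal_one]

theorem XmSym_Om (d : ℝ) (a h : Fin 4) :
    diagonal (sg h) * Om d a = chi a h • (Om d a * diagonal (sg h)) := by
  refine Fin.cases ?_ (fun b => ?_) a
  · simp [Om, chi]
  · ext i j
    simp only [Om, Fin.cases_succ, diagonal_mul, mul_diagonal, Matrix.smul_apply, smul_eq_mul, sg]
    fin_cases h <;> fin_cases b <;> fin_cases i <;> fin_cases j <;> simp [Lm, chi]

theorem XmSym_Fm (d : ℝ) (a b h : Fin 4) :
    diagonal (sg h) * Fm d a b = (chi a h * chi b h) • (Fm d a b * diagonal (sg h)) := by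
  have e : ∀ a b, diagonal (sg h) * (Om d a * Om d b) =
      (chi a h * chi b h) • (Om d a * Om d b * diagonal (sg h)) := fun a b => by
    rw [← mul_assoc, XmSym_Om, smul_mul_assoc, mul_assoc, XmSym_Om, mul_smul_comm, smul_smul,
      mul_assoc]
  rw [Fm, mul_smul_comm, mul_add, e, e, mul_comm (chi b h), ← smul_add, smul_comm, smul_mul_assoc,
    add_mul]

theorem XmSym_prod (d : ℝ) (h : Fin 4) : ∀ {M : ℕ} (a b : Fin M → Fin 4),
    diagonal (sg h) * (List.ofFn fun t => Fm d (a t) (b t)).prod =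
      (∏ t, chi (a t) h * chi (b t) h) •
        ((List.ofFn fun t => Fm d (a t) (b t)).prod * diagonal (sg h))
  | 0, a, b => by simp
  | M + 1, a, b => by
    simp only [List.ofFn_succ, List.prod_cons, Fin.prod_univ_succ]
    rw [← mul_assoc, XmSym_Fm, smul_mul_assoc, mul_assoc, XmSym_prod, mul_smul_comm, smul_smul,
      mul_assoc (Fm _ _ _)]

theorem Xm_comm (d : ℝ) (M : ℕ) (g h : Fin 4) : Xm d M g * Rm M h = Rm M h * Xm d M g := by
  ext a b
  have e : Xm d M g a b = (∏ t, chi (a t) h * chi (b t) h) * Xm d M g a b := by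
    simp only [Xm, of_apply]
    conv_lhs => rw [← mul_one (diagonal (sg g)), ← XmSym_DD h, mul_assoc, mul_assoc, XmSym_prod]
    rw [mul_smul_comm, mul_smul_comm, trace_smul, smul_eq_mul, ← mul_assoc, ← mul_assoc,
      trace_mul_comm, ← mul_assoc, ← mul_assoc, diagonal_mul_diagonal, diagonal_mul_diagonal]
    congr 4
    funext i
    rw [mul_right_comm, sg, XmSym_chi_sq, one_mul]
  have e' : (∏ t, chi (b t) h) * ∏ t, chi (b t) h = 1 := by
    simp only [← prod_mul_distrib, XmSym_chi_sq, prod_const_one]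
  rw [prod_mul_distrib] at e
  rw [Rm, mul_diagonal, diagonal_mul]
  linear_combination (∏ t, chi (b t) h) * e + (∏ t, chi (a t) h) * Xm d M g a b * e'

theorem XmSym_char : ∀ {M : ℕ} (a : Fin M → Fin 4), ∃ c, ∀ h, ∏ t, chi (a t) h = chi c h
  | 0, a => ⟨0, fun h => by simp [chi]⟩
  | M + 1, a => by
    obtain ⟨c, hc⟩ := XmSym_char fun t => a t.succ
    simp only [Fin.prod_univ_succ, hc]
    refine ⟨![![0, 1, 2, 3], ![1, 0, 3, 2], ![2, 3, 0, 1], ![3, 2, 1, 0]] (a 0) c, fun h => ?_⟩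
    generalize a 0 = b
    fin_cases b <;> fin_cases c <;> fin_cases h <;> simp [chi]

theorem XmSym_orth (c c' : Fin 4) :
    (1 / 4 : ℝ) * ∑ h, chi c h * chi c' h = if c = c' then 1 else 0 := by
  fin_cases c <;> fin_cases c' <;> simp [chi, Fin.sum_univ_four] <;> norm_num

theorem sector_trace (d : ℝ) (M : ℕ) (g c : Fin 4) :
    ∃ P : Matrix (Fin M → Fin 4) (Fin M → Fin 4) ℝ, P.IsSymm ∧ ∀ n, 1 ≤ n →
      trace (P ^ n) = (1 / 4) * ∑ h, chi c h * trace (Xm d M g ^ n * Rm M h) := by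
  set E : Matrix (Fin M → Fin 4) (Fin M → Fin 4) ℝ := (1 / 4 : ℝ) • ∑ h, chi c h • Rm M h with hE
  have e1 : E = diagonal fun a => (1 / 4 : ℝ) * ∑ h, chi c h * ∏ t, chi (a t) h := by
    ext a b
    simp only [hE, Rm, Matrix.smul_apply, Matrix.sum_apply, diagonal_apply, smul_eq_mul]
    split_ifs <;> simp
  have e2 : E * E = E := by
    rw [e1, diagonal_mul_diagonal]
    congr 1
    funext a
    obtain ⟨c', hc⟩ := XmSym_char a
    simp only [hc, XmSym_orth]
    split_ifs <;> simp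
  have e3 : Commute (Xm d M g) E := by
    rw [hE]
    exact (Commute.sum_right _ _ _ fun h _ => Commute.smul_right (Xm_comm d M g h) _).smul_right _
  refine ⟨Xm d M g * E, ?_, fun n hn => ?_⟩
  · rw [IsSymm, transpose_mul, Xm_symm, e3.eq, e1, diagonal_transpose]
  · obtain ⟨m, rfl⟩ := Nat.exists_eq_add_of_le' hn
    rw [e3.mul_pow, IsIdempotentElem.pow_succ_eq m e2, hE]
    simp only [mul_smul_comm, Finset.mul_sum, trace_smul, trace_sum, smul_eq_mul]

theorem Rm_zero (M : ℕ) : Rm M 0 = 1 := by simp [Rm, chi]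

end Vale.Agent.P348
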