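import Vale.Agent.P348.PSLimit
import Vale.Agent.P348.Trotter
import Vale.Agent.P348.Transfer
import Vale.Agent.P348.XmSym
import Vale.Agent.P348.Expand

/-! The partition functions are power sums in the length of the chain. -/

namespace Vale.Agent.P348

open Matrix Filter Topology

theorem PSSpace_lim (β : ℝ) (hβ : 0 ≤ β) (n : ℕ) (hn : 2 ≤ n) (g h : Fin 4) :
    Tendsto (fun M : ℕ => trace (Xm (Real.sqrt (β / M)) M g ^ n * Rm M h)) atTop
      (𝓝 (Zf β n g h)) := by
  obtain ⟨C, hC⟩ := Gstep_expand n hn h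
  have h1 : Tendsto (fun M : ℕ => Gstep (Real.sqrt (β / M)) n h ^ M) atTop
      (𝓝 (NormedSpace.exp (-β • Hr n h))) := by
    refine trotter_limit (-β • Hr n h) (fun M : ℕ => Gstep (Real.sqrt (β / M)) n h) (C * β ^ 2) ?_
    have h2 : ∀ᶠ M : ℕ in atTop, β ≤ (M : ℝ) := tendsto_natCast_atTop_atTop.eventually_ge_atTop β
    filter_upwards [h2] with M hM i j
    have h3 : 0 ≤ β / (M : ℝ) := div_nonneg hβ (Nat.cast_nonneg _)
    have h4 : β / (M : ℝ) ≤ 1 := div_le_one_of_le₀ hM (Nat.cast_nonneg _)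
    have h5 : ((M : ℝ)⁻¹) • (-β • Hr n h) = (β / (M : ℝ)) • (-Hr n h) := by
      rw [smul_smul, smul_neg, ← neg_smul, div_eq_inv_mul, mul_neg]
    have h6 := hC _ h3 h4 i j
    rw [h5, mul_div_assoc, ← div_pow]
    exact h6
  have h7 : Continuous fun B : Matrix (Cfg n) (Cfg n) ℝ => trace (Gr n g * B) :=
    (continuous_const.matrix_mul continuous_id).matrix_trace
  refine ((h7.tendsto _).comp h1).congr fun M => ?_
  exact transfer _ n M (by omega) g h

theorem ps_space (β : ℝ) (hβ : 0 ≤ β) (g c : Fin 4) : PS (fun n => Ysec β n g c) := by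
  refine ps_of_limit (fun M n => (1 / 4) * ∑ h, chi c h *
    trace (Xm (Real.sqrt (β / M)) M g ^ n * Rm M h)) _ (fun M => ?_) fun n hn => ?_
  · obtain ⟨P, hP, hP'⟩ := sector_trace (Real.sqrt (β / M)) M g c
    obtain ⟨k, x, hx⟩ := trace_pow_symm P hP
    exact ⟨k, x, fun n hn => (hP' n (by omega)).symm.trans (hx n (by omega))⟩
  · exact (tendsto_finsetSum _ fun h _ => (PSSpace_lim β hβ n hn g h).const_mul _).const_mul _

theorem ps_space_tot (β : ℝ) (hβ : 0 ≤ β) (g : Fin 4) : PS (fun n => Zf β n g 0) := by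
  refine ps_of_limit (fun M n => trace (Xm (Real.sqrt (β / M)) M g ^ n * Rm M 0)) _
    (fun M => ?_) fun n hn => PSSpace_lim β hβ n hn g 0
  obtain ⟨k, x, hx⟩ := trace_pow_symm _ (Xm_symm (Real.sqrt (β / M)) M g)
  exact ⟨k, x, fun n hn => by rw [Rm_zero, mul_one]; exact hx n (by omega)⟩

end Vale.Agent.P348
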