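import Vale.Agent.P348.Defs

namespace Vale.Agent.P348

open Matrix Filter Topology

theorem pslimit_sort {k : ℕ} (x : Fin k → ℝ) :
    ∃ y : ℕ → ℝ, (∀ i j, i ≤ j → |y j| ≤ |y i|) ∧
      ∀ n, 1 ≤ n → HasSum (fun j => y j ^ n) (∑ j, x j ^ n) := by
  let σ := Tuple.sort fun j => -|x j|
  have hσ : Monotone ((fun j => -|x j|) ∘ σ) := Tuple.monotone_sort _
  refine ⟨fun j => if h : j < k then x (σ ⟨j, h⟩) else 0, fun i j hij => ?_, fun n hn => ?_⟩
  · by_cases hj : j < k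
    · have hi : i < k := lt_of_le_of_lt hij hj
      simp only [dif_pos hj, dif_pos hi]
      have := hσ (show (⟨i, hi⟩ : Fin k) ≤ ⟨j, hj⟩ from hij)
      simpa using this
    · simp only [dif_neg hj, abs_zero]
      exact abs_nonneg _
  · have h1 : ∑ j, x j ^ n = ∑ j ∈ Finset.range k, (if h : j < k then x (σ ⟨j, h⟩) else 0) ^ n := by
      rw [Finset.sum_range, ← Equiv.sum_comp σ]
      exact Finset.sum_congr rfl fun j _ => by simp
    rw [h1]
    refine hasSum_sum_of_ne_finset_zero fun j hj => ?_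
    rw [Finset.mem_range] at hj
    simp only [dif_neg hj]
    exact zero_pow (by omega)

theorem pslimit_bound {y : ℕ → ℝ} (hy : ∀ i j, i ≤ j → |y j| ≤ |y i|) {S : ℝ}
    (hS : HasSum (fun j => y j ^ 2) S) (j : ℕ) : ((j : ℝ) + 1) * y j ^ 2 ≤ S := by
  have h1 := sum_le_hasSum (Finset.range (j + 1)) (fun i _ => sq_nonneg (y i)) hS
  refine le_trans ?_ h1
  have h2 := Finset.card_nsmul_le_sum (Finset.range (j + 1)) (fun i => y i ^ 2) (y j ^ 2)
    fun i hi => sq_le_sq.2 (hy i j (Nat.lt_succ_iff.1 (Finset.mem_range.1 hi)))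
  simpa using h2

theorem pslimit_dom {C t : ℝ} {j n : ℕ} (h : ((j : ℝ) + 1) * t ^ 2 ≤ C) (hn : 3 ≤ n) :
    ‖t ^ n‖ ≤ √C ^ n * (((j : ℝ) + 1) ^ (3 / 2 : ℝ))⁻¹ := by
  have hj : (1 : ℝ) ≤ (j : ℝ) + 1 := by linarith [Nat.cast_nonneg (α := ℝ) j]
  have h1 : √((j : ℝ) + 1) * |t| ≤ √C := by
    rw [← Real.sqrt_sq_eq_abs, ← Real.sqrt_mul (by linarith)]
    exact Real.sqrt_le_sqrt h
  have h2 : ((j : ℝ) + 1) ^ (3 / 2 : ℝ) ≤ √((j : ℝ) + 1) ^ n := by
    refine le_trans (le_of_eq ?_) (pow_le_pow_right₀ (Real.one_le_sqrt.2 hj) hn)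
    rw [Real.sqrt_eq_rpow, ← Real.rpow_natCast, ← Real.rpow_mul (by linarith)]
    norm_num
  rw [← div_eq_mul_inv, le_div_iff₀ (Real.rpow_pos_of_pos (by linarith) _), norm_pow,
    Real.norm_eq_abs]
  calc |t| ^ n * ((j : ℝ) + 1) ^ (3 / 2 : ℝ) ≤ |t| ^ n * √((j : ℝ) + 1) ^ n :=
        mul_le_mul_of_nonneg_left h2 (by positivity)
    _ = (√((j : ℝ) + 1) * |t|) ^ n := by rw [mul_pow, mul_comm]
    _ ≤ √C ^ n := pow_le_pow_left₀ (by positivity) h1 n

theorem ps_of_limit (P : ℕ → ℕ → ℝ) (F : ℕ → ℝ)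
    (hP : ∀ M, ∃ (k : ℕ) (x : Fin k → ℝ), ∀ n, 2 ≤ n → P M n = ∑ j, x j ^ n)
    (hlim : ∀ n, 2 ≤ n → Tendsto (fun M => P M n) atTop (𝓝 (F n))) : PS F := by
  have h1 : ∀ M, ∃ y : ℕ → ℝ, (∀ i j, i ≤ j → |y j| ≤ |y i|) ∧
      ∀ n, 2 ≤ n → HasSum (fun j => y j ^ n) (P M n) := fun M => by
    obtain ⟨k, x, hx⟩ := hP M
    obtain ⟨y, hy, hs⟩ := pslimit_sort x
    exact ⟨y, hy, fun n hn => by rw [hx n hn]; exact hs n (by omega)⟩
  choose y hy hs using h1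
  obtain ⟨C, hC⟩ := (hlim 2 le_rfl).bddAbove_range
  have hb : ∀ M (j : ℕ), ((j : ℝ) + 1) * y M j ^ 2 ≤ C := fun M j =>
    (pslimit_bound (hy M) (hs M 2 le_rfl) j).trans (hC ⟨M, rfl⟩)
  have hK : IsCompact (Set.pi Set.univ fun _ : ℕ => Set.Icc (-√C) √C) :=
    isCompact_univ_pi fun _ => isCompact_Icc
  have hmem : ∀ M, y M ∈ Set.pi Set.univ fun _ : ℕ => Set.Icc (-√C) √C := fun M j _ => by
    have h2 : y M j ^ 2 ≤ C := by
      nlinarith [hb M j, Nat.cast_nonneg (α := ℝ) j, sq_nonneg (y M j)]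
    exact abs_le.1 (Real.abs_le_sqrt h2)
  obtain ⟨x, -, φ, hφ, hx⟩ := hK.tendsto_subseq hmem
  have hxj : ∀ j, Tendsto (fun M => y (φ M) j) atTop (𝓝 (x j)) := fun j =>
    tendsto_pi_nhds.1 hx j
  refine ⟨x, fun i j hij => le_of_tendsto_of_tendsto' (hxj j).abs (hxj i).abs
    fun M => hy _ i j hij, fun n hn => ?_⟩
  have hsum : Summable fun j : ℕ => √C ^ n * (((j : ℝ) + 1) ^ (3 / 2 : ℝ))⁻¹ := by
    refine Summable.mul_left _ ?_
    have := (summable_nat_add_iff 1).2 (Real.summable_nat_rpow_inv.2 (show (1 : ℝ) < 3 / 2 by norm_num))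
    simpa using this
  have hxb : ∀ j : ℕ, ((j : ℝ) + 1) * x j ^ 2 ≤ C := fun j =>
    le_of_tendsto' (((hxj j).pow 2).const_mul _) fun M => hb _ j
  have hxs : Summable fun j => x j ^ n :=
    Summable.of_norm_bounded hsum fun j => pslimit_dom (hxb j) hn
  have h3 := tendsto_tsum_of_dominated_convergence (f := fun M j => y (φ M) j ^ n)
    (g := fun j => x j ^ n) hsum (fun j => (hxj j).pow n)
    (Eventually.of_forall fun M j => pslimit_dom (hb _ j) hn)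
  have h4 : Tendsto (fun M => ∑' j, y (φ M) j ^ n) atTop (𝓝 (F n)) := by
    have := (hlim n (by omega)).comp hφ.tendsto_atTop
    refine this.congr fun M => ?_
    exact (hs _ n (by omega)).tsum_eq.symm
  rw [← tendsto_nhds_unique h3 h4]
  exact hxs.hasSum

theorem trace_pow_symm {ι : Type} [Fintype ι] [DecidableEq ι] (A : Matrix ι ι ℝ) (hA : A.IsSymm) :
    ∃ (k : ℕ) (x : Fin k → ℝ), ∀ n, 1 ≤ n → trace (A ^ n) = ∑ j, x j ^ n := by
  have hH : A.IsHermitian := by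
    rw [IsHermitian, conjTranspose_eq_transpose_of_trivial]; exact hA
  refine ⟨Fintype.card ι, fun j => hH.eigenvalues ((Fintype.equivFin ι).symm j), fun n _ => ?_⟩
  rw [Equiv.sum_comp (Fintype.equivFin ι).symm fun i => hH.eigenvalues i ^ n]
  conv_lhs => rw [hH.spectral_theorem, ← map_pow, Unitary.conjStarAlgAut_apply, trace_mul_cycle,
    Unitary.star_mul_self_of_mem (hH.eigenvectorUnitary).2, one_mul, diagonal_pow, trace_diagonal]
  simp

theorem ps_of_symm {ι : Type} [Fintype ι] [DecidableEq ι] (A : Matrix ι ι ℝ) (hA : A.IsSymm)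
    (F : ℕ → ℝ) (hF : ∀ n, 2 ≤ n → F n = trace (A ^ n)) : PS F := by
  obtain ⟨k, x, hx⟩ := trace_pow_symm A hA
  exact ps_of_limit (fun _ n => F n) F
    (fun _ => ⟨k, x, fun n hn => (hF n hn).trans (hx n (by omega))⟩) fun _ _ => tendsto_const_nhds

end Vale.Agent.P348
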