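import Vale.Agent.P348.Tens
import Vale.Agent.P348.PSLimit

/-! Power sums in the time direction and permutation covariance. -/

namespace Vale.Agent.P348

open Matrix Filter Topology

namespace TimeSym

variable {n : ℕ}

theorem site_smul (j : Fin n) (c : ℝ) (A : Matrix (Fin 3) (Fin 3) ℝ) :
    site j (c • A) = c • site j A := by
  ext s t
  simp only [site, Matrix.of_apply, Matrix.smul_apply]
  rw [← Finset.mul_prod_erase _ _ (Finset.mem_univ j),
    ← Finset.mul_prod_erase _ _ (Finset.mem_univ j)]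
  rw [Finset.prod_congr rfl (g := fun i => (if i = j then A else 1) (s i) (t i))]
  · simp [mul_assoc]
  · intro i hi
    simp [Finset.ne_of_mem_erase hi]

theorem tens_site {U A B : Matrix (Fin 3) (Fin 3) ℝ} (h : U * A = B * U) (j : Fin n) :
    tens (fun _ => U) * site j A = site j B * tens (fun _ => U) := by
  rw [site_eq_tens, site_eq_tens, tens_mul, tens_mul]
  congr 1
  funext i
  split_ifs
  · exact h
  · simp

theorem tens_bond {U A B : Matrix (Fin 3) (Fin 3) ℝ} {ε : ℝ} (hε : ε * ε = 1)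
    (h : U * A = (ε • B) * U) (j k : Fin n) :
    tens (fun _ => U) * (site j A * site k A) = site j B * site k B * tens (fun _ => U) := by
  rw [← Matrix.mul_assoc, tens_site h, Matrix.mul_assoc, tens_site h, ← Matrix.mul_assoc,
    site_smul, site_smul, Matrix.smul_mul, Matrix.mul_smul, smul_smul, hε, one_smul]

theorem tens_Hr {U : Matrix (Fin 3) (Fin 3) ℝ} (σ : Equiv.Perm (Fin 3)) (ε : Fin 3 → ℝ)
    (hε : ∀ a, ε a * ε a = 1) (hU : ∀ a, U * Lm a = (ε a • Lm (σ a)) * U) {h h' : Fin 4}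
    (hh : ∀ a, sg h' (σ a) = sg h a) :
    tens (fun _ => U) * Hr n h = Hr n h' * tens (fun _ => U) := by
  unfold Hr
  rw [Matrix.mul_neg, Matrix.neg_mul, Finset.mul_sum, Finset.sum_mul]
  congr 1
  refine Finset.sum_congr rfl fun j _ => ?_
  rw [Finset.mul_sum, Finset.sum_mul]
  conv_rhs => rw [← Equiv.sum_comp σ]
  refine Finset.sum_congr rfl fun a _ => ?_
  rw [Matrix.mul_smul, Matrix.smul_mul, tens_bond (hε a) (hU a)]
  simp only [bsg, hh]

theorem Gr_eq (g : Fin 4) : Gr n g = tens fun _ => diagonal (sg g) := by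
  ext s t
  simp only [Gr, tens, Matrix.of_apply, Matrix.diagonal_apply]
  split_ifs with h
  · simp [h]
  · obtain ⟨i, hi⟩ := Function.ne_iff.1 h
    exact (Finset.prod_eq_zero (Finset.mem_univ i) (if_neg hi)).symm

theorem sg_sq (g : Fin 4) (a : Fin 3) : sg g a * sg g a = 1 := by
  unfold sg chi
  split_ifs <;> norm_num

theorem diag_Lm (g : Fin 4) (a : Fin 3) :
    diagonal (sg g) * Lm a = (sg g a • Lm a) * diagonal (sg g) := by
  ext b c
  simp only [Matrix.diagonal_mul, Matrix.mul_diagonal, Matrix.smul_apply, smul_eq_mul]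
  fin_cases g <;> fin_cases a <;> fin_cases b <;> fin_cases c <;> simp [sg, chi, Lm]

theorem Gr_zero : Gr n 0 = 1 := by
  simp [Gr, sg, chi]

theorem ps_proj (β : ℝ) (hn : 2 ≤ n) (h : Fin 4) (E : Matrix (Cfg n) (Cfg n) ℝ) (hs : E.IsSymm)
    (hE : E * E = E) (hc : Commute E (Hr n h)) :
    PS fun k : ℕ => trace (E * NormedSpace.exp (-(k * β) • Hr n h)) := by
  have h1 : Commute E (NormedSpace.exp (-β • Hr n h)) := (hc.smul_right _).exp_right
  have h2 : (NormedSpace.exp (-β • Hr n h)).IsSymm := ((Hr_isSymm n hn h).smul _).exp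
  refine ps_of_symm (E * NormedSpace.exp (-β • Hr n h)) ?_ _ fun k hk => ?_
  · rw [Matrix.IsSymm, Matrix.transpose_mul, h2.eq, hs.eq, h1.eq]
  · obtain ⟨m, rfl⟩ : ∃ m, k = m + 1 := ⟨k - 1, by omega⟩
    rw [h1.mul_pow, IsIdempotentElem.pow_succ_eq m hE, ← Matrix.exp_nsmul, ← Nat.cast_smul_eq_nsmul ℝ,
      smul_smul, mul_neg]

theorem sg_three (a : Fin 3) : sg 3 a = sg 1 a * sg 2 a := by
  fin_cases a <;> simp [sg, chi]

theorem proj_idem (c : Fin 4) (s : Cfg n) :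
    (1 / 4 * ∑ g, chi c g * ∏ j, sg g (s j)) * (1 / 4 * ∑ g, chi c g * ∏ j, sg g (s j)) =
      1 / 4 * ∑ g, chi c g * ∏ j, sg g (s j) := by
  have h0 : ∏ j, sg 0 (s j) = 1 := by simp [sg, chi]
  have h1 : ∀ g, (∏ j, sg g (s j)) * ∏ j, sg g (s j) = 1 := fun g => by
    simp only [← Finset.prod_mul_distrib, sg_sq, Finset.prod_const_one]
  have h3 : ∏ j, sg 3 (s j) = (∏ j, sg 1 (s j)) * ∏ j, sg 2 (s j) := by
    simp only [sg_three, Finset.prod_mul_distrib]
  rw [Fin.sum_univ_four, h0, h3]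
  rcases mul_self_eq_one_iff.1 (h1 1) with h4 | h4 <;>
    rcases mul_self_eq_one_iff.1 (h1 2) with h5 | h5 <;> rw [h4, h5] <;> fin_cases c <;>
    simp [chi] <;> norm_num

/-- the integer version of the antisymmetric symbol -/
def Lz (a b c : Fin 3) : ℤ :=
  ![![![0, 0, 0], ![0, 0, 1], ![0, -1, 0]], ![![0, 0, -1], ![0, 0, 0], ![1, 0, 0]],
    ![![0, 1, 0], ![-1, 0, 0], ![0, 0, 0]]] a b c

theorem Lm_eq (a b c : Fin 3) : Lm a b c = Lz a b c := by
  fin_cases a <;> fin_cases b <;> fin_cases c <;> simp [Lm, Lz]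

theorem Lz_perm : ∀ x y z : Fin 3, x ≠ y → x ≠ z → y ≠ z → Lz x y z * Lz x y z = 1 ∧
    ∀ a b c, Lz a b c = Lz x y z * Lz (![x, y, z] a) (![x, y, z] b) (![x, y, z] c) := by
  decide

theorem Lm_perm (σ : Equiv.Perm (Fin 3)) :
    ∃ ε : ℝ, ε * ε = 1 ∧ ∀ a b c, Lm a b c = ε * Lm (σ a) (σ b) (σ c) := by
  obtain ⟨h1, h2⟩ := Lz_perm (σ 0) (σ 1) (σ 2) (by simp) (by simp) (by simp)
  have h3 : ∀ a, ![σ 0, σ 1, σ 2] a = σ a := fun a => by fin_cases a <;> rfl
  refine ⟨Lz (σ 0) (σ 1) (σ 2), by exact_mod_cast h1, fun a b c => ?_⟩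
  rw [Lm_eq, Lm_eq, h2 a b c, h3, h3, h3]
  push_cast
  rfl

/-- the permutation matrix -/
def pm (σ : Equiv.Perm (Fin 3)) : Matrix (Fin 3) (Fin 3) ℝ :=
  Matrix.of fun i j => if i = σ j then 1 else 0

theorem pm_semiconj (σ : Equiv.Perm (Fin 3)) {A B : Matrix (Fin 3) (Fin 3) ℝ}
    (h : ∀ b c, A b c = B (σ b) (σ c)) : pm σ * A = B * pm σ := by
  ext i j
  obtain ⟨i, rfl⟩ := σ.surjective i
  simp [pm, Matrix.mul_apply, h]

theorem pm_mul (σ : Equiv.Perm (Fin 3)) : pm σ * pm σ⁻¹ = 1 := by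
  ext i j
  simp [pm, Matrix.mul_apply, Matrix.one_apply]

theorem chi_perm (π : Equiv.Perm (Fin 4)) (hπ : π 0 = 0) (c g : Fin 4) :
    chi (π c) (π g) = chi c g := by
  have h : ∀ x, π x = 0 ↔ x = 0 := fun x => by
    conv_lhs => rw [← hπ]
    exact π.apply_eq_iff_eq
  simp only [chi, h, π.apply_eq_iff_eq]

end TimeSym

open TimeSym

theorem Gr_comm (n : ℕ) (g h : Fin 4) : Gr n g * Hr n h = Hr n h * Gr n g := by
  rw [Gr_eq]
  exact tens_Hr 1 (sg g) (sg_sq g) (diag_Lm g) fun _ => rfl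

theorem ps_time (β : ℝ) (n : ℕ) (hn : 2 ≤ n) (h c : Fin 4) :
    PS (fun k => Zsec (k * β) n h c) := by
  have hE : (1 / 4 : ℝ) • ∑ g, chi c g • Gr n g =
      diagonal fun s => 1 / 4 * ∑ g, chi c g * ∏ j, sg g (s j) := by
    ext s t
    simp only [Gr, Matrix.smul_apply, Matrix.sum_apply, Matrix.diagonal_apply, smul_eq_mul]
    split_ifs <;> simp
  have h1 := ps_proj β hn h ((1 / 4 : ℝ) • ∑ g, chi c g • Gr n g)
    (by rw [hE]; exact Matrix.isSymm_diagonal _)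
    (by rw [hE, Matrix.diagonal_mul_diagonal]; simp only [proj_idem])
    ((Commute.sum_left _ _ _ fun g _ => Commute.smul_left (Gr_comm n g h) _).smul_left _)
  simpa only [Zsec, Zf, Matrix.smul_mul, Finset.sum_mul, Matrix.trace_smul, Matrix.trace_sum,
    smul_eq_mul] using h1

theorem ps_time_tot (β : ℝ) (n : ℕ) (hn : 2 ≤ n) (h : Fin 4) :
    PS (fun k => Zf (k * β) n 0 h) := by
  have h1 := ps_proj β hn h 1 Matrix.isSymm_one (Matrix.mul_one _) (Commute.one_left _)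
  simpa only [Zf, Gr_zero] using h1

theorem Zf_perm (β : ℝ) (n : ℕ) (π : Equiv.Perm (Fin 4)) (hπ : π 0 = 0) (g h : Fin 4) :
    Zf β n (π g) (π h) = Zf β n g h := by
  obtain ⟨σ, hσ⟩ : ∃ σ : Equiv.Perm (Fin 3), ∀ a, π a.succ = (σ a).succ := by
    obtain ⟨⟨p, σ⟩, rfl⟩ := Equiv.Perm.decomposeFin.symm.surjective π
    rw [Equiv.Perm.decomposeFin_symm_apply_zero] at hπ
    subst hπ
    exact ⟨σ, fun a => by simp⟩
  have hsg : ∀ k a, sg (π k) (σ a) = sg k a := fun k a => by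
    rw [sg, sg, ← hσ, chi_perm π hπ]
  obtain ⟨ε, hε, hL⟩ := Lm_perm σ
  have hH := tens_Hr (n := n) σ (fun _ => ε) (fun _ => hε)
    (fun a => pm_semiconj σ fun b c => hL a b c) (hsg h)
  have hG : tens (fun _ => pm σ) * Gr n g = Gr n (π g) * tens (fun _ => pm σ) := by
    rw [Gr_eq, Gr_eq, tens_mul, tens_mul]
    congr 1
    funext _
    refine pm_semiconj σ fun b c => ?_
    simp only [Matrix.diagonal_apply, σ.apply_eq_iff_eq, hsg]
  have hT : tens (fun _ : Fin n => pm σ) * tens (fun _ => pm σ⁻¹) = 1 := by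
    rw [tens_mul]
    simp only [pm_mul, tens_one]
  have hT' := mul_eq_one_comm.1 hT
  have hinv := Matrix.inv_eq_right_inv hT
  have h1 : -β • Hr n (π h) = tens (fun _ => pm σ) * (-β • Hr n h) * (tens fun _ => pm σ)⁻¹ := by
    rw [hinv, Matrix.mul_smul, hH, Matrix.smul_mul, Matrix.mul_assoc, hT, Matrix.mul_one]
  unfold Zf
  rw [h1, Matrix.exp_conj _ _ (IsUnit.of_mul_eq_one _ hT), hinv, ← Matrix.mul_assoc,
    ← Matrix.mul_assoc, ← hG, Matrix.trace_mul_comm, ← Matrix.mul_assoc, ← Matrix.mul_assoc, hT',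
    Matrix.one_mul]

theorem Zf_eq_sum_Zsec (β : ℝ) (n : ℕ) (g h : Fin 4) :
    Zf β n g h = ∑ c, chi c g * Zsec β n h c := by
  fin_cases g <;> simp [Zsec, Fin.sum_univ_four, chi] <;> ring

theorem Zf_eq_sum_Ysec (β : ℝ) (n : ℕ) (g h : Fin 4) :
    Zf β n g h = ∑ c, chi c h * Ysec β n g c := by
  fin_cases h <;> simp [Ysec, Fin.sum_univ_four, chi] <;> ring

end Vale.Agent.P348
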