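import Vale.Agent.P348.Mom
import Vale.Agent.P348.TimeSym
import Vale.Agent.P348.PSSpace
import Vale.Agent.P348.PSSector
import Vale.Agent.P348.MpsData

/-! The two starting inequalities of the bootstrap, from bounds on the symmetry sectors. -/

namespace Vale.Agent.P348

open Matrix

section Perm
variable (β : ℝ) (n : ℕ)

theorem Zf01 : Zf β n 0 1 = Zf β n 0 3 := Zf_perm β n (Equiv.swap 1 3) (by decide) 0 3
theorem Zf02 : Zf β n 0 2 = Zf β n 0 3 := Zf_perm β n (Equiv.swap 2 3) (by decide) 0 3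
theorem Zf10 : Zf β n 1 0 = Zf β n 3 0 := Zf_perm β n (Equiv.swap 1 3) (by decide) 3 0
theorem Zf20 : Zf β n 2 0 = Zf β n 3 0 := Zf_perm β n (Equiv.swap 2 3) (by decide) 3 0
theorem Zf31 : Zf β n 3 1 = Zf β n 1 3 := Zf_perm β n (Equiv.swap 1 3) (by decide) 1 3
theorem Zf23 : Zf β n 2 3 = Zf β n 1 3 := Zf_perm β n (Equiv.swap 1 2) (by decide) 1 3
theorem Zf32 : Zf β n 3 2 = Zf β n 1 3 :=
  (Zf_perm β n (Equiv.swap 2 3) (by decide) 2 3).trans (Zf23 β n)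

theorem Ysec00 : Ysec β n 0 0 = (Zf β n 0 0 + 3 * Zf β n 0 3) / 4 := by
  simp [Ysec, Fin.sum_univ_four, chi, Zf01, Zf02]
  ring

theorem Ysec03 : Ysec β n 0 3 = (Zf β n 0 0 - Zf β n 0 3) / 4 := by
  simp [Ysec, Fin.sum_univ_four, chi, Zf01, Zf02]
  ring

theorem Ysec30 : Ysec β n 3 0 = (Zf β n 3 0 + Zf β n 3 3 + 2 * Zf β n 1 3) / 4 := by
  simp [Ysec, Fin.sum_univ_four, chi, Zf31, Zf32]
  ring

theorem Ysec33 : Ysec β n 3 3 = (Zf β n 3 0 + Zf β n 3 3 - 2 * Zf β n 1 3) / 4 := by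
  simp [Ysec, Fin.sum_univ_four, chi, Zf31, Zf32]
  ring

theorem Ysec31 : Ysec β n 3 1 = (Zf β n 3 0 - Zf β n 3 3) / 4 := by
  simp [Ysec, Fin.sum_univ_four, chi, Zf31, Zf32]
  ring

theorem Zsec00 : Zsec β n 0 0 = (Zf β n 0 0 + 3 * Zf β n 3 0) / 4 := by
  simp [Zsec, Fin.sum_univ_four, chi, Zf10, Zf20]
  ring

theorem Zsec03 : Zsec β n 0 3 = (Zf β n 0 0 - Zf β n 3 0) / 4 := by
  simp [Zsec, Fin.sum_univ_four, chi, Zf10, Zf20]
  ring

theorem Zsec30 : Zsec β n 3 0 = (Zf β n 0 3 + Zf β n 3 3 + 2 * Zf β n 1 3) / 4 := by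
  simp [Zsec, Fin.sum_univ_four, chi, Zf23]
  ring

theorem Zsec33 : Zsec β n 3 3 = (Zf β n 0 3 + Zf β n 3 3 - 2 * Zf β n 1 3) / 4 := by
  simp [Zsec, Fin.sum_univ_four, chi, Zf23]
  ring

theorem Zsec31 : Zsec β n 3 1 = (Zf β n 0 3 - Zf β n 3 3) / 4 := by
  simp [Zsec, Fin.sum_univ_four, chi, Zf23]
  ring

end Perm

theorem Zf_lower (β : ℝ) (hβ : 0 ≤ β) (N : ℕ) (hN : 4 ≤ N) (he : Even N) :
    Real.exp (β * ev) ^ N ≤ Zf β N 0 0 := by
  obtain ⟨C, hC⟩ := variational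
  refine (ps_space_tot β hβ 0).top_lower (Real.exp_pos _) (Real.exp_pos (-(β * C)))
    (fun k hk _ => ?_) hN he
  rw [trace_exp_basis, ← Real.exp_nat_mul, ← Real.exp_add]
  refine le_trans (le_of_eq ?_) (hC k (by omega) β hβ)
  congr 1
  ring

/-- the normalised sectors of the spatial transfer matrix -/
noncomputable def yn (g c : Fin 4) (n : ℕ) : ℝ := Ysec 7 n g c * Real.exp (-(7 * ev)) ^ n

theorem yn_ps (g c : Fin 4) : PS (yn g c) := (ps_space 7 (by norm_num) g c).smul_pow _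

theorem yn00 (n : ℕ) : yn 0 0 n = (zn n 0 0 + 3 * zn n 0 3) / 4 := by
  rw [yn, Ysec00, zn, zn]
  ring

theorem yn03 (n : ℕ) : yn 0 3 n = (zn n 0 0 - zn n 0 3) / 4 := by
  rw [yn, Ysec03, zn, zn]
  ring

theorem yn30 (n : ℕ) : yn 3 0 n = (zn n 3 0 + zn n 3 3 + 2 * zn n 1 3) / 4 := by
  rw [yn, Ysec30, zn, zn, zn]
  ring

theorem yn33 (n : ℕ) : yn 3 3 n = (zn n 3 0 + zn n 3 3 - 2 * zn n 1 3) / 4 := by
  rw [yn, Ysec33, zn, zn, zn]
  ring

theorem yn31 (n : ℕ) : yn 3 1 n = (zn n 3 0 - zn n 3 3) / 4 := by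
  rw [yn, Ysec31, zn, zn]
  ring

theorem Zf_zn (n : ℕ) (g h : Fin 4) : Zf 7 n g h = zn n g h * Real.exp (7 * ev) ^ n := by
  rw [zn, mul_assoc, ← mul_pow, ← Real.exp_add]
  simp

theorem init_t (a1 : yn 0 0 60 ≤ 162 / 100) (a2 : yn 0 3 60 ≤ 1 / 10000)
    (a3 : yn 3 3 60 ≤ 8953 / 10000) (a4 : yn 3 0 60 ≤ 2 / 10000) (a5 : yn 3 1 60 ≤ 1 / 10000) :
    Zf ((12 : ℕ) * (7 / 4)) 60 0 0 ^ 2 ≤ (1 + 7 / 100) * Zf ((24 : ℕ) * (7 / 4)) 60 0 0 := by
  rw [yn00] at a1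
  rw [yn03] at a2
  rw [yn33] at a3
  rw [yn30] at a4
  rw [yn31] at a5
  have hs : ∀ β : ℝ, Zsec β 60 0 0 + 3 * Zsec β 60 0 3 = Zf β 60 0 0 := fun β => by
    rw [Zsec00, Zsec03]
    ring
  have e4 : ((4 : ℕ) : ℝ) * (7 / 4) = 7 := by norm_num
  have eE : (Real.exp (7 / 4 * ev) ^ 60) ^ 4 = Real.exp (7 * ev) ^ 60 := by
    rw [← pow_mul, ← Real.exp_nat_mul, ← Real.exp_nat_mul]
    congr 1
    push_cast
    ring
  have hE : 0 < Real.exp (7 * ev) ^ 60 := by positivity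
  have h := PS.sector (ps_time (7 / 4) 60 (by norm_num) 0 0) (ps_time (7 / 4) 60 (by norm_num) 0 3)
    (lam := Real.exp (7 / 4 * ev) ^ 60) (c := 1) (by positivity) one_pos
    (fun k _ _ => by
      rw [hs, one_mul, ← pow_mul, mul_comm 60 k, pow_mul, ← Real.exp_nat_mul, ← mul_assoc]
      exact Zf_lower _ (by positivity) 60 (by norm_num) (by decide))
    (N := 4) le_rfl (by decide) (A := 1077 / 1000) (U := 1621 / 1000) (W := 28 / 1000)
    (by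
      rw [e4, eE, Zsec00, Zf_zn, Zf_zn]
      nlinarith)
    (by
      rw [hs, e4, eE, Zf_zn]
      nlinarith)
    (by norm_num) (m := 3) (by norm_num)
    (fun a b ha hb h1 h2 => by
      have p1 : a ^ 3 ≤ (77 / 1000) ^ 3 := pow_le_pow_left₀ ha (by linarith) 3
      have p2 : b ^ 3 ≤ (207 / 1000) ^ 3 := pow_le_pow_left₀ hb (by linarith) 3
      linarith [show ((77 : ℝ) / 1000) ^ 3 + 3 * (207 / 1000) ^ 3 ≤ 28 / 1000 by norm_num])
  rw [hs, hs] at h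
  have h0 := (ps_time_tot (7 / 4) 60 (by norm_num) 0).nonneg (k := 24) (by norm_num) (by decide)
  refine h.trans (mul_le_mul_of_nonneg_right (by norm_num) h0)

theorem sec_pow (h c : Fin 4) (B : ℝ) (hB : Zsec 7 30 h c ≤ B * Real.exp (7 * ev) ^ 30) :
    Zsec 42 30 h c ≤ B ^ 6 * Real.exp (42 * ev) ^ 30 := by
  have p := ps_time (7 / 4) 30 (by norm_num) h c
  have h1 := p.mul_le_pow (k := 4) le_rfl (by decide) (m := 6) (by norm_num)
  have h2 := p.nonneg (k := 4) le_rfl (by decide)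
  have e4 : ((4 : ℕ) : ℝ) * (7 / 4) = 7 := by norm_num
  have e6 : ((6 * 4 : ℕ) : ℝ) * (7 / 4) = 42 := by norm_num
  have eE : (Real.exp (7 * ev) ^ 30) ^ 6 = Real.exp (42 * ev) ^ 30 := by
    rw [← pow_mul, ← Real.exp_nat_mul, ← Real.exp_nat_mul]
    congr 1
    push_cast
    ring
  rw [e4] at h1 h2
  rw [e6] at h1
  rw [← eE, ← mul_pow]
  exact h1.trans (pow_le_pow_left₀ h2 hB 6)

theorem init_s (a1 : yn 0 0 30 ≤ 1273 / 1000) (a2 : yn 0 3 30 ≤ 95 / 10000)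
    (a3 : yn 3 3 30 ≤ 9467 / 10000) (a4 : yn 3 0 30 ≤ 102 / 10000) (a5 : yn 3 1 30 ≤ 46 / 10000) :
    Zf ((24 : ℕ) * (7 / 4)) 60 0 0 ^ 2 ≤ (1 + 13 / 100) * Zf ((24 : ℕ) * (7 / 4)) 120 0 0 := by
  have b2 := (yn_ps 0 3).nonneg (k := 30) (by norm_num) (by decide)
  have b3 := (yn_ps 3 3).nonneg (k := 30) (by norm_num) (by decide)
  have b4 := (yn_ps 3 0).nonneg (k := 30) (by norm_num) (by decide)
  have b5 := (yn_ps 3 1).nonneg (k := 30) (by norm_num) (by decide)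
  rw [yn00] at a1
  rw [yn03] at a2 b2
  rw [yn33] at a3 b3
  rw [yn30] at a4 b4
  rw [yn31] at a5 b5
  have hE : 0 < Real.exp (7 * ev) ^ 30 := by positivity
  have hG : 0 < Real.exp (42 * ev) ^ 30 := by positivity
  have c00 := sec_pow 0 0 (105 / 100) (by
    rw [Zsec00, Zf_zn, Zf_zn]
    nlinarith)
  have c03 := sec_pow 0 3 (326 / 1000) (by
    rw [Zsec03, Zf_zn, Zf_zn]
    nlinarith)
  have c30 := sec_pow 3 0 (326 / 1000) (by
    rw [Zsec30, Zf_zn, Zf_zn, Zf_zn]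
    nlinarith)
  have c33 := sec_pow 3 3 (10283 / 10000) (by
    rw [Zsec33, Zf_zn, Zf_zn, Zf_zn]
    nlinarith)
  have c31 := sec_pow 3 1 (321 / 1000) (by
    rw [Zsec31, Zf_zn, Zf_zn]
    nlinarith)
  rw [Zsec00] at c00
  rw [Zsec03] at c03
  rw [Zsec30] at c30
  rw [Zsec33] at c33
  rw [Zsec31] at c31
  have hs : ∀ n : ℕ, Ysec 42 n 0 0 + 3 * Ysec 42 n 0 3 = Zf 42 n 0 0 := fun n => by
    rw [Ysec00, Ysec03]
    ring
  have h := PS.sector (ps_space 42 (by norm_num) 0 0) (ps_space 42 (by norm_num) 0 3)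
    (lam := Real.exp (42 * ev)) (c := 1) (by positivity) one_pos
    (fun k hk he => by
      rw [hs, one_mul]
      exact Zf_lower _ (by norm_num) k hk he)
    (N := 30) (by norm_num) (by decide) (A := 1226 / 1000) (U := 1344 / 1000) (W := 6 / 100)
    (by
      rw [Ysec00]
      nlinarith)
    (by
      rw [hs]
      nlinarith)
    (by norm_num) (m := 2) (by norm_num)
    (fun a b ha hb h1 h2 => by
      nlinarith [mul_nonneg ha (sub_nonneg.2 h1), mul_nonneg hb (sub_nonneg.2 h2),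
        mul_nonneg ha hb, mul_nonneg ha (sub_nonneg.2 h2), mul_nonneg hb (sub_nonneg.2 h1),
        mul_nonneg (sub_nonneg.2 h1) (sub_nonneg.2 h2)])
  rw [hs, hs] at h
  have e : ((24 : ℕ) : ℝ) * (7 / 4) = 42 := by norm_num
  have h0 := (ps_space_tot 42 (by norm_num) 0).nonneg (k := 120) (by norm_num) (by decide)
  rw [e]
  refine h.trans (mul_le_mul_of_nonneg_right (by norm_num) h0)

end Vale.Agent.P348
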