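import Vale.Agent.P348.KSem
import Vale.Agent.P348.Tens

/-! Codes of configurations, and the action of the Hamiltonian on codes. -/

namespace Vale.Agent.P348

open Matrix Filter Topology

theorem kcode_eq {n : ℕ} (s : Cfg n) : code s = (finFunctionFinEquiv s : ℕ) := by
  rw [finFunctionFinEquiv_apply]
  rfl

theorem code_lt {n : ℕ} (s : Cfg n) : code s < 3 ^ n := by
  rw [kcode_eq]
  exact (finFunctionFinEquiv s).2

theorem kcode_dec_eq (n c : ℕ) (hc : c < 3 ^ n) : dec n c = finFunctionFinEquiv.symm ⟨c, hc⟩ := by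
  funext j
  apply Fin.ext
  rw [finFunctionFinEquiv_symm_apply_val]
  rfl

theorem code_dec (n c : ℕ) (hc : c < 3 ^ n) : code (dec n c) = c := by
  rw [kcode_dec_eq n c hc, kcode_eq, Equiv.apply_symm_apply]

theorem dec_code {n : ℕ} (s : Cfg n) : dec n (code s) = s := by
  rw [kcode_dec_eq n _ (code_lt s)]
  have : (⟨code s, code_lt s⟩ : Fin (3 ^ n)) = finFunctionFinEquiv s := Fin.ext (kcode_eq s)
  rw [this, Equiv.symm_apply_apply]

theorem kcode_dig {n : ℕ} (s : Cfg n) (j : Fin n) : dig (code s) j.val = (s j).val := by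
  have h := congrFun (dec_code s) j
  exact congrArg Fin.val h

theorem kcode_geom (n : ℕ) : ∑ j : Fin n, 2 * 3 ^ j.val + 1 = 3 ^ n := by
  induction n with
  | zero => simp
  | succ k ih =>
    rw [Fin.sum_univ_castSucc]
    simp only [Fin.val_castSucc, Fin.val_last]
    rw [pow_succ]
    omega

theorem code_flp {n : ℕ} (s : Cfg n) : code (flp s) = 3 ^ n - 1 - code s := by
  have h : code (flp s) + code s = ∑ j : Fin n, 2 * 3 ^ j.val := by
    unfold code
    rw [← Finset.sum_add_distrib]
    refine Finset.sum_congr rfl fun j _ => ?_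
    rw [← add_mul]
    have h1 : (flp s j).val + (s j).val = 2 := by
      have h2 := (s j).2
      simp only [flp, Fin.val_rev]
      omega
    rw [h1]
  have h2 := kcode_geom n
  omega

/-! ### The sectors -/

theorem kcode_sum_snoc {k : ℕ} (g : Cfg (k + 1) → ℝ) :
    ∑ t, g t = ∑ a : Fin 3, ∑ t : Cfg k, g (Fin.snoc (α := fun _ => Fin 3) t a) := by
  rw [← Fintype.sum_prod_type']
  exact (Fintype.sum_equiv (Fin.snocEquiv (fun _ : Fin (k + 1) => Fin 3)) _ _ fun _ => rfl).symm

theorem kcode_dsm_snoc {k : ℕ} (t : Cfg k) (a : Fin 3) :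
    dsm (Fin.snoc (α := fun _ => Fin 3) t a : Cfg (k + 1)) = dsm t + a.val := by
  unfold dsm
  rw [Fin.sum_univ_castSucc]
  simp only [Fin.snoc_castSucc, Fin.snoc_last]

theorem kcode_code_snoc {k : ℕ} (t : Cfg k) (a : Fin 3) :
    code (Fin.snoc (α := fun _ => Fin 3) t a : Cfg (k + 1)) = code t + a.val * 3 ^ k := by
  unfold code
  rw [Fin.sum_univ_castSucc]
  simp only [Fin.snoc_castSucc, Fin.snoc_last, Fin.val_castSucc, Fin.val_last]

theorem kcode_dsm_le {n : ℕ} (t : Cfg n) : dsm t ≤ n * 2 := by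
  unfold dsm
  calc ∑ j, (t j).val ≤ ∑ _j : Fin n, 2 := Finset.sum_le_sum fun j _ => by
        have := (t j).2
        omega
    _ = n * 2 := by simp

theorem kcode_secL_zero (q c : ℕ) (r : List ℕ) :
    secL 0 q c r = cond (Nat.beq q 0) (c :: r) r := rfl

theorem kcode_secL_succ (k q c : ℕ) (r : List ℕ) :
    secL (k + 1) q c r = cond (Nat.ble q ((k + 1) * 2))
      (secL k q (c * 3)
        (cond (Nat.ble 1 q) (secL k (q - 1) (c * 3 + 1)
          (cond (Nat.ble 2 q) (secL k (q - 2) (c * 3 + 2) r) r)) r)) r := rfl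

theorem kcode_sum_secL (f : ℕ → ℝ) (n : ℕ) : ∀ (q c : ℕ) (r : List ℕ),
    ((secL n q c r).map f).sum =
      (∑ t : Cfg n, if dsm t = q then f (c * 3 ^ n + code t) else 0) + (r.map f).sum := by
  induction n with
  | zero =>
    intro q c r
    rw [kcode_secL_zero]
    have h1 : ∀ t : Cfg 0, dsm t = 0 := fun t => by simp [dsm]
    have h2 : ∀ t : Cfg 0, code t = 0 := fun t => by simp [code]
    simp only [h1, h2]
    rcases q with _ | q
    · simp
    · simp [Nat.beq]
  | succ k ih =>
    intro q c r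
    rw [kcode_secL_succ]
    by_cases hq : q ≤ (k + 1) * 2
    · rw [Nat.ble_eq.mpr hq, cond_true, ih, kcode_sum_snoc, Fin.sum_univ_three]
      simp only [kcode_dsm_snoc, kcode_code_snoc]
      have e0 : ∀ t : Cfg k, c * 3 ^ (k + 1) + (code t + (0 : Fin 3).val * 3 ^ k) =
          c * 3 * 3 ^ k + code t := fun t => by
        simp only [Fin.val_zero]
        ring
      have e1 : ∀ t : Cfg k, c * 3 ^ (k + 1) + (code t + (1 : Fin 3).val * 3 ^ k) =
          (c * 3 + 1) * 3 ^ k + code t := fun t => by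
        simp only [Fin.val_one]
        ring
      have e2 : ∀ t : Cfg k, c * 3 ^ (k + 1) + (code t + (2 : Fin 3).val * 3 ^ k) =
          (c * 3 + 2) * 3 ^ k + code t := fun t => by
        simp only [Fin.val_two]
        ring
      simp only [e0, e1, e2]
      simp only [Fin.val_zero, Fin.val_one, Fin.val_two, add_zero]
      rcases q with _ | _ | q
      · simp [Nat.ble]
      · have hb1 : Nat.ble 1 (0 + 1) = true := rfl
        have hb2 : Nat.ble 2 (0 + 1) = false := rfl
        rw [hb1, hb2, cond_true, cond_false, ih]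
        have h3 : ∀ t : Cfg k, ¬ (dsm t + 2 = 0 + 1) := fun t => by omega
        have h4 : ∀ t : Cfg k, (dsm t + 1 = 0 + 1) ↔ (dsm t = 0 + 1 - 1) := fun t => by omega
        simp only [h3, h4, if_false, Finset.sum_const_zero]
        ring
      · have hb1 : Nat.ble 1 (q + 1 + 1) = true := Nat.ble_eq.mpr (by omega)
        have hb2 : Nat.ble 2 (q + 1 + 1) = true := Nat.ble_eq.mpr (by omega)
        rw [hb1, hb2, cond_true, cond_true, ih, ih]
        have h3 : ∀ t : Cfg k, (dsm t + 2 = q + 1 + 1) ↔ (dsm t = q + 1 + 1 - 2) := fun t => by omega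
        have h4 : ∀ t : Cfg k, (dsm t + 1 = q + 1 + 1) ↔ (dsm t = q + 1 + 1 - 1) := fun t => by omega
        simp only [h3, h4]
        ring
    · have hb : Nat.ble q ((k + 1) * 2) = false := by
        rw [← Bool.not_eq_true, Nat.ble_eq]
        exact hq
      rw [hb, cond_false]
      have h3 : ∀ t : Cfg (k + 1), ¬ (dsm t = q) := fun t => by
        have := kcode_dsm_le t
        omega
      simp only [h3, if_false, Finset.sum_const_zero, zero_add]

theorem sum_secL (n q : ℕ) (f : ℕ → ℝ) :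
    ((secL n q 0 []).map f).sum = ∑ t : Cfg n, if dsm t = q then f (code t) else 0 := by
  rw [kcode_sum_secL]
  simp

theorem mem_secL (n q c : ℕ) (h : c ∈ secL n q 0 []) : c < 3 ^ n ∧ dsm (dec n c) = q := by
  have hs := sum_secL n q fun y => if y = c then (1 : ℝ) else 0
  have h1 : (1 : ℝ) ≤ ((secL n q 0 []).map fun y => if y = c then (1 : ℝ) else 0).sum := by
    apply List.single_le_sum
    · intro x hx
      obtain ⟨y, _, rfl⟩ := List.mem_map.mp hx
      split_ifs <;> norm_num
    · exact List.mem_map.mpr ⟨c, h, by simp⟩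
  rw [hs] at h1
  obtain ⟨t, _, ht⟩ := Finset.exists_ne_zero_of_sum_ne_zero (ne_of_gt (lt_of_lt_of_le one_pos h1))
  by_cases h2 : dsm t = q
  · by_cases h3 : code t = c
    · rw [← h3, dec_code]
      exact ⟨code_lt t, h2⟩
    · simp [h2, h3] at ht
  · simp [h2] at ht

/-! ### The action on vectors -/

theorem kcode_site_apply {n : ℕ} (j : Fin n) (A : Matrix (Fin 3) (Fin 3) ℝ) (s t : Cfg n) :
    site j A s t = ∑ a, if t = Function.update s j a then A (s j) a else 0 := by
  simp only [site, Matrix.of_apply]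
  rw [← Finset.mul_prod_erase _ _ (Finset.mem_univ j)]
  rw [Finset.prod_congr rfl (g := fun i => if s i = t i then (1 : ℝ) else 0)]
  · rw [Finset.sum_eq_single (t j)]
    · by_cases h : t = Function.update s j (t j)
      · rw [if_pos h, Finset.prod_eq_one]
        · simp
        · intro i hi
          have hij := Finset.ne_of_mem_erase hi
          have h2 := congrFun h i
          rw [Function.update_of_ne hij] at h2
          rw [if_pos h2.symm]
      · rw [if_neg h]
        have : ∃ i, i ≠ j ∧ s i ≠ t i := by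
          by_contra hc
          apply h
          funext i
          by_cases hij : i = j
          · rw [hij, Function.update_self]
          · rw [Function.update_of_ne hij]
            by_contra h3
            exact hc ⟨i, hij, fun h4 => h3 h4.symm⟩
        obtain ⟨i, hij, hi⟩ := this
        rw [Finset.prod_eq_zero (i := i) (Finset.mem_erase.mpr ⟨hij, Finset.mem_univ i⟩) (if_neg hi),
          mul_zero]
    · intro a _ ha
      rw [if_neg]
      intro h
      apply ha
      have h2 := congrFun h j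
      rw [Function.update_self] at h2
      exact h2.symm
    · intro h
      exact absurd (Finset.mem_univ _) h
  · intro i hi
    simp [Finset.ne_of_mem_erase hi, Matrix.one_apply]

theorem kcode_site_mulVec {n : ℕ} (j : Fin n) (A : Matrix (Fin 3) (Fin 3) ℝ) (g : Cfg n → ℝ)
    (s : Cfg n) : (site j A *ᵥ g) s = ∑ a, A (s j) a * g (Function.update s j a) := by
  simp only [Matrix.mulVec, dotProduct, kcode_site_apply, Finset.sum_mul]
  rw [Finset.sum_comm]
  refine Finset.sum_congr rfl fun a _ => ?_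
  simp only [ite_mul, zero_mul]
  rw [Finset.sum_ite_eq' Finset.univ (Function.update s j a) fun t => A (s j) a * g t]
  simp

theorem kcode_two_mulVec {n : ℕ} {j k : Fin n} (hjk : j ≠ k) (A B : Matrix (Fin 3) (Fin 3) ℝ)
    (g : Cfg n → ℝ) (s : Cfg n) : ((site j A * site k B) *ᵥ g) s =
      ∑ a, ∑ b, A (s j) a * B (s k) b * g (Function.update (Function.update s j a) k b) := by
  rw [← Matrix.mulVec_mulVec, kcode_site_mulVec]
  refine Finset.sum_congr rfl fun a _ => ?_
  rw [kcode_site_mulVec, Finset.mul_sum]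
  refine Finset.sum_congr rfl fun b _ => ?_
  rw [Function.update_of_ne hjk.symm, mul_assoc]

theorem kcode_code_update {n : ℕ} (s : Cfg n) (j : Fin n) (a : Fin 3) :
    code (Function.update s j a) + (s j).val * 3 ^ j.val = code s + a.val * 3 ^ j.val := by
  unfold code
  rw [← Finset.add_sum_erase _ _ (Finset.mem_univ j), ← Finset.add_sum_erase _ _ (Finset.mem_univ j)]
  rw [Finset.sum_congr rfl (g := fun i => (s i).val * 3 ^ i.val)]
  · rw [Function.update_self]
    ring
  · intro i hi
    rw [Function.update_of_ne (Finset.ne_of_mem_erase hi)]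

theorem kcode_dsm_update {n : ℕ} (s : Cfg n) (j : Fin n) (a : Fin 3) :
    dsm (Function.update s j a) + (s j).val = dsm s + a.val := by
  unfold dsm
  rw [← Finset.add_sum_erase _ _ (Finset.mem_univ j), ← Finset.add_sum_erase _ _ (Finset.mem_univ j)]
  rw [Finset.sum_congr rfl (g := fun i => (s i).val)]
  · rw [Function.update_self]
    ring
  · intro i hi
    rw [Function.update_of_ne (Finset.ne_of_mem_erase hi)]

theorem kcode_code_two {n : ℕ} {j k : Fin n} (hjk : j ≠ k) (s : Cfg n) (a b : Fin 3) :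
    code (Function.update (Function.update s j a) k b) + (s j).val * 3 ^ j.val +
      (s k).val * 3 ^ k.val = code s + a.val * 3 ^ j.val + b.val * 3 ^ k.val := by
  have h1 := kcode_code_update s j a
  have h2 := kcode_code_update (Function.update s j a) k b
  rw [Function.update_of_ne hjk.symm] at h2
  omega

theorem kcode_hop (f : ℕ → ℤ) (x y : Fin 3) (c P Q : ℕ) (cd : Fin 3 → Fin 3 → ℕ)
    (h : ∀ a b : Fin 3, cd a b + x.val * P + y.val * Q = c + a.val * P + b.val * Q) :
    (∑ a, ∑ b, Up x a * Dn y b * (f (cd a b) : ℝ)) + (∑ a, ∑ b, Dn x a * Up y b * (f (cd a b) : ℝ)) =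
      (((cond (and (Nat.blt x.val 2) (Nat.blt 0 y.val))
        ((c + P - Q) :: cond (and (Nat.blt 0 x.val) (Nat.blt y.val 2)) [c + Q - P] [])
        (cond (and (Nat.blt 0 x.val) (Nat.blt y.val 2)) [c + Q - P] [])).map f).sum : ℤ) := by
  have h00 := h 0 0
  have h01 := h 0 1
  have h02 := h 0 2
  have h10 := h 1 0
  have h11 := h 1 1
  have h12 := h 1 2
  have h20 := h 2 0
  have h21 := h 2 1
  have h22 := h 2 2
  fin_cases x <;> fin_cases y <;>
    simp only [Fin.val_zero, Fin.val_one, Fin.val_two, zero_mul, one_mul, add_zero] at h00 h01 h02 h10 h11 h12 h20 h21 h22 <;>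
    simp [Fin.sum_univ_three, Up, Dn, Nat.blt, Nat.ble]
  · exact congrArg f (by omega)
  · exact congrArg f (by omega)
  · exact congrArg f (by omega)
  · rw [show cd 0 2 = c + Q - P by omega, show cd 2 0 = c + P - Q by omega, add_comm]
  · exact congrArg f (by omega)
  · exact congrArg f (by omega)
  · exact congrArg f (by omega)

theorem kcode_nb (s j k : ℕ) (r : List ℕ) : nb s j k r =
    cond (and (Nat.blt (dig s j) 2) (Nat.blt 0 (dig s k)))
      ((s + 3 ^ j - 3 ^ k) :: cond (and (Nat.blt 0 (dig s j)) (Nat.blt (dig s k) 2))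
        ((s + 3 ^ k - 3 ^ j) :: r) r)
      (cond (and (Nat.blt 0 (dig s j)) (Nat.blt (dig s k) 2)) ((s + 3 ^ k - 3 ^ j) :: r) r) := rfl

theorem kcode_nb_sum (f : ℕ → ℤ) (s j k : ℕ) (r : List ℕ) :
    ((nb s j k r).map f).sum = ((nb s j k []).map f).sum + (r.map f).sum := by
  rw [kcode_nb, kcode_nb]
  cases (and (Nat.blt (dig s j) 2) (Nat.blt 0 (dig s k))) <;>
    cases (and (Nat.blt 0 (dig s j)) (Nat.blt (dig s k) 2)) <;> simp [add_assoc]

theorem kcode_nbs_sum (f : ℕ → ℤ) (s m : ℕ) :
    ((nbs s m []).map f).sum = ∑ j : Fin m, ((nb s j.val (j.val + 1) []).map f).sum := by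
  induction m with
  | zero => rfl
  | succ k ih =>
    have : nbs s (k + 1) [] = nb s k (k + 1) (nbs s k []) := rfl
    rw [this, kcode_nb_sum, ih, Fin.sum_univ_castSucc]
    simp only [Fin.val_castSucc, Fin.val_last]
    ring

theorem kcode_dsum_aux (s x m : ℕ) :
    (Nat.rec x (fun j ih => Nat.add ih (dg (dig s j) (dig s (Nat.succ j)))) m : ℕ) =
      x + ∑ j : Fin m, dg (dig s j.val) (dig s (j.val + 1)) := by
  induction m with
  | zero => rfl
  | succ k ih =>
    rw [Fin.sum_univ_castSucc]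
    simp only [Fin.val_castSucc, Fin.val_last]
    rw [← add_assoc, ← ih]
    rfl

theorem kcode_dsum (s m : ℕ) :
    dsum s m = dg (dig s m) (dig s 0) + ∑ j : Fin m, dg (dig s j.val) (dig s (j.val + 1)) :=
  kcode_dsum_aux s _ m

theorem kcode_diag {n : ℕ} {j k : Fin n} (hjk : j ≠ k) (g : Cfg n → ℝ) (s : Cfg n) :
    ((site j Zm * site k Zm) *ᵥ g) s = ((dg (s j).val (s k).val : ℝ) - 1) * g s := by
  rw [kcode_two_mulVec hjk]
  have h0 : ∀ x y : Fin 3, ∀ G : Fin 3 → Fin 3 → ℝ,
      ∑ a, ∑ b, Zm x a * Zm y b * G a b = ((dg x.val y.val : ℝ) - 1) * G x y := by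
    intro x y G
    fin_cases x <;> fin_cases y <;> simp [Fin.sum_univ_three, Zm, dg] <;> ring
  rw [h0 (s j) (s k) fun a b => g (Function.update (Function.update s j a) k b)]
  simp only [Function.update_eq_self]

theorem kcode_bond {n : ℕ} {j k : Fin n} (hjk : j ≠ k) (f : ℕ → ℤ) (s : Cfg n) :
    ((site j Up * site k Dn + site j Dn * site k Up) *ᵥ fun t => (f (code t) : ℝ)) s =
      (((nb (code s) j.val k.val []).map f).sum : ℤ) := by
  rw [Matrix.add_mulVec, Pi.add_apply, kcode_two_mulVec hjk, kcode_two_mulVec hjk, kcode_nb,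
    kcode_dig, kcode_dig]
  exact kcode_hop f (s j) (s k) (code s) (3 ^ j.val) (3 ^ k.val)
    (fun a b => code (Function.update (Function.update s j a) k b)) (kcode_code_two hjk s)

theorem kcode_term {n : ℕ} (hn : 2 ≤ n) (tw : Bool) (f : ℕ → ℤ) (s : Cfg n) (j : Fin n) :
    ((site j Zm * site (finRotate n j) Zm +
      tsg tw j • (site j Up * site (finRotate n j) Dn + site j Dn * site (finRotate n j) Up)) *ᵥ
        fun t => (f (code t) : ℝ)) s =
      ((dg (dig (code s) j.val) (dig (code s) (finRotate n j).val) : ℝ) - 1) * (f (code s) : ℝ) +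
        tsg tw j * (((nb (code s) j.val (finRotate n j).val []).map f).sum : ℤ) := by
  have hj := finRotate_ne hn j
  rw [Matrix.add_mulVec, Pi.add_apply, kcode_diag hj, Matrix.smul_mulVec, Pi.smul_apply,
    kcode_bond hj, kcode_dig, kcode_dig, smul_eq_mul]

theorem Hs_mulVec (m : ℕ) (hm : 1 ≤ m) (tw : Bool) (f : ℕ → ℤ) (s : Cfg (m + 1)) :
    (Hs (m + 1) tw *ᵥ fun t => (f (code t) : ℝ)) s = (hz m tw f (code s) : ℝ) := by
  unfold Hs
  rw [Matrix.sum_mulVec, Finset.sum_apply]
  simp only [kcode_term (show 2 ≤ m + 1 by omega)]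
  rw [Fin.sum_univ_castSucc]
  have h1 : ∀ j : Fin m, (finRotate (m + 1) j.castSucc).val = j.val + 1 := fun j => by
    rw [coe_finRotate_of_ne_last (Fin.castSucc_lt_last j).ne]
    rfl
  have h2 : (finRotate (m + 1) (Fin.last m)).val = 0 := by
    rw [finRotate_last]
    rfl
  have h3 : ∀ j : Fin m, tsg tw j.castSucc = 1 := fun j => by
    unfold tsg
    rw [if_neg]
    intro h
    have h4 := h.2
    have h5 := j.2
    simp only [Fin.val_castSucc] at h4
    omega
  have h4 : tsg tw (Fin.last m) = if tw = true then -1 else 1 := by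
    unfold tsg
    simp
  simp only [h1, h2, h3, h4, Fin.val_castSucc, Fin.val_last]
  unfold hz
  rw [kcode_nbs_sum, kcode_dsum, Finset.sum_add_distrib, ← Finset.sum_mul, Finset.sum_sub_distrib]
  simp only [one_mul, Finset.sum_const, Finset.card_univ, Fintype.card_fin, nsmul_eq_mul, mul_one]
  push_cast
  ring

theorem kcode_pl_append (l : List ℤ) (a : ℤ) :
    pl (l ++ [a]) = pl l + Polynomial.C (a : ℝ) * Polynomial.X ^ l.length := by
  induction l with
  | nil => simp [pl]
  | cons b l ih =>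
    simp only [List.cons_append, pl, ih, List.length_cons]
    ring

theorem kcode_horn (m : ℕ) (hm : 1 ≤ m) (tw : Bool) (c : ℕ) (hc : c < 3 ^ (m + 1))
    (cf : List (ℕ × ℕ)) : ∀ f : ℕ → ℤ,
    (fun t : Cfg (m + 1) => (hornZ m tw c cf f (code t) : ℝ)) =
      (Hs (m + 1) tw ^ cf.length *ᵥ fun t => (f (code t) : ℝ)) +
        RM (m + 1) tw cf *ᵥ Pi.single (dec (m + 1) c) 1 := by
  induction cf with
  | nil =>
    intro f
    have h0 : RM (m + 1) tw [] = 0 := by simp [RM, cfZ, pl]
    rw [h0, Matrix.zero_mulVec, add_zero, List.length_nil, pow_zero, Matrix.one_mulVec]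
    rfl
  | cons p l ih =>
    intro f
    have h0 : hornZ m tw c (p :: l) f =
        hornZ m tw c l fun s => hz m tw f s + if c = s then (p.1 : ℤ) - (p.2 : ℤ) else 0 := rfl
    have h1 : (fun t : Cfg (m + 1) =>
        ((hz m tw f (code t) + if c = code t then (p.1 : ℤ) - (p.2 : ℤ) else 0 : ℤ) : ℝ)) =
        (Hs (m + 1) tw *ᵥ fun t => (f (code t) : ℝ)) +
          (((p.1 : ℤ) - (p.2 : ℤ) : ℤ) : ℝ) • (Pi.single (dec (m + 1) c) 1 : Cfg (m + 1) → ℝ) := by
      funext t
      rw [Pi.add_apply, Hs_mulVec m hm, Pi.smul_apply, Int.cast_add]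
      congr 1
      by_cases h : c = code t
      · have h2 : t = dec (m + 1) c := by rw [h, dec_code]
        rw [if_pos h, h2, Pi.single_eq_same, smul_eq_mul, mul_one]
      · have h2 : t ≠ dec (m + 1) c := fun h3 => h (by rw [h3, code_dec _ _ hc])
        rw [if_neg h, Pi.single_eq_of_ne h2, smul_zero, Int.cast_zero]
    have h2 : RM (m + 1) tw (p :: l) = RM (m + 1) tw l +
        (((p.1 : ℤ) - (p.2 : ℤ) : ℤ) : ℝ) • Hs (m + 1) tw ^ l.length := by
      unfold RM
      have h3 : cfZ (p :: l) = cfZ l ++ [(p.1 : ℤ) - (p.2 : ℤ)] := by simp [cfZ]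
      have h4 : (cfZ l).length = l.length := by simp [cfZ]
      rw [h3, kcode_pl_append, h4, map_add, map_mul, map_pow, Polynomial.aeval_C, Polynomial.aeval_X,
        Algebra.smul_def]
    rw [h0, ih, h1, h2, Matrix.mulVec_add, Matrix.add_mulVec, Matrix.mulVec_mulVec,
      Matrix.mulVec_smul, Matrix.smul_mulVec, List.length_cons, pow_succ]
    abel

theorem RM_eq (m : ℕ) (hm : 1 ≤ m) (tw : Bool) (cf : List (ℕ × ℕ)) (c : ℕ) (hc : c < 3 ^ (m + 1))
    (t : Cfg (m + 1)) :
    RM (m + 1) tw cf t (dec (m + 1) c) = (hornZ m tw c cf (fun _ => 0) (code t) : ℝ) := by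
  have h := congrFun (kcode_horn m hm tw c hc cf fun _ => 0) t
  rw [h]
  have h0 : (fun _ : Cfg (m + 1) => (((0 : ℤ) : ℤ) : ℝ)) = 0 := by
    funext u
    simp
  simp only [h0, Matrix.mulVec_zero, zero_add, Matrix.mulVec_single_one]
  rfl

/-! ### Conservation of the digit sum -/

/-- `M` changes the digit sum by `d` -/
def kcodeCh {n : ℕ} (d : ℤ) (M : Matrix (Cfg n) (Cfg n) ℝ) : Prop :=
  ∀ s t, (dsm s : ℤ) ≠ dsm t + d → M s t = 0

theorem kcode_ch_mul {n : ℕ} {d e : ℤ} {M N : Matrix (Cfg n) (Cfg n) ℝ} (hM : kcodeCh d M)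
    (hN : kcodeCh e N) : kcodeCh (d + e) (M * N) := by
  intro s t h
  rw [Matrix.mul_apply]
  refine Finset.sum_eq_zero fun u _ => ?_
  by_cases h1 : (dsm s : ℤ) = dsm u + d
  · rw [hN u t (by omega), mul_zero]
  · rw [hM s u h1, zero_mul]

theorem kcode_ch_add {n : ℕ} {d : ℤ} {M N : Matrix (Cfg n) (Cfg n) ℝ} (hM : kcodeCh d M)
    (hN : kcodeCh d N) : kcodeCh d (M + N) := by
  intro s t h
  rw [Matrix.add_apply, hM s t h, hN s t h, add_zero]

theorem kcode_ch_smul {n : ℕ} {d : ℤ} {M : Matrix (Cfg n) (Cfg n) ℝ} (a : ℝ) (hM : kcodeCh d M) :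
    kcodeCh d (a • M) := by
  intro s t h
  rw [Matrix.smul_apply, hM s t h, smul_zero]

theorem kcode_ch_one {n : ℕ} : kcodeCh 0 (1 : Matrix (Cfg n) (Cfg n) ℝ) := by
  intro s t h
  rw [Matrix.one_apply_ne]
  intro h1
  apply h
  rw [h1, add_zero]

theorem kcode_ch_site {n : ℕ} (d : ℤ) (j : Fin n) (A : Matrix (Fin 3) (Fin 3) ℝ)
    (hA : ∀ x y : Fin 3, (x.val : ℤ) ≠ y.val + d → A x y = 0) : kcodeCh d (site j A) := by
  intro s t h
  rw [kcode_site_apply]
  refine Finset.sum_eq_zero fun a _ => ?_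
  split_ifs with h1
  · apply hA
    have h2 := kcode_dsm_update s j a
    rw [← h1] at h2
    omega
  · rfl

theorem kcode_ch_Hs (n : ℕ) (tw : Bool) : kcodeCh 0 (Hs n tw) := by
  have hZ : ∀ j : Fin n, kcodeCh 0 (site j Zm) := fun j => kcode_ch_site 0 j Zm fun x y => by
    fin_cases x <;> fin_cases y <;> simp [Zm]
  have hU : ∀ j : Fin n, kcodeCh 1 (site j Up) := fun j => kcode_ch_site 1 j Up fun x y => by
    fin_cases x <;> fin_cases y <;> simp [Up]
  have hD : ∀ j : Fin n, kcodeCh (-1) (site j Dn) := fun j => kcode_ch_site (-1) j Dn fun x y => by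
    fin_cases x <;> fin_cases y <;> simp [Dn]
  intro s t h
  unfold Hs
  rw [Matrix.sum_apply]
  refine Finset.sum_eq_zero fun j _ => ?_
  have h1 : kcodeCh 0 (site j Zm * site (finRotate n j) Zm) :=
    kcode_ch_mul (d := 0) (e := 0) (hZ j) (hZ _)
  have h2 : kcodeCh 0 (site j Up * site (finRotate n j) Dn) :=
    kcode_ch_mul (d := 1) (e := -1) (hU j) (hD _)
  have h3 : kcodeCh 0 (site j Dn * site (finRotate n j) Up) :=
    kcode_ch_mul (d := -1) (e := 1) (hD j) (hU _)
  exact kcode_ch_add h1 (kcode_ch_smul _ (kcode_ch_add h2 h3)) s t h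

theorem aeval_Hs_charge (n : ℕ) (tw : Bool) (p : Polynomial ℝ) (s t : Cfg n) (h : dsm s ≠ dsm t) :
    Polynomial.aeval (Hs n tw) p s t = 0 := by
  have hp : ∀ k : ℕ, kcodeCh 0 (Hs n tw ^ k) := fun k => by
    induction k with
    | zero =>
      rw [pow_zero]
      exact kcode_ch_one
    | succ k ih =>
      rw [pow_succ]
      exact kcode_ch_mul ih (kcode_ch_Hs n tw)
  have hq : kcodeCh 0 (Polynomial.aeval (Hs n tw) p) := by
    induction p using Polynomial.induction_on' with
    | add p q hp hq =>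
      rw [map_add]
      exact kcode_ch_add hp hq
    | monomial k a =>
      rw [Polynomial.aeval_monomial, ← Algebra.smul_def]
      exact kcode_ch_smul a (hp k)
  exact hq s t (by omega)

end Vale.Agent.P348
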