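import Vale.Agent.P348.KDefs

/-! Generic facts on the kernel computations that need no library. -/

namespace Vale.Agent.P348

theorem KCore_iter {K : Type} (ap : (Nat → Nat) → K → Bool)
    (step : (Nat → Nat) → Nat → Nat → Nat → K → K) (fin : K) (m mask : Nat) (tw : Bool)
    (hstep : ∀ e C p r k x, ap x (step e C p r k) = ap (row m tw mask e C p r x) k)
    (e : Nat → Nat) (l : List (Nat × Nat × Nat)) :
    ∀ x, ap x (iterK (step e) fin l) = ap (iterF m tw mask e l x) fin := by
  induction l with
  | nil => intro x; rfl
  | cons p l ih =>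
    intro x
    exact (hstep e p.1 p.2.1 p.2.2 _ x).trans (ih _)

theorem run_final {K : Type} (ap : (Nat → Nat) → K → Bool)
    (step : (Nat → Nat) → Nat → Nat → Nat → K → K) (fin : K) (m w mask : Nat) (tw : Bool)
    (cf ch : List (Nat × Nat))
    (hstep : ∀ e C p r k x, ap x (step e C p r k) = ap (row m tw mask e C p r x) k) :
    run ap step fin (m + 1) w cf ch = ap (finalX m tw mask w cf ch) fin :=
  KCore_iter ap step fin m mask tw hstep _ _ _

theorem beqL_eq (a b : List Nat) (h : beqL a b = true) : a = b := by
  induction a generalizing b with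
  | nil => cases b with
    | nil => rfl
    | cons y b => exact absurd h (by intro h; cases h)
  | cons x a ih => cases b with
    | nil => exact absurd h (by intro h; cases h)
    | cons y b =>
      have h' : (Nat.beq x y && beqL a b) = true := h
      rw [Bool.and_eq_true] at h'
      rw [Nat.eq_of_beq_eq_true h'.1, ih b h'.2]

theorem beqP_eq (a b : List (Nat × Nat)) (h : beqP a b = true) : a = b := by
  induction a generalizing b with
  | nil => cases b with
    | nil => rfl
    | cons y b => exact absurd h (by intro h; cases h)
  | cons x a ih => cases b with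
    | nil => exact absurd h (by intro h; cases h)
    | cons y b =>
      have h' : ((Nat.beq x.1 y.1 && Nat.beq x.2 y.2) && beqP a b) = true := h
      rw [Bool.and_eq_true, Bool.and_eq_true] at h'
      have e : x = y := Prod.ext (Nat.eq_of_beq_eq_true h'.1.1) (Nat.eq_of_beq_eq_true h'.1.2)
      rw [e, ih b h'.2]

theorem KCore_beqS (a b : Spec) (h : beqS a b = true) : a = b := by
  cases a with
  | mk s cP lP cN lN r => cases b with
    | mk s' cP' lP' cN' lN' r' =>
      have h' : (Nat.beq s s' && (Nat.beq cP cP' && (beqL lP lP' && (Nat.beq cN cN' &&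
        (beqL lN lN' && cond r r' (not r')))))) = true := h
      simp only [Bool.and_eq_true] at h'
      obtain ⟨h1, h2, h3, h4, h5, h6⟩ := h'
      have e : r = r' := by
        cases r <;> cases r' <;> first | rfl | cases h6
      rw [Nat.eq_of_beq_eq_true h1, Nat.eq_of_beq_eq_true h2, beqL_eq _ _ h3,
        Nat.eq_of_beq_eq_true h4, beqL_eq _ _ h5, e]

theorem KCore_apL (g g' : Spec → Nat) (R : Type) (c c' : R → Bool) (hc : ∀ k, c k = c' k)
    (l : List Spec) (h : ∀ t, t ∈ l → g t = g' t) : ∀ k, apL g R c l k = apL g' R c' l k := by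
  induction l with
  | nil => exact hc
  | cons a l ih =>
    intro k
    have e : g a = g' a := h a (List.mem_cons_self ..)
    show apL g R c l (k (g a)) = apL g' R c' l (k (g' a))
    rw [e]
    exact ih (fun t ht => h t (List.mem_cons_of_mem _ ht)) _

theorem KCore_apLL (g g' : Spec → Nat) (ll : List (List Spec))
    (h : ∀ l, l ∈ ll → ∀ t, t ∈ l → g t = g' t) : ∀ k, apLL g ll k = apLL g' ll k := by
  induction ll with
  | nil => intro k; rfl
  | cons l ll ih =>
    exact KCore_apL g g' _ _ _ (ih fun l' hl' => h l' (List.mem_cons_of_mem _ hl')) l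
      (h l (List.mem_cons_self ..))

theorem KCore_row (m : Nat) (tw : Bool) (mask : Nat) (l : List Spec)
    (h : (List.rec true (fun a _ ih => and (beqS a (genSpec m tw mask a.cd)) ih) l : Bool) = true) :
    ∀ t, t ∈ l → t = genSpec m tw mask t.cd := by
  induction l with
  | nil => intro t ht; cases ht
  | cons a l ih =>
    have h' : (beqS a (genSpec m tw mask a.cd) &&
      (List.rec true (fun a _ ih => and (beqS a (genSpec m tw mask a.cd)) ih) l : Bool)) = true := h
    rw [Bool.and_eq_true] at h'
    intro t ht
    cases ht with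
    | head => exact KCore_beqS _ _ h'.1
    | tail _ ht => exact ih h'.2 t ht

theorem KCore_specOK (m : Nat) (tw : Bool) (mask : Nat) (ll : List (List Spec))
    (h : specOK m tw mask ll = true) : ∀ l, l ∈ ll → ∀ t, t ∈ l → t = genSpec m tw mask t.cd := by
  induction ll with
  | nil => intro l hl; cases hl
  | cons a ll ih =>
    have h' : ((List.rec true (fun a _ ih => and (beqS a (genSpec m tw mask a.cd)) ih) a : Bool) &&
      specOK m tw mask ll) = true := h
    rw [Bool.and_eq_true] at h'
    intro l hl
    cases hl with
    | head => exact KCore_row m tw mask a h'.1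
    | tail _ hl => exact ih h'.2 l hl

theorem apLL_row (m : Nat) (tw : Bool) (mask : Nat) (ll : List (List Spec))
    (h : specOK m tw mask ll = true) (e : Nat → Nat) (C p r : Nat) (x : Nat → Nat) (k : FnLL ll) :
    apLL (interp e C p r x) ll k = apLL (fun t => row m tw mask e C p r x t.cd) ll k :=
  KCore_apLL _ _ ll (fun l hl t ht => congrArg (interp e C p r x) (KCore_specOK m tw mask ll h l hl t ht)) k

theorem specOK_append (m : Nat) (tw : Bool) (mask : Nat) (a b : List (List Spec))
    (ha : specOK m tw mask a = true) (hb : specOK m tw mask b = true) :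
    specOK m tw mask (a ++ b) = true := by
  induction a with
  | nil => exact hb
  | cons l a ih =>
    have h' : ((List.rec true (fun a _ ih => and (beqS a (genSpec m tw mask a.cd)) ih) l : Bool) &&
      specOK m tw mask a) = true := ha
    rw [Bool.and_eq_true] at h'
    show ((List.rec true (fun a _ ih => and (beqS a (genSpec m tw mask a.cd)) ih) l : Bool) &&
      specOK m tw mask (a ++ b)) = true
    rw [h'.1, ih h'.2]
    rfl

theorem KCore_sum1 (f : Nat → Nat) (l : List Spec) (r : List Nat) :
    sumL f (List.rec r (fun a _ ih => a.cd :: ih) l) = Nat.add (sum1 (fun t => f t.cd) l) (sumL f r) := by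
  induction l with
  | nil => exact (Nat.zero_add _).symm
  | cons a l ih =>
    show Nat.add (f a.cd) (sumL f (List.rec r (fun a _ ih => a.cd :: ih) l)) =
      Nat.add (Nat.add (f a.cd) (sum1 (fun t => f t.cd) l)) (sumL f r)
    rw [ih]
    exact (Nat.add_assoc _ _ _).symm

theorem sum2_eq (ll : List (List Spec)) (l : List Nat) (h : beqL (codes ll) l = true) (f : Nat → Nat) :
    sum2 (fun t => f t.cd) ll = sumL f l := by
  rw [← beqL_eq _ _ h]
  clear h
  induction ll with
  | nil => rfl
  | cons a ll ih =>
    show Nat.add (sum1 (fun t => f t.cd) a) (sum2 (fun t => f t.cd) ll) =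
      sumL f (List.rec (codes ll) (fun a _ ih => a.cd :: ih) a)
    rw [KCore_sum1, ih]

end Vale.Agent.P348
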