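import Vale.Agent.P348.KCore

/-! Small additions to the kernel definitions. -/

namespace Vale.Agent.P348

def sh6 (w v : Nat) : Nat :=
  Nat.shiftRight (Nat.shiftRight (Nat.shiftRight (Nat.shiftRight (Nat.shiftRight
    (Nat.shiftRight v w) w) w) w) w) w

end Vale.Agent.P348
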