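/-! Computable definitions on base-three codes, written for evaluation by the kernel. -/

namespace Vale.Agent.P348

/-- digit `j` of the code `s` -/
def dig (s j : Nat) : Nat := Nat.mod (Nat.div s (Nat.pow 3 j)) 3

/-- the codes joined to `s` by a hop on the bond `(j, k)`, put in front of `r` -/
def nb (s j k : Nat) (r : List Nat) : List Nat :=
  cond (and (Nat.blt (dig s j) 2) (Nat.blt 0 (dig s k)))
    (Nat.sub (Nat.add s (Nat.pow 3 j)) (Nat.pow 3 k) ::
      cond (and (Nat.blt 0 (dig s j)) (Nat.blt (dig s k) 2))
        (Nat.sub (Nat.add s (Nat.pow 3 k)) (Nat.pow 3 j) :: r) r)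
    (cond (and (Nat.blt 0 (dig s j)) (Nat.blt (dig s k) 2))
        (Nat.sub (Nat.add s (Nat.pow 3 k)) (Nat.pow 3 j) :: r) r)

/-- the hops on the bonds `(j, j + 1)`, `j < m`, put in front of `r` -/
noncomputable def nbs (s m : Nat) (r : List Nat) : List Nat :=
  Nat.rec r (fun j ih => nb s j (Nat.succ j) ih) m

/-- `(a - 1) (b - 1) + 1` -/
def dg (a b : Nat) : Nat := Nat.sub (Nat.sub (Nat.add (Nat.mul a b) 2) a) b

/-- the diagonal entry plus the number `m + 1` of sites -/
noncomputable def dsum (s m : Nat) : Nat :=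
  Nat.rec (dg (dig s m) (dig s 0)) (fun j ih => Nat.add ih (dg (dig s j) (dig s (Nat.succ j)))) m

def tbit (mask s : Nat) : Bool := Nat.beq (Nat.land (Nat.shiftRight mask s) 1) 1

/-- the data of one row: code, positive diagonal, positive hops, negative diagonal, negative hops,
source flag -/
inductive Spec where
  | mk (s cP : Nat) (lP : List Nat) (cN : Nat) (lN : List Nat) (r : Bool) : Spec

noncomputable def Spec.cd (t : Spec) : Nat := Spec.rec (fun s _ _ _ _ _ => s) t

noncomputable def genSpec (m : Nat) (tw : Bool) (mask s : Nat) : Spec :=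
  Spec.mk s (Nat.sub (dsum s m) (Nat.succ m)) (nbs s m (cond tw [] (nb s m 0 [])))
    (Nat.sub (Nat.succ m) (dsum s m)) (cond tw (nb s m 0 []) []) (tbit mask s)

def addc (c v t : Nat) : Nat :=
  cond (Nat.beq c 0) t (cond (Nat.beq c 1) (Nat.add t v) (Nat.add t (Nat.mul v c)))

def subc (c v t : Nat) : Nat :=
  cond (Nat.beq c 0) t (cond (Nat.beq c 1) (Nat.sub t v) (Nat.sub t (Nat.mul v c)))

noncomputable def foldAdd (x : Nat → Nat) (l : List Nat) : Nat → Nat :=
  List.rec (fun t => t) (fun b _ ih t => ih (Nat.add t (x b))) l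

noncomputable def foldSub (x : Nat → Nat) (l : List Nat) : Nat → Nat :=
  List.rec (fun t => t) (fun b _ ih t => ih (Nat.sub t (x b))) l

def addr (r : Bool) (v t : Nat) : Nat := cond r (Nat.add t v) t
def subr (r : Bool) (v t : Nat) : Nat := cond r (Nat.sub t v) t

noncomputable def interp (e : Nat → Nat) (C ap an : Nat) (x : Nat → Nat) (t : Spec) : Nat :=
  Spec.rec (fun s cP lP cN lN r =>
    subr r (Nat.mul (e s) an) (foldSub x lN (subc cN (x s)
      (addr r (Nat.mul (e s) ap) (foldAdd x lP (addc cP (x s) C)))))) t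

/-- one row of the Horner step `x ↦ H x + (ap - an) e + C`; there are `m + 1` sites -/
noncomputable def row (m : Nat) (tw : Bool) (mask : Nat) (e : Nat → Nat) (C ap an : Nat)
    (x : Nat → Nat) (s : Nat) : Nat :=
  interp e C ap an x (genSpec m tw mask s)

/-- functions of as many numbers as the list has entries -/
noncomputable def FnL (R : Type) (l : List Spec) : Type := List.rec R (fun _ _ T => Nat → T) l

noncomputable def FnLL (ll : List (List Spec)) : Type := List.rec Bool (fun l _ T => FnL T l) ll

noncomputable def apL (g : Spec → Nat) (R : Type) (c : R → Bool) (l : List Spec) : FnL R l → Bool :=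
  List.rec (motive := fun l => FnL R l → Bool) c (fun a _ ih k => ih (k (g a))) l

noncomputable def apLL (g : Spec → Nat) (ll : List (List Spec)) : FnLL ll → Bool :=
  List.rec (motive := fun ll => FnLL ll → Bool) (fun k => k)
    (fun l ll ih => apL g (FnLL ll) ih l) ll

noncomputable def sum1 (g : Spec → Nat) (l : List Spec) : Nat :=
  List.rec 0 (fun a _ ih => Nat.add (g a) ih) l

noncomputable def sum2 (g : Spec → Nat) (ll : List (List Spec)) : Nat :=
  List.rec 0 (fun l _ ih => Nat.add (sum1 g l) ih) ll

noncomputable def beqL (a : List Nat) : List Nat → Bool :=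
  List.rec (fun b => List.rec true (fun _ _ _ => false) b)
    (fun x _ ih b => List.rec false (fun y b _ => and (Nat.beq x y) (ih b)) b) a

noncomputable def beqS (a b : Spec) : Bool :=
  Spec.rec (fun s cP lP cN lN r => Spec.rec (fun s' cP' lP' cN' lN' r' =>
    and (Nat.beq s s') (and (Nat.beq cP cP') (and (beqL lP lP') (and (Nat.beq cN cN')
      (and (beqL lN lN') (cond r r' (not r'))))))) b) a

/-- every row of the list is the generic row of its code -/
noncomputable def specOK (m : Nat) (tw : Bool) (mask : Nat) (ll : List (List Spec)) : Bool :=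
  List.rec true (fun l _ ih => and
    (List.rec true (fun a _ ih => and (beqS a (genSpec m tw mask a.cd)) ih) l) ih) ll

/-- the codes `c 3 ^ n + s` with `s < 3 ^ n` of digit sum `q`, in increasing order, before `r` -/
noncomputable def secL (n : Nat) : Nat → Nat → List Nat → List Nat :=
  Nat.rec (fun q c r => cond (Nat.beq q 0) (c :: r) r) (fun k ih q c r =>
    cond (Nat.ble q (Nat.mul (Nat.succ k) 2))
      (ih q (Nat.mul c 3)
        (cond (Nat.ble 1 q) (ih (Nat.sub q 1) (Nat.add (Nat.mul c 3) 1)
          (cond (Nat.ble 2 q) (ih (Nat.sub q 2) (Nat.add (Nat.mul c 3) 2) r) r)) r)) r) n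

noncomputable def codes (ll : List (List Spec)) : List Nat :=
  List.rec [] (fun l _ ih => List.rec ih (fun a _ ih => a.cd :: ih) l) ll

/-- the Horner iteration; the head of the list is the step done first -/
noncomputable def iterF (m : Nat) (tw : Bool) (mask : Nat) (e : Nat → Nat)
    (l : List (Nat × Nat × Nat)) : (Nat → Nat) → Nat → Nat :=
  List.rec (fun x => x) (fun p _ ih x => ih (row m tw mask e p.1 p.2.1 p.2.2 x)) l

/-- the same iteration in continuation passing style -/
noncomputable def iterK {K : Type} (step : Nat → Nat → Nat → K → K) (fin : K)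
    (l : List (Nat × Nat × Nat)) : K :=
  List.rec fin (fun p _ ih => step p.1 p.2.1 p.2.2 ih) l

/-- `∑ w_i d_i (X - d_i)` over the lanes `d_i` of `v`, `X = 2 ^ w`, `M = X - 1` -/
noncomputable def sqL (w X M : Nat) (ws : List (Nat × Nat)) : Nat → Nat :=
  List.rec (fun _ => 0) (fun p _ ih v =>
    Nat.add (Nat.mul (Nat.mul (Nat.land v M) (Nat.sub X (Nat.land v M))) p.2)
      (ih (Nat.shiftRight v w))) ws

/-- the sum of `X ^ i` over the lanes `i` whose code is `s` -/
noncomputable def laneE (w : Nat) (ch : List (Nat × Nat)) (s : Nat) : Nat :=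
  List.rec 0 (fun p _ ih => Nat.add (cond (Nat.beq p.1 s) 1 0) (Nat.shiftLeft ih w)) ch

/-- `∑_i K X ^ i` over the lanes -/
noncomputable def offs (w K : Nat) (ch : List (Nat × Nat)) : Nat :=
  List.rec 0 (fun _ _ ih => Nat.add K (Nat.shiftLeft ih w)) ch

noncomputable def lenL (ch : List (Nat × Nat)) : Nat := List.rec 0 (fun _ _ ih => Nat.succ ih) ch

/-- the constants of the Horner steps; `cf` lists the positive and negative parts of the
coefficients, leading coefficient first; `XS * b` bounds the current vector -/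
noncomputable def mkL (n XS : Nat) (cf : List (Nat × Nat)) : Nat → List (Nat × Nat × Nat) :=
  List.rec (fun _ => []) (fun p _ ih b =>
    (Nat.mul XS (Nat.succ (Nat.mul (Nat.add n 2) b)), p.1, p.2) ::
      ih (Nat.add (Nat.mul (Nat.add (Nat.mul n 4) 2) b) 2)) cf

def xs (w : Nat) (len : Nat) : Nat := Nat.shiftLeft 1 (Nat.mul w len)

/-- the function summed over the final vector -/
noncomputable def sqF (w : Nat) (ch : List (Nat × Nat)) (v : Nat) : Nat :=
  sqL w (Nat.shiftLeft 1 w) (Nat.sub (Nat.shiftLeft 1 w) 1) ch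
    (Nat.add v (offs w (Nat.shiftLeft 1 (Nat.sub w 1)) ch))

/-- the starting vector, zero modulo `XS` -/
def x0 (XS s : Nat) : Nat := Nat.mul XS (Nat.succ s)

/-- a full run: `n` sites, lanes of `w` bits, coefficients `cf`, lanes `ch` (code and weight);
`fin` is the final continuation -/
noncomputable def run {K : Type} (ap : (Nat → Nat) → K → Bool)
    (step : (Nat → Nat) → Nat → Nat → Nat → K → K) (fin : K) (n w : Nat)
    (cf ch : List (Nat × Nat)) : Bool :=
  ap (x0 (xs w (lenL ch)))
    (iterK (step (laneE w ch)) fin (mkL n (xs w (lenL ch)) cf (Nat.pow 3 n)))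

/-- the final vector of a run with `m + 1` sites -/
noncomputable def finalX (m : Nat) (tw : Bool) (mask w : Nat) (cf ch : List (Nat × Nat)) : Nat → Nat :=
  iterF m tw mask (laneE w ch) (mkL (Nat.succ m) (xs w (lenL ch)) cf (Nat.pow 3 (Nat.succ m)))
    (x0 (xs w (lenL ch)))

/-- the bound `∑ |a_k| (2 n) ^ k` of the entries -/
noncomputable def bndC (n : Nat) (cf : List (Nat × Nat)) : Nat → Nat :=
  List.rec (fun b => b) (fun p _ ih b => ih (Nat.add (Nat.mul b (Nat.mul n 2)) (Nat.add p.1 p.2))) cf

/-- the side conditions of a run: the lanes are wide enough and every lane has a source row -/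
noncomputable def sideOK (n w mask : Nat) (cf ch : List (Nat × Nat)) : Bool :=
  and (Nat.blt (Nat.mul (bndC n cf 0) 4) (Nat.shiftLeft 1 w))
    (List.rec true (fun p _ ih => and (tbit mask p.1) ih) ch)

noncomputable def sumL (f : Nat → Nat) (l : List Nat) : Nat :=
  List.rec 0 (fun a _ ih => Nat.add (f a) ih) l

/-! Representatives of the orbits under rotation, reflection and spin flip. -/

def trC (p c : Nat) : Nat := Nat.add (Nat.mul (Nat.mod c p) 3) (Nat.div c p)

noncomputable def rvC (n : Nat) : Nat → Nat → Nat :=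
  Nat.rec (fun _ acc => acc)
    (fun _ ih c acc => ih (Nat.div c 3) (Nat.add (Nat.mul acc 3) (Nat.mod c 3))) n

noncomputable def rots (p n : Nat) : Nat → List Nat → List Nat :=
  Nat.rec (fun _ r => r) (fun _ ih v r => v :: ih (trC p v) r) n

noncomputable def allGe (c : Nat) (l : List Nat) : Bool :=
  List.rec true (fun t _ ih => cond (Nat.ble c t) ih false) l

noncomputable def cnt (c : Nat) (l : List Nat) : Nat :=
  List.rec 0 (fun t _ ih => cond (Nat.beq c t) (Nat.succ ih) ih) l

/-- the `2 n` rotations of `c` and of its mirror image -/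
noncomputable def orb (n c : Nat) : List Nat :=
  rots (Nat.pow 3 (Nat.sub n 1)) n c (rots (Nat.pow 3 (Nat.sub n 1)) n (rvC n c 0) [])

def flC (n c : Nat) : Nat := Nat.sub (Nat.sub (Nat.pow 3 n) 1) c

/-- for a code `c` of digit sum `q ≤ n`: the size of its orbit if `c` is the chosen
representative, else `0` -/
noncomputable def repW (n q c : Nat) : Nat :=
  cond (allGe c (orb n c))
    (cond (Nat.blt q n) (Nat.div (Nat.mul n 4) (cnt c (orb n c)))
      (cond (allGe c (orb n (flC n c)))
        (Nat.div (Nat.mul n 4) (Nat.add (cnt c (orb n c)) (cnt c (orb n (flC n c))))) 0)) 0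

/-- the representatives of digit sum `q` with their weights -/
noncomputable def repL (n q : Nat) : List (Nat × Nat) :=
  List.rec [] (fun c _ ih => cond (Nat.beq (repW n q c) 0) ih ((c, repW n q c) :: ih)) (secL n q 0 [])

noncomputable def beqP (a : List (Nat × Nat)) : List (Nat × Nat) → Bool :=
  List.rec (fun b => List.rec true (fun _ _ _ => false) b)
    (fun x _ ih b => List.rec false
      (fun y b _ => and (and (Nat.beq x.1 y.1) (Nat.beq x.2 y.2)) (ih b)) b) a

end Vale.Agent.P348
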