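import Vale.Agent.P348.KSem

/-! The packed Horner iteration is congruent to the integer Horner scheme. -/

namespace Vale.Agent.P348

open Matrix Filter Topology

theorem kmod_nb_append (s j k : ℕ) (r : List ℕ) : nb s j k r = nb s j k [] ++ r := by
  unfold nb
  cases (and (Nat.blt (dig s j) 2) (Nat.blt 0 (dig s k))) <;>
    cases (and (Nat.blt 0 (dig s j)) (Nat.blt (dig s k) 2)) <;> rfl

theorem kmod_nbs_succ (s j : ℕ) (r : List ℕ) : nbs s (j + 1) r = nb s j (j + 1) (nbs s j r) := rfl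

theorem kmod_nbs_append (s m : ℕ) (r : List ℕ) : nbs s m r = nbs s m [] ++ r := by
  induction m with
  | zero => rfl
  | succ j ih =>
    rw [kmod_nbs_succ, kmod_nbs_succ, kmod_nb_append, ih, kmod_nb_append s j (j + 1) (nbs s j []),
      List.append_assoc]

theorem kmod_add_lt {n s j : ℕ} (hs : s < 3 ^ n) (hj : j < n) (h : dig s j < 2) :
    s + 3 ^ j < 3 ^ n := by
  obtain ⟨d, rfl⟩ : ∃ d, n = d + 1 + j := ⟨n - j - 1, by omega⟩
  have hp : 0 < 3 ^ j := by positivity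
  have h1 : s / 3 ^ j < 3 ^ (d + 1) := by
    rw [Nat.div_lt_iff_lt_mul hp, ← pow_add]
    exact hs
  have h2 : s / 3 ^ j % 3 < 2 := h
  have h3 : s / 3 ^ j + 2 ≤ 3 ^ (d + 1) := by
    rw [pow_succ] at h1 ⊢
    omega
  have h4 : s < (s / 3 ^ j + 1) * 3 ^ j := by
    rw [← Nat.div_lt_iff_lt_mul hp]
    exact Nat.lt_succ_self _
  have h5 := Nat.mul_le_mul_right (3 ^ j) h3
  rw [← pow_add] at h5
  rw [add_mul] at h4 h5
  omega

theorem kmod_mem_nb {n s j k t : ℕ} (hs : s < 3 ^ n) (hj : j < n) (hk : k < n)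
    (ht : t ∈ nb s j k []) : t < 3 ^ n := by
  have h1 : (and (Nat.blt (dig s j) 2) (Nat.blt 0 (dig s k))) = true →
      Nat.sub (Nat.add s (Nat.pow 3 j)) (Nat.pow 3 k) < 3 ^ n := fun h =>
    (Nat.sub_le _ _).trans_lt (kmod_add_lt hs hj (Nat.blt_eq.mp (Bool.and_eq_true_iff.1 h).1))
  have h2 : (and (Nat.blt 0 (dig s j)) (Nat.blt (dig s k) 2)) = true →
      Nat.sub (Nat.add s (Nat.pow 3 k)) (Nat.pow 3 j) < 3 ^ n := fun h =>
    (Nat.sub_le _ _).trans_lt (kmod_add_lt hs hk (Nat.blt_eq.mp (Bool.and_eq_true_iff.1 h).2))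
  unfold nb at ht
  generalize (and (Nat.blt (dig s j) 2) (Nat.blt 0 (dig s k))) = c1 at ht h1
  generalize (and (Nat.blt 0 (dig s j)) (Nat.blt (dig s k) 2)) = c2 at ht h2
  cases c1 <;> cases c2 <;>
    simp only [cond_true, cond_false, List.mem_cons, List.not_mem_nil, or_false] at ht
  · exact ht ▸ h2 rfl
  · exact ht ▸ h1 rfl
  · rcases ht with rfl | rfl
    · exact h1 rfl
    · exact h2 rfl

theorem kmod_mem_nbs {n s m t : ℕ} (hs : s < 3 ^ n) (hm : m < n) (ht : t ∈ nbs s m []) :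
    t < 3 ^ n := by
  induction m with
  | zero => exact absurd ht List.not_mem_nil
  | succ j ih =>
    rw [kmod_nbs_succ, kmod_nb_append, List.mem_append] at ht
    exact ht.elim (kmod_mem_nb hs (by omega) hm) (ih (by omega))

theorem kmod_bond (s j k : ℕ) : dg (dig s j) (dig s k) + (nb s j k []).length ≤ 3 ∧
    (nb s j k []).length ≤ dg (dig s j) (dig s k) + 1 ∧ (nb s j k []).length ≤ 2 := by
  have h1 : dig s j < 3 := Nat.mod_lt _ (by decide)
  have h2 : dig s k < 3 := Nat.mod_lt _ (by decide)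
  unfold nb
  generalize dig s j = a at h1 ⊢
  generalize dig s k = b at h2 ⊢
  generalize Nat.sub (Nat.add s (Nat.pow 3 j)) (Nat.pow 3 k) = u
  generalize Nat.sub (Nat.add s (Nat.pow 3 k)) (Nat.pow 3 j) = v
  interval_cases a <;> interval_cases b <;> simp [dg, Nat.blt, Nat.ble]

theorem kmod_count (s m : ℕ) :
    dsum s m + ((nbs s m []).length + (nb s m 0 []).length) ≤ 3 * (m + 1) ∧
      (nbs s m []).length + (nb s m 0 []).length ≤ dsum s m + (m + 1) := by
  have key : ∀ (b k : ℕ), (Nat.rec b (fun j ih => Nat.add ih (dg (dig s j) (dig s (Nat.succ j)))) k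
      : ℕ) + (nbs s k []).length ≤ b + 3 * k ∧ b + (nbs s k []).length ≤
      (Nat.rec b (fun j ih => Nat.add ih (dg (dig s j) (dig s (Nat.succ j)))) k : ℕ) + k := by
    intro b k
    induction k with
    | zero => exact ⟨le_rfl, le_rfl⟩
    | succ k ih =>
      have h := kmod_bond s k (k + 1)
      rw [kmod_nbs_succ, kmod_nb_append, List.length_append]
      simp only [Nat.add_eq, Nat.succ_eq_add_one] at ih ⊢
      omega
  have h1 := key (dg (dig s m) (dig s 0)) m
  have h2 := kmod_bond s m 0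
  unfold dsum
  omega

theorem kmod_abs_sum {f : ℕ → ℤ} {b : ℤ} {l : List ℕ} (h : ∀ t ∈ l, |f t| ≤ b) :
    |(l.map f).sum| ≤ l.length * b := by
  induction l with
  | nil => simp
  | cons a l ih =>
    rw [List.map_cons, List.sum_cons, List.length_cons]
    have h1 := h a (by simp)
    have h2 := ih fun t ht => h t (by simp [ht])
    have h3 := abs_add_le (f a) (l.map f).sum
    push_cast
    linarith

theorem kmod_hz_bound (m : ℕ) (tw : Bool) {f : ℕ → ℤ} {b : ℤ}
    (h : ∀ t, t < 3 ^ (m + 1) → |f t| ≤ b) {s : ℕ} (hs : s < 3 ^ (m + 1)) :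
    |hz m tw f s| ≤ b * ((m + 1) * 2) := by
  have hb : 0 ≤ b := (abs_nonneg _).trans (h s hs)
  have h1 := kmod_abs_sum (l := nbs s m []) fun t ht => h t (kmod_mem_nbs hs (by omega) ht)
  have h2 := kmod_abs_sum (l := nb s m 0 []) fun t ht =>
    h t (kmod_mem_nb hs (by omega) (by omega) ht)
  have h3 : |((dsum s m : ℤ) - (m + 1 : ℤ)) * f s| ≤ |(dsum s m : ℤ) - (m + 1 : ℤ)| * b := by
    rw [abs_mul]
    exact mul_le_mul_of_nonneg_left (h s hs) (abs_nonneg _)
  have h4 : |(if tw = true then -1 else 1) * ((nb s m 0 []).map f).sum| =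
      |((nb s m 0 []).map f).sum| := by
    cases tw <;> simp
  have h5 : |(dsum s m : ℤ) - (m + 1 : ℤ)| + (nbs s m []).length + (nb s m 0 []).length ≤
      (m + 1) * 2 := by
    have := kmod_count s m
    rcases abs_cases ((dsum s m : ℤ) - (m + 1 : ℤ)) with h | h <;> omega
  have h6 := mul_le_mul_of_nonneg_left h5 hb
  refine (abs_add_three _ _ _).trans ?_
  rw [h4]
  linarith

theorem kmod_bndC_cons (n : ℕ) (p : ℕ × ℕ) (l : List (ℕ × ℕ)) (b : ℕ) :
    bndC n (p :: l) b = bndC n l (b * (n * 2) + (p.1 + p.2)) := rfl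

theorem kmod_horn_bound (m : ℕ) (tw : Bool) (c : ℕ) (cf : List (ℕ × ℕ)) :
    ∀ (f : ℕ → ℤ) (b : ℕ), (∀ t, t < 3 ^ (m + 1) → |f t| ≤ b) → ∀ s, s < 3 ^ (m + 1) →
      |hornZ m tw c cf f s| ≤ (bndC (m + 1) cf b : ℤ) := by
  induction cf with
  | nil => exact fun f b h s hs => h s hs
  | cons p l ih =>
    intro f b h s hs
    rw [hornZ, kmod_bndC_cons]
    refine ih _ _ (fun t ht => (abs_add_le _ _).trans ?_) s hs
    push_cast
    refine add_le_add (kmod_hz_bound m tw h ht) ?_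
    split_ifs
    · exact abs_le.2 ⟨by omega, by omega⟩
    · rw [abs_zero]
      positivity

theorem hornZ_bound (m : ℕ) (tw : Bool) (c : ℕ) (cf : List (ℕ × ℕ)) (s : ℕ) (hs : s < 3 ^ (m + 1)) :
    |hornZ m tw c cf (fun _ => 0) s| ≤ (bndC (m + 1) cf 0 : ℤ) :=
  kmod_horn_bound m tw c cf _ 0 (fun _ _ => by simp) s hs

theorem kmod_le_bndC (m : ℕ) (cf : List (ℕ × ℕ)) : ∀ b, b ≤ bndC (m + 1) cf b ∧
    ∀ p ∈ cf, p.1 + p.2 ≤ bndC (m + 1) cf b := by
  induction cf with
  | nil => exact fun b => ⟨le_rfl, fun p hp => absurd hp List.not_mem_nil⟩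
  | cons q l ih =>
    intro b
    rw [kmod_bndC_cons]
    obtain ⟨h1, h2⟩ := ih (b * ((m + 1) * 2) + (q.1 + q.2))
    have h3 : b ≤ b * ((m + 1) * 2) := Nat.le_mul_of_pos_right _ (by omega)
    refine ⟨by omega, fun p hp => ?_⟩
    rcases List.mem_cons.1 hp with rfl | hp
    · omega
    · exact h2 p hp

theorem kmod_addc (c v t : ℕ) : addc c v t = t + v * c := by
  match c with
  | 0 => rfl
  | 1 => rw [mul_one]; rfl
  | c + 2 => rfl

theorem kmod_subc (c v t : ℕ) : subc c v t = t - v * c := by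
  match c with
  | 0 => rfl
  | 1 => rw [mul_one]; rfl
  | c + 2 => rfl

theorem kmod_foldAdd (x : ℕ → ℕ) (l : List ℕ) : ∀ t, foldAdd x l t = t + (l.map x).sum := by
  induction l with
  | nil => exact fun t => rfl
  | cons a l ih =>
    intro t
    rw [List.map_cons, List.sum_cons, ← add_assoc, ← ih]
    rfl

theorem kmod_foldSub (x : ℕ → ℕ) (l : List ℕ) : ∀ t, foldSub x l t = t - (l.map x).sum := by
  induction l with
  | nil => exact fun t => rfl
  | cons a l ih =>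
    intro t
    rw [List.map_cons, List.sum_cons, ← Nat.sub_sub, ← ih]
    rfl

theorem kmod_sum_le {x : ℕ → ℕ} {b : ℕ} {l : List ℕ} (h : ∀ t ∈ l, x t ≤ b) :
    (l.map x).sum ≤ l.length * b := by
  have := List.sum_le_card_nsmul (l.map x) b fun y hy => by
    obtain ⟨t, ht, rfl⟩ := List.mem_map.1 hy
    exact h t ht
  simpa using this

theorem kmod_cast_sum (x : ℕ → ℕ) (l : List ℕ) :
    (((l.map x).sum : ℕ) : ℤ) = (l.map fun t => (x t : ℤ)).sum := by
  induction l with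
  | nil => rfl
  | cons a l ih => simp only [List.map_cons, List.sum_cons, Nat.cast_add, ih]

theorem kmod_row_nat (m : ℕ) (tw : Bool) (mask : ℕ) (e : ℕ → ℕ) (C ap an : ℕ) (x : ℕ → ℕ) (s : ℕ)
    (he : tbit mask s = false → e s = 0) : row m tw mask e C ap an x s =
      C + x s * (dsum s m - (m + 1)) + ((nbs s m (cond tw [] (nb s m 0 []))).map x).sum +
        e s * ap - x s * (m + 1 - dsum s m) - ((cond tw (nb s m 0 []) []).map x).sum -
        e s * an := by
  have h1 : ∀ v t, addr (tbit mask s) (e s * v) t = t + e s * v := by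
    intro v t
    cases h : tbit mask s
    · rw [he h, zero_mul]
      rfl
    · rfl
  have h2 : ∀ v t, subr (tbit mask s) (e s * v) t = t - e s * v := by
    intro v t
    cases h : tbit mask s
    · rw [he h, zero_mul]
      rfl
    · rfl
  rw [← h2, ← kmod_foldSub, ← kmod_subc, ← h1, ← kmod_foldAdd, ← kmod_addc]
  rfl

theorem kmod_row (m : ℕ) (tw : Bool) (mask : ℕ) (e : ℕ → ℕ) (XS b ap an : ℕ) (x : ℕ → ℕ) {s : ℕ}
    (hs : s < 3 ^ (m + 1)) (he : tbit mask s = false → e s = 0) (h2 : e s * an ≤ XS)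
    (hx : ∀ t, t < 3 ^ (m + 1) → x t ≤ XS * b) :
    (row m tw mask e (XS * ((m + 1 + 2) * b + 1)) ap an x s : ℤ) =
      XS * ((m + 1 + 2) * b + 1) + hz m tw (fun t => x t) s + e s * ((ap : ℤ) - an) := by
  have a1 : x s * (m + 1 - dsum s m) ≤ XS * b * (m + 1) :=
    Nat.mul_le_mul (hx s hs) (Nat.sub_le _ _)
  have a2 : ((nb s m 0 []).map x).sum ≤ 2 * (XS * b) :=
    (kmod_sum_le fun t ht => hx t (kmod_mem_nb hs (by omega) (by omega) ht)).trans
      (Nat.mul_le_mul_right _ (kmod_bond s m 0).2.2)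
  have a3 : XS * ((m + 1 + 2) * b + 1) = XS * b * (m + 1) + 2 * (XS * b) + XS := by ring
  have a4 : ((x s * (dsum s m - (m + 1)) : ℕ) : ℤ) - (x s * (m + 1 - dsum s m) : ℕ) =
      ((dsum s m : ℤ) - (m + 1 : ℤ)) * x s := by
    have : ((dsum s m - (m + 1) : ℕ) : ℤ) - (m + 1 - dsum s m : ℕ) =
      (dsum s m : ℤ) - (m + 1 : ℤ) := by omega
    rw [← this, Nat.cast_mul, Nat.cast_mul]
    ring
  have a5 : (e s : ℤ) * ((ap : ℤ) - an) = (e s * ap : ℕ) - (e s * an : ℕ) := by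
    push_cast
    ring
  have a6 : (XS : ℤ) * ((m + 1 + 2) * b + 1) = (XS * ((m + 1 + 2) * b + 1) : ℕ) := by
    push_cast
    ring
  rw [kmod_row_nat m tw mask e _ ap an x s he, hz, ← a4, a5, a6, ← kmod_cast_sum, ← kmod_cast_sum]
  cases tw
  · simp only [cond_false, List.map_nil, List.sum_nil, Bool.false_eq_true, if_false]
    rw [kmod_nbs_append, List.map_append, List.sum_append]
    omega
  · simp only [cond_true, if_true]
    omega

theorem kmod_sum_modEq {f g : ℕ → ℤ} {M : ℤ} {l : List ℕ} (h : ∀ t ∈ l, f t ≡ g t [ZMOD M]) :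
    (l.map f).sum ≡ (l.map g).sum [ZMOD M] := by
  induction l with
  | nil => rfl
  | cons a l ih =>
    simp only [List.map_cons, List.sum_cons]
    exact (h a (by simp)).add (ih fun t ht => h t (by simp [ht]))

theorem kmod_hz_modEq (m : ℕ) (tw : Bool) {f g : ℕ → ℤ} {M : ℤ}
    (h : ∀ t, t < 3 ^ (m + 1) → f t ≡ g t [ZMOD M]) {s : ℕ} (hs : s < 3 ^ (m + 1)) :
    hz m tw f s ≡ hz m tw g s [ZMOD M] :=
  (((h s hs).mul_left _).add (kmod_sum_modEq fun t ht =>
    h t (kmod_mem_nbs hs (by omega) ht))).add ((kmod_sum_modEq fun t ht =>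
      h t (kmod_mem_nb hs (by omega) (by omega) ht)).mul_left _)

theorem kmod_hz_lin (m : ℕ) (tw : Bool) (f g : ℕ → ℤ) (X : ℤ) (s : ℕ) :
    hz m tw (fun t => f t + X * g t) s = hz m tw f s + X * hz m tw g s := by
  simp only [hz, List.sum_map_add, List.sum_map_mul_left]
  ring

theorem kmod_laneE_cons (w : ℕ) (p : ℕ × ℕ) (ch : List (ℕ × ℕ)) (s : ℕ) :
    laneE w (p :: ch) s = (if p.1 = s then 1 else 0) + laneE w ch s * 2 ^ w := by
  rw [← Nat.shiftLeft_eq]
  change cond (Nat.beq p.1 s) 1 0 + _ = _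
  congr 1
  by_cases h : p.1 = s
  · rw [if_pos h, Nat.beq_eq.mpr h]
    rfl
  · rw [if_neg h, Bool.eq_false_iff.2 fun h1 => h (Nat.beq_eq.mp h1)]
    rfl

theorem kmod_pack_step (m : ℕ) (tw : Bool) (w : ℕ) (F : ℕ → ℕ → ℤ) (d : ℤ) (s : ℕ)
    (ch : List (ℕ × ℕ)) :
    hz m tw (fun t => packZ (2 ^ w) (ch.map fun p => F p.1 t)) s + laneE w ch s * d =
      packZ (2 ^ w) (ch.map fun p => hz m tw (F p.1) s + if p.1 = s then d else 0) := by
  induction ch with
  | nil => simp [packZ, hz, laneE]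
  | cons p ch ih =>
    simp only [List.map_cons, packZ]
    rw [kmod_hz_lin, kmod_laneE_cons, ← ih]
    push_cast
    split_ifs <;> ring

theorem kmod_laneE_le (w s : ℕ) (ch : List (ℕ × ℕ)) :
    laneE w ch s * 2 ^ w + 1 ≤ (2 ^ w) ^ ch.length + laneE w ch s := by
  have hX : 1 ≤ 2 ^ w := Nat.one_le_two_pow
  induction ch with
  | nil => simp [laneE]
  | cons p ch ih =>
    rw [kmod_laneE_cons, List.length_cons, pow_succ]
    have h := Nat.mul_le_mul_right (2 ^ w) ih
    rw [add_mul, add_mul] at h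
    rw [add_mul]
    split_ifs <;> omega

theorem kmod_laneE_mul_le {w a : ℕ} (ha : a < 2 ^ w) (s : ℕ) (ch : List (ℕ × ℕ)) :
    laneE w ch s * a ≤ (2 ^ w) ^ ch.length := by
  have h1 := kmod_laneE_le w s ch
  have h2 := Nat.mul_le_mul_left (laneE w ch s) (show a + 1 ≤ 2 ^ w from ha)
  rw [mul_add] at h2
  omega

theorem kmod_laneE_zero {mask w s : ℕ} {ch : List (ℕ × ℕ)}
    (h : (List.rec true (fun p _ ih => and (tbit mask p.1) ih) ch : Bool) = true)
    (hs : tbit mask s = false) : laneE w ch s = 0 := by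
  induction ch with
  | nil => rfl
  | cons p ch ih =>
    obtain ⟨h1, h2⟩ := Bool.and_eq_true_iff.1 h
    rw [kmod_laneE_cons, ih h2, zero_mul, add_zero, if_neg]
    intro h3
    rw [h3, hs] at h1
    exact Bool.false_ne_true h1

theorem kmod_iter (m : ℕ) (tw : Bool) (mask w : ℕ) (ch : List (ℕ × ℕ))
    (he : ∀ s, tbit mask s = false → laneE w ch s = 0) (cf : List (ℕ × ℕ)) :
    ∀ (b : ℕ) (x : ℕ → ℕ) (F : ℕ → ℕ → ℤ), (∀ p ∈ cf, p.1 + p.2 < 2 ^ w) →
      (∀ s, s < 3 ^ (m + 1) → x s ≤ (2 ^ w) ^ ch.length * b) →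
      (∀ s, s < 3 ^ (m + 1) → (x s : ℤ) ≡ packZ (2 ^ w) (ch.map fun p => F p.1 s)
        [ZMOD (2 ^ w) ^ ch.length]) →
      ∀ s, s < 3 ^ (m + 1) →
        (iterF m tw mask (laneE w ch) (mkL (m + 1) ((2 ^ w) ^ ch.length) cf b) x s : ℤ) ≡
          packZ (2 ^ w) (ch.map fun p => hornZ m tw p.1 cf (F p.1) s)
            [ZMOD (2 ^ w) ^ ch.length] := by
  induction cf with
  | nil => exact fun b x F _ _ h s hs => h s hs
  | cons q cf ih =>
    intro b x F hp hx hF s hs
    have hq := hp q (by simp)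
    have hrow := fun t (ht : t < 3 ^ (m + 1)) => kmod_row m tw mask (laneE w ch)
      ((2 ^ w) ^ ch.length) b q.1 q.2 x ht (he t) (kmod_laneE_mul_le (by omega) t ch) hx
    refine ih (((m + 1) * 4 + 2) * b + 2)
      (row m tw mask (laneE w ch) ((2 ^ w) ^ ch.length * ((m + 1 + 2) * b + 1)) q.1 q.2 x)
      (fun c t => hz m tw (F c) t + if c = t then (q.1 : ℤ) - (q.2 : ℤ) else 0)
      (fun p h => hp p (by simp [h])) (fun t ht => ?_) (fun t ht => ?_) s hs
    · have h1 := (abs_le.1 (kmod_hz_bound m tw (f := fun t => x t)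
        (b := ((2 ^ w) ^ ch.length * b : ℕ))
        (fun u hu => by rw [Nat.abs_cast]; exact_mod_cast hx u hu) ht)).2
      have h2 : (laneE w ch t : ℤ) * q.1 ≤ ((2 ^ w) ^ ch.length : ℕ) := by
        exact_mod_cast kmod_laneE_mul_le (a := q.1) (by omega) t ch
      have h3 : 0 ≤ (laneE w ch t : ℤ) * q.2 := by positivity
      have h4 := hrow t ht
      generalize (2 ^ w) ^ ch.length = XS at h1 h2 h4 ⊢
      have h5 : 0 ≤ (XS : ℤ) * b * (m + 1) := by positivity
      zify at h1 ⊢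
      rw [h4]
      linarith
    · rw [hrow t ht, ← kmod_pack_step, add_assoc]
      have h1 := (kmod_hz_modEq m tw hF ht).add_right
        ((laneE w ch t : ℤ) * ((q.1 : ℤ) - (q.2 : ℤ)))
      have h2 : (((2 ^ w) ^ ch.length : ℕ) : ℤ) * ((m + 1 + 2) * b + 1) ≡ 0
          [ZMOD (2 ^ w) ^ ch.length] := by
        push_cast
        exact Int.modEq_zero_iff_dvd.2 (Dvd.intro _ rfl)
      simpa only [zero_add] using h2.add h1

theorem kmod_lenL (ch : List (ℕ × ℕ)) : lenL ch = ch.length := by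
  induction ch with
  | nil => rfl
  | cons p ch ih => exact congrArg Nat.succ ih

theorem kmod_pack_zero (X : ℤ) (ch : List (ℕ × ℕ)) : packZ X (ch.map fun _ => 0) = 0 := by
  induction ch with
  | nil => rfl
  | cons p ch ih => rw [List.map_cons, packZ, ih, mul_zero, add_zero]

theorem finalX_modEq (m : ℕ) (tw : Bool) (mask w : ℕ) (cf ch : List (ℕ × ℕ))
    (h : sideOK (m + 1) w mask cf ch = true) (s : ℕ) (hs : s < 3 ^ (m + 1)) :
    (finalX m tw mask w cf ch s : ℤ) ≡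
      packZ (2 ^ w) (ch.map fun p => hornZ m tw p.1 cf (fun _ => 0) s)
        [ZMOD (2 ^ w) ^ ch.length] := by
  obtain ⟨h1, h2⟩ := Bool.and_eq_true_iff.1 h
  have h3 : bndC (m + 1) cf 0 * 4 < 1 <<< w := Nat.blt_eq.mp h1
  rw [Nat.one_shiftLeft] at h3
  have h4 : xs w (lenL ch) = (2 ^ w) ^ ch.length := by
    rw [kmod_lenL, ← pow_mul, ← Nat.one_shiftLeft]
    rfl
  unfold finalX
  rw [h4]
  refine kmod_iter m tw mask w ch (fun t ht => kmod_laneE_zero h2 ht) cf (3 ^ (m + 1)) _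
    (fun _ _ => 0) (fun p hp => ?_) (fun t ht => Nat.mul_le_mul_left _ ht) (fun t _ => ?_) s hs
  · have := (kmod_le_bndC m cf 0).2 p hp
    omega
  · rw [kmod_pack_zero]
    refine Int.modEq_zero_iff_dvd.2 ⟨(t + 1 : ℕ), ?_⟩
    change (((2 ^ w) ^ ch.length * (t + 1) : ℕ) : ℤ) = _
    push_cast
    ring

end Vale.Agent.P348
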