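import Vale.Agent.P348.KSem

/-! Unpacking the lanes. -/

namespace Vale.Agent.P348

theorem KSq_sqL (w : ℕ) (K : ℤ) (hK : 2 * K = 2 ^ w) (a : ℕ → ℤ) (ha : ∀ c, |a c| < K)
    (ch : List (ℕ × ℕ)) : ∀ u : ℕ,
    (u : ℤ) ≡ packZ (2 ^ w) (ch.map fun p => a p.1 + K) [ZMOD (2 ^ w) ^ ch.length] →
    (sqL w (2 ^ w) (2 ^ w - 1) ch u : ℤ) = (ch.map fun p => (p.2 : ℤ) * (K ^ 2 - a p.1 ^ 2)).sum := by
  induction ch with
  | nil => intro u _; rfl
  | cons p ch ih =>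
    intro u hu
    have hX : (0 : ℤ) < 2 ^ w := by positivity
    have e1 : sqL w (2 ^ w) (2 ^ w - 1) (p :: ch) u =
        (u &&& (2 ^ w - 1)) * (2 ^ w - (u &&& (2 ^ w - 1))) * p.2 +
          sqL w (2 ^ w) (2 ^ w - 1) ch (u >>> w) := rfl
    rw [e1, Nat.and_two_pow_sub_one_eq_mod, Nat.shiftRight_eq_div_pow]
    simp only [List.map_cons, List.length_cons, packZ] at hu
    set R := packZ (2 ^ w) (ch.map fun p => a p.1 + K) with hR
    have hb := abs_lt.1 (ha p.1)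
    obtain ⟨t, ht⟩ := hu.dvd
    have hu' : (u : ℤ) = (a p.1 + K) + 2 ^ w * (R - (2 ^ w) ^ ch.length * t) := by
      rw [pow_succ] at ht
      linarith
    have hmod : (u : ℤ) % 2 ^ w = a p.1 + K := by
      rw [hu', Int.add_mul_emod_self_left]
      exact Int.emod_eq_of_lt (by linarith) (by linarith)
    have hdiv : (u : ℤ) / 2 ^ w = R - (2 ^ w) ^ ch.length * t := by
      rw [hu', Int.add_mul_ediv_left _ _ hX.ne', Int.ediv_eq_zero_of_lt (by linarith) (by linarith),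
        zero_add]
    have hm : ((u % 2 ^ w : ℕ) : ℤ) = a p.1 + K := by
      rw [← hmod]; push_cast; rfl
    have hle : u % 2 ^ w ≤ 2 ^ w := (Nat.mod_lt _ (by positivity)).le
    have ih' := ih (u / 2 ^ w) (by
      have : ((u / 2 ^ w : ℕ) : ℤ) = R - (2 ^ w) ^ ch.length * t := by
        rw [← hdiv]; push_cast; rfl
      rw [this]
      exact (Int.modEq_iff_dvd.2 ⟨t, by ring⟩))
    rw [Nat.cast_add, ih', List.map_cons, List.sum_cons, Nat.cast_mul, Nat.cast_mul,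
      Nat.cast_sub hle, hm]
    push_cast
    rw [← hK]
    ring

theorem KSq_offs (w K : ℕ) (a : ℕ → ℤ) (ch : List (ℕ × ℕ)) :
    packZ (2 ^ w) (ch.map fun p => a p.1 + (K : ℤ)) =
      packZ (2 ^ w) (ch.map fun p => a p.1) + (offs w K ch : ℤ) := by
  induction ch with
  | nil => rfl
  | cons p ch ih =>
    have e1 : offs w K (p :: ch) = K + offs w K ch <<< w := rfl
    rw [e1, Nat.shiftLeft_eq]
    simp only [List.map_cons, packZ, ih]
    push_cast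
    ring

theorem sqF_eq (w : ℕ) (hw : 1 ≤ w) (ch : List (ℕ × ℕ)) (a : ℕ → ℤ) (ha : ∀ c, |a c| < 2 ^ (w - 1))
    (v : ℕ) (hv : (v : ℤ) ≡ packZ (2 ^ w) (ch.map fun p => a p.1) [ZMOD (2 ^ w) ^ ch.length]) :
    (sqF w ch v : ℤ) = (ch.map fun p => (p.2 : ℤ) * ((2 ^ (w - 1)) ^ 2 - a p.1 ^ 2)).sum := by
  have e1 : sqF w ch v = sqL w (1 <<< w) (1 <<< w - 1) ch (v + offs w (1 <<< (w - 1)) ch) := rfl
  rw [e1, Nat.one_shiftLeft, Nat.one_shiftLeft]
  apply KSq_sqL w (2 ^ (w - 1)) _ a ha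
  · have := KSq_offs w (2 ^ (w - 1)) a ch
    push_cast at this ⊢
    rw [this]
    exact hv.add_right _
  · obtain ⟨k, rfl⟩ : ∃ k, w = k + 1 := ⟨w - 1, by omega⟩
    rw [Nat.add_sub_cancel, pow_succ]
    ring

end Vale.Agent.P348
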