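import Vale.Agent.P348.KMod
import Vale.Agent.P348.KSq
import Vale.Agent.P348.KCode

/-! Soundness of the kernel runs. -/

namespace Vale.Agent.P348

open Matrix Filter Topology

theorem KRun_core (w : ℕ) (hw : 1 ≤ w) (ch : List (ℕ × ℕ)) (g : ℕ → ℕ) (a : ℕ → ℕ → ℤ)
    (L : List ℕ) (ha : ∀ s ∈ L, ∀ c, |a s c| < 2 ^ (w - 1))
    (hg : ∀ s ∈ L, (g s : ℤ) ≡ packZ (2 ^ w) (ch.map fun p => a s p.1) [ZMOD (2 ^ w) ^ ch.length]) :
    wsum (fun c => (L.map fun s => (a s c : ℝ) ^ 2).sum) ch =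
      ((ch.map Prod.snd).sum : ℕ) * (L.length : ℝ) * (2 ^ (w - 1)) ^ 2 -
        (sumL (fun s => sqF w ch (g s)) L : ℕ) := by
  induction L with
  | nil => simp [wsum, sumL]
  | cons s L ih =>
    have e1 : sumL (fun s => sqF w ch (g s)) (s :: L) =
        sqF w ch (g s) + sumL (fun s => sqF w ch (g s)) L := rfl
    have e2 := congrArg (fun z : ℤ => (z : ℝ))
      (sqF_eq w hw ch (a s) (ha s List.mem_cons_self) (g s) (hg s List.mem_cons_self))
    have e3 := ih (fun s hs => ha s (List.mem_cons_of_mem _ hs))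
      fun s hs => hg s (List.mem_cons_of_mem _ hs)
    have e4 : ∀ (ch : List (ℕ × ℕ)) (F : ℕ → ℝ), wsum (fun c => (a s c : ℝ) ^ 2 + F c) ch =
        wsum F ch + ((ch.map Prod.snd).sum : ℕ) * (2 ^ (w - 1)) ^ 2 -
          ((ch.map fun p => (p.2 : ℤ) * ((2 ^ (w - 1)) ^ 2 - a s p.1 ^ 2)).sum : ℤ) := by
      intro ch F
      induction ch with
      | nil => simp [wsum]
      | cons p ch ih =>
        simp only [wsum, List.map_cons, List.sum_cons] at ih ⊢
        rw [ih]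
        push_cast
        ring
    simp only [List.map_cons, List.sum_cons, List.length_cons]
    rw [e4, e3, e1, ← e2]
    push_cast
    ring

theorem KRun_side {n w mask : ℕ} {cf ch : List (ℕ × ℕ)} (hw : 1 ≤ w)
    (h : sideOK n w mask cf ch = true) : 2 * (bndC n cf 0 : ℤ) < 2 ^ (w - 1) := by
  have h1 : bndC n cf 0 * 4 < 1 <<< w := Nat.blt_eq.mp (Bool.and_eq_true_iff.1 h).1
  obtain ⟨k, rfl⟩ := Nat.exists_eq_add_of_le' hw
  rw [Nat.one_shiftLeft, pow_succ] at h1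
  rw [Nat.add_sub_cancel]
  exact_mod_cast (by omega : 2 * bndC n cf 0 < 2 ^ k)

theorem KRun_pack (X : ℤ) (ch : List (ℕ × ℕ)) (f g : ℕ → ℤ) :
    packZ X (ch.map fun p => f p.1 + g p.1) =
      packZ X (ch.map fun p => f p.1) + packZ X (ch.map fun p => g p.1) := by
  induction ch with
  | nil => simp [packZ]
  | cons p ch ih =>
    simp only [List.map_cons, packZ, ih]
    ring

theorem KRun_congr {φ ψ : ℕ → ℝ} {ch : List (ℕ × ℕ)} (h : ∀ p ∈ ch, φ p.1 = ψ p.1) :
    wsum φ ch = wsum ψ ch :=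
  congrArg List.sum (List.map_congr_left fun p hp => by rw [h p hp])

theorem KRun_flp {n : ℕ} (t : Cfg n) : dsm (flp t) + dsm t = 2 * n := by
  rw [dsm, dsm, ← Finset.sum_add_distrib, Finset.sum_congr rfl (g := fun _ => 2) fun j _ => by
    have := (t j).2
    simp only [flp, Fin.val_rev]
    omega]
  simp [mul_comm]

theorem run_sound1 (m : ℕ) (hm : 1 ≤ m) (tw : Bool) (q mask w : ℕ) (hw : 1 ≤ w) (cf ch : List (ℕ × ℕ)) (v : ℕ)
    (hside : sideOK (m + 1) w mask cf ch = true) (hch : ∀ p ∈ ch, p.1 ∈ secL (m + 1) q 0 [])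
    (hv : sumL (fun s => sqF w ch (finalX m tw mask w cf ch s)) (secL (m + 1) q 0 []) = v) :
    wsum (phi1 (m + 1) tw cf) ch = ((ch.map Prod.snd).sum : ℕ) * ((secL (m + 1) q 0 []).length : ℝ) * (2 ^ (w - 1)) ^ 2 - v := by
  have hb := KRun_side hw hside
  rw [← hv, ← KRun_core w hw ch _ (fun s c => hornZ m tw c cf (fun _ => 0) s) _
    (fun s hs c => (hornZ_bound m tw c cf s (mem_secL _ _ _ hs).1).trans_lt (by omega))
    fun s hs => finalX_modEq m tw mask w cf ch hside s (mem_secL _ _ _ hs).1]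
  refine KRun_congr fun p hp => ?_
  obtain ⟨h1, h2⟩ := mem_secL _ _ _ (hch p hp)
  rw [sum_secL, phi1]
  refine Finset.sum_congr rfl fun t _ => ?_
  split_ifs with h
  · rw [RM_eq m hm tw cf _ h1]
  · rw [RM, aeval_Hs_charge _ _ _ _ _ (by rwa [h2]), zero_pow two_ne_zero]

theorem run_sound2 (m : ℕ) (hm : 1 ≤ m) (tw : Bool) (mask w : ℕ) (hw : 1 ≤ w) (cf ch : List (ℕ × ℕ)) (v : ℕ)
    (hside : sideOK (m + 1) w mask cf ch = true) (hch : ∀ p ∈ ch, p.1 ∈ secL (m + 1) (m + 1) 0 [])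
    (hv : sumL (fun s => sqF w ch (Nat.add (finalX m tw mask w cf ch s)
      (finalX m tw mask w cf ch (Nat.sub (3 ^ (m + 1) - 1) s)))) (secL (m + 1) (m + 1) 0 []) = v) :
    wsum (phi2 (m + 1) tw cf) ch = ((ch.map Prod.snd).sum : ℕ) * ((secL (m + 1) (m + 1) 0 []).length : ℝ) * (2 ^ (w - 1)) ^ 2 - v := by
  have hb := KRun_side hw hside
  have hlt : ∀ s, 3 ^ (m + 1) - 1 - s < 3 ^ (m + 1) := fun s => by
    have : 0 < 3 ^ (m + 1) := by positivity
    omega
  rw [← hv, ← KRun_core w hw ch _ (fun s c => hornZ m tw c cf (fun _ => 0) s +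
      hornZ m tw c cf (fun _ => 0) (3 ^ (m + 1) - 1 - s)) _
    (fun s hs c => ((abs_add_le _ _).trans (add_le_add
      (hornZ_bound m tw c cf s (mem_secL _ _ _ hs).1) (hornZ_bound m tw c cf _ (hlt s)))).trans_lt
        (by omega))
    fun s hs => ?_]
  · refine KRun_congr fun p hp => ?_
    obtain ⟨h1, h2⟩ := mem_secL _ _ _ (hch p hp)
    rw [sum_secL, phi2]
    refine Finset.sum_congr rfl fun t _ => ?_
    split_ifs with h
    · rw [RM_eq m hm tw cf _ h1, RM_eq m hm tw cf _ h1, code_flp, Int.cast_add]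
    · have := KRun_flp t
      rw [RM, aeval_Hs_charge _ _ _ _ _ (by rwa [h2]), aeval_Hs_charge _ _ _ _ _ (by omega),
        add_zero, zero_pow two_ne_zero]
  · rw [KRun_pack _ _ (fun c => hornZ m tw c cf (fun _ => 0) s)
      fun c => hornZ m tw c cf (fun _ => 0) (3 ^ (m + 1) - 1 - s), Nat.add_eq, Nat.cast_add]
    exact (finalX_modEq m tw mask w cf ch hside s (mem_secL _ _ _ hs).1).add
      (finalX_modEq m tw mask w cf ch hside _ (hlt s))

end Vale.Agent.P348
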