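import Vale.Agent.P348.Defs
import Vale.Agent.P348.KDefs

/-! The meaning of the kernel computations. -/

namespace Vale.Agent.P348

open Matrix

/-- the configuration with code `c` -/
def dec (n c : ℕ) : Cfg n := fun j => ⟨dig c j.val, Nat.mod_lt _ (by decide)⟩

/-- the spin flip -/
def flp {n : ℕ} (t : Cfg n) : Cfg n := fun j => (t j).rev

/-- the digit sum -/
def dsm {n : ℕ} (t : Cfg n) : ℕ := ∑ j, (t j).val

/-- the integer coefficients, constant term first, of a list of positive and negative parts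
given leading coefficient first -/
def cfZ (cf : List (ℕ × ℕ)) : List ℤ := (cf.map fun p => (p.1 : ℤ) - (p.2 : ℤ)).reverse

/-- the matrix `r(H)` -/
noncomputable def RM (n : ℕ) (tw : Bool) (cf : List (ℕ × ℕ)) : Matrix (Cfg n) (Cfg n) ℝ :=
  Polynomial.aeval (Hs n tw) (pl (cfZ cf))

noncomputable def phi1 (n : ℕ) (tw : Bool) (cf : List (ℕ × ℕ)) (c : ℕ) : ℝ :=
  ∑ t : Cfg n, RM n tw cf t (dec n c) ^ 2

noncomputable def phi2 (n : ℕ) (tw : Bool) (cf : List (ℕ × ℕ)) (c : ℕ) : ℝ :=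
  ∑ t : Cfg n, (RM n tw cf t (dec n c) + RM n tw cf (flp t) (dec n c)) ^ 2

noncomputable def wsum (φ : ℕ → ℝ) (ch : List (ℕ × ℕ)) : ℝ := (ch.map fun p => (p.2 : ℝ) * φ p.1).sum

/-- the action of `Hs (m + 1) tw` on integer vectors indexed by codes -/
noncomputable def hz (m : ℕ) (tw : Bool) (f : ℕ → ℤ) (s : ℕ) : ℤ :=
  ((dsum s m : ℤ) - (m + 1 : ℤ)) * f s + ((nbs s m []).map f).sum +
    (if tw = true then -1 else 1) * ((nb s m 0 []).map f).sum

/-- the Horner scheme on integer vectors, with source at the code `c` -/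
noncomputable def hornZ (m : ℕ) (tw : Bool) (c : ℕ) : List (ℕ × ℕ) → (ℕ → ℤ) → ℕ → ℤ
  | [], f => f
  | p :: l, f => hornZ m tw c l fun s => hz m tw f s + if c = s then (p.1 : ℤ) - (p.2 : ℤ) else 0

/-- `∑_i a_i X ^ i` -/
def packZ (X : ℤ) : List ℤ → ℤ
  | [] => 0
  | a :: l => a + X * packZ X l

end Vale.Agent.P348
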