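import Vale.Agent.P348.Init
import Vale.Agent.P348.G.All4

/-! Enclosures of the partition functions of the ring with 4 sites. -/

set_option maxRecDepth 100000

namespace Vale.Agent.P348.M4

open Matrix

theorem s0_0 : wsum (phi1 4 false cf4) (repL 4 0) =
    ((1831436545446599618 : ℕ) : ℝ) :=
  Cov.val _ (Cov.app (Cov.one 4 3 rfl (by decide) (by decide) A4_0.side_ok0 R4_0_0_0.res)
    (Cov.nil _ _ _ _))
    A4_0.cover A4_0.len_ok A4_0.wt_ok (by decide +kernel)

theorem s1_0 : wsum (phi1 4 false cf4) (repL 4 1) =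
    ((355855697471879660776 : ℕ) : ℝ) :=
  Cov.val _ (Cov.app (Cov.one 4 3 rfl (by decide) (by decide) A4_1.side_ok0 R4_1_0_0.res)
    (Cov.nil _ _ _ _))
    A4_1.cover A4_1.len_ok A4_1.wt_ok (by decide +kernel)

theorem s2_0 : wsum (phi1 4 false cf4) (repL 4 2) =
    ((212401250969896445884993524 : ℕ) : ℝ) :=
  Cov.val _ (Cov.app (Cov.one 4 3 rfl (by decide) (by decide) A4_2.side_ok0 R4_2_0_0.res)
    (Cov.nil _ _ _ _))
    A4_2.cover A4_2.len_ok A4_2.wt_ok (by decide +kernel)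

theorem s3_0 : wsum (phi1 4 false cf4) (repL 4 3) =
    ((255575959261267311464270056450624 : ℕ) : ℝ) :=
  Cov.val _ (Cov.app (Cov.one 4 3 rfl (by decide) (by decide) A4_3.side_ok0 R4_3_0_0.res)
    (Cov.nil _ _ _ _))
    A4_3.cover A4_3.len_ok A4_3.wt_ok (by decide +kernel)

theorem s4_0 : wsum (phi1 4 false cf4) (repL 4 4) =
    ((140264047268721477612659787043738643 : ℕ) : ℝ) :=
  Cov.val _ (Cov.app (Cov.one 4 3 rfl (by decide) (by decide) A4_4.side_ok0 R4_4_0_0.res)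
    (Cov.nil _ _ _ _))
    A4_4.cover A4_4.len_ok A4_4.wt_ok (by decide +kernel)

theorem s0_1 : wsum (phi1 4 true cf4) (repL 4 0) =
    ((1831436545446599618 : ℕ) : ℝ) :=
  Cov.val _ (Cov.app (Cov.one 4 3 rfl (by decide) (by decide) A4_0.side_ok0 R4_0_1_0.res)
    (Cov.nil _ _ _ _))
    A4_0.cover A4_0.len_ok A4_0.wt_ok (by decide +kernel)

theorem s1_1 : wsum (phi1 4 true cf4) (repL 4 1) =
    ((1182103431538382555400 : ℕ) : ℝ) :=
  Cov.val _ (Cov.app (Cov.one 4 3 rfl (by decide) (by decide) A4_1.side_ok0 R4_1_1_0.res)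
    (Cov.nil _ _ _ _))
    A4_1.cover A4_1.len_ok A4_1.wt_ok (by decide +kernel)

theorem s2_1 : wsum (phi1 4 true cf4) (repL 4 2) =
    ((431659976084649299129332 : ℕ) : ℝ) :=
  Cov.val _ (Cov.app (Cov.one 4 3 rfl (by decide) (by decide) A4_2.side_ok0 R4_2_1_0.res)
    (Cov.nil _ _ _ _))
    A4_2.cover A4_2.len_ok A4_2.wt_ok (by decide +kernel)

theorem s3_1 : wsum (phi1 4 true cf4) (repL 4 3) =
    ((148395637442847255896719359456 : ℕ) : ℝ) :=
  Cov.val _ (Cov.app (Cov.one 4 3 rfl (by decide) (by decide) A4_3.side_ok0 R4_3_1_0.res)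
    (Cov.nil _ _ _ _))
    A4_3.cover A4_3.len_ok A4_3.wt_ok (by decide +kernel)

theorem s4_1 : wsum (phi1 4 true cf4) (repL 4 4) =
    ((2077882398463212824173512227767059 : ℕ) : ℝ) :=
  Cov.val _ (Cov.app (Cov.one 4 3 rfl (by decide) (by decide) A4_4.side_ok0 R4_4_1_0.res.1)
    (Cov.nil _ _ _ _))
    A4_4.cover A4_4.len_ok A4_4.wt_ok (by decide +kernel)

theorem sF : wsum (phi2 4 true cf4) (repL 4 4) =
    ((919504356634351122100611601085800 : ℕ) : ℝ) :=
  Cov.val _ (Cov.app (Cov.two 4 3 80 rfl (by decide) (by decide) (by decide) A4_4.side_ok0 R4_4_1_0.res.2)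
    (Cov.nil _ _ _ _))
    A4_4.cover A4_4.len_ok A4_4.wt_ok (by decide +kernel)

theorem T0_0 : trace (Gs 4 0 * Polynomial.aeval (Hs 4 false) (pl (cfZ cf4) ^ 2)) =
    (140519623440384353581154520311443185) := by
  rw [trace_G0 4 (by norm_num)]
  simp only [Finset.sum_range_succ, Finset.sum_range_zero, s0_0, s1_0, s2_0, s3_0, s4_0]
  norm_num

theorem T3_0 : trace (Gs 4 3 * Polynomial.aeval (Hs 4 false) (pl (cfZ cf4) ^ 2)) =
    (140008471521861107246831036439220385) := by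
  rw [trace_G3 4 (by norm_num)]
  simp only [Finset.sum_range_succ, Finset.sum_range_zero, s0_0, s1_0, s2_0, s3_0, s4_0]
  norm_num

theorem T0_1 : trace (Gs 4 0 * Polynomial.aeval (Hs 4 true) (pl (cfZ cf4) ^ 2)) =
    (2078030794533499582382142075410865) := by
  rw [trace_G0 4 (by norm_num)]
  simp only [Finset.sum_range_succ, Finset.sum_range_zero, s0_1, s1_1, s2_1, s3_1, s4_1]
  norm_num

theorem T3_1 : trace (Gs 4 3 * Polynomial.aeval (Hs 4 true) (pl (cfZ cf4) ^ 2)) =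
    (2077734003256249681007271871581153) := by
  rw [trace_G3 4 (by norm_num)]
  simp only [Finset.sum_range_succ, Finset.sum_range_zero, s0_1, s1_1, s2_1, s3_1, s4_1]
  norm_num

theorem T1_1 : trace (Gs 4 1 * Polynomial.aeval (Hs 4 true) (pl (cfZ cf4) ^ 2)) =
    (-1618130220146037263123206427224159) := by
  rw [trace_G1 4 (by norm_num), sF, s4_1]
  norm_num

theorem z00 : (79123501 / 5000000) - (77 / 2000000) ≤ zn 4 0 0 ∧ zn 4 0 0 ≤ (79123501 / 5000000) + (77 / 2000000) :=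
  mom_of_T 4 (by norm_num) false good4 (9 / 12500000) (159901 / 10000) (3 / 78125) (by norm_num) (by norm_num) (by norm_num)
    (by norm_num) (by norm_num) (by norm_num) T0_0 (by norm_num [lam4]) T0_0 _ _ (by norm_num [lam4]) (by norm_num [lam4])

theorem z30 : (31534273 / 2000000) - (77 / 2000000) ≤ zn 4 3 0 ∧ zn 4 3 0 ≤ (31534273 / 2000000) + (77 / 2000000) :=
  mom_of_T 4 (by norm_num) false good4 (9 / 12500000) (159901 / 10000) (3 / 78125) (by norm_num) (by norm_num) (by norm_num)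
    (by norm_num) (by norm_num) (by norm_num) T0_0 (by norm_num [lam4]) T3_0 _ _ (by norm_num [lam4]) (by norm_num [lam4])

theorem z03 : (2340187 / 10000000) - (77 / 2000000) ≤ zn 4 0 3 ∧ zn 4 0 3 ≤ (2340187 / 10000000) + (77 / 2000000) :=
  mom_of_T 4 (by norm_num) true good4 (9 / 12500000) (159901 / 10000) (3 / 78125) (by norm_num) (by norm_num) (by norm_num)
    (by norm_num) (by norm_num) (by norm_num) T0_1 (by norm_num [lam4]) T0_1 _ _ (by norm_num [lam4]) (by norm_num [lam4])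

theorem z33 : (584963 / 2500000) - (77 / 2000000) ≤ zn 4 3 3 ∧ zn 4 3 3 ≤ (584963 / 2500000) + (77 / 2000000) :=
  mom_of_T 4 (by norm_num) true good4 (9 / 12500000) (159901 / 10000) (3 / 78125) (by norm_num) (by norm_num) (by norm_num)
    (by norm_num) (by norm_num) (by norm_num) T0_1 (by norm_num [lam4]) T3_1 _ _ (by norm_num [lam4]) (by norm_num [lam4])

theorem z13 : (-1822267 / 10000000) - (77 / 2000000) ≤ zn 4 1 3 ∧ zn 4 1 3 ≤ (-1822267 / 10000000) + (77 / 2000000) :=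
  mom_of_T 4 (by norm_num) true good4 (9 / 12500000) (159901 / 10000) (3 / 78125) (by norm_num) (by norm_num) (by norm_num)
    (by norm_num) (by norm_num) (by norm_num) T0_1 (by norm_num [lam4]) T1_1 _ _ (by norm_num [lam4]) (by norm_num [lam4])

def p00 : ℚ × ℚ := ((165267563 / 40000000), (77 / 2000000))

theorem y00 : (p00.1 : ℝ) - p00.2 ≤ yn 0 0 4 ∧ yn 0 0 4 ≤ p00.1 + p00.2 := by
  rw [yn00, p00]
  push_cast
  constructor <;> linarith [z00.1, z00.2, z03.1, z03.2]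

def p03 : ℚ × ℚ := ((31181363 / 8000000), (77 / 4000000))

theorem y03 : (p03.1 : ℝ) - p03.2 ≤ yn 0 3 4 ∧ yn 0 3 4 ≤ p03.1 + p03.2 := by
  rw [yn03, p03]
  push_cast
  constructor <;> linarith [z00.1, z00.2, z03.1, z03.2]

def p33 : ℚ × ℚ := ((163655751 / 40000000), (77 / 2000000))

theorem y33 : (p33.1 : ℝ) - p33.2 ≤ yn 3 3 4 ∧ yn 3 3 4 ≤ p33.1 + p33.2 := by
  rw [yn33, p33]
  push_cast
  constructor <;> linarith [z30.1, z30.2, z33.1, z33.2, z13.1, z13.2]

def p30 : ℚ × ℚ := ((156366683 / 40000000), (77 / 2000000))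

theorem y30 : (p30.1 : ℝ) - p30.2 ≤ yn 3 0 4 ∧ yn 3 0 4 ≤ p30.1 + p30.2 := by
  rw [yn30, p30]
  push_cast
  constructor <;> linarith [z30.1, z30.2, z33.1, z33.2, z13.1, z13.2]

def p31 : ℚ × ℚ := ((155331513 / 40000000), (77 / 4000000))

theorem y31 : (p31.1 : ℝ) - p31.2 ≤ yn 3 1 4 ∧ yn 3 1 4 ≤ p31.1 + p31.2 := by
  rw [yn31, p31]
  push_cast
  constructor <;> linarith [z30.1, z30.2, z33.1, z33.2]

end Vale.Agent.P348.M4
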