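import Mathlib

/-! The spin-one Heisenberg ring: the definitions used in the statement. -/

namespace Vale.Agent.P348

open Matrix

/-- `A` acting on the tensor factor `j` of `(R^3)^{⊗ n}` and as the identity on the others;
the basis of the tensor product is indexed by the functions `Fin n → Fin 3`. -/
def site {R : Type} [CommSemiring R] {n : ℕ} (j : Fin n) (A : Matrix (Fin 3) (Fin 3) R) :
    Matrix (Fin n → Fin 3) (Fin n → Fin 3) R :=
  Matrix.of fun s t => ∏ i : Fin n, (if i = j then A else 1) (s i) (t i)

/-- The Heisenberg Hamiltonian `∑_j ∑_a S^a_j S^a_{j+1}` of the periodic ring with `L` sites. -/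
noncomputable def ham (S : Fin 3 → Matrix (Fin 3) (Fin 3) ℂ) (L : ℕ) :
    Matrix (Fin L → Fin 3) (Fin L → Fin 3) ℂ :=
  ∑ j : Fin L, ∑ a : Fin 3, site j (S a) * site (finRotate L j) (S a)

end Vale.Agent.P348
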