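import Vale.Agent.P348.KSem
import Vale.Agent.P348.Poly

/-! Certification of the polynomial approximations of the Boltzmann factor. -/

namespace Vale.Agent.P348

open Matrix Filter Topology

def PolyGood (n : ℕ) (cf : List (ℕ × ℕ)) (lam : ℕ) (lo δ T0 : ℝ) : Prop :=
  (∀ E : ℝ, E < lo → T0 < (Polynomial.C ((lam : ℝ)⁻¹) * pl (cfZ cf)).eval E ^ 2) ∧
  ∀ E : ℝ, lo ≤ E → E ≤ n → |(Polynomial.C ((lam : ℝ)⁻¹) * pl (cfZ cf)).eval E - Real.exp (-(7 / 2) * (E + n * ev))| ≤ δ * (1 + Real.exp (-(7 / 2) * (E + n * ev)))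

namespace PolyOK

/-- value of a list of coefficients -/
def evq {K : Type} [Field K] : List ℚ → K → K
  | [], _ => 0
  | a :: l, x => a + x * evq l x

def add : List ℚ → List ℚ → List ℚ
  | [], m => m
  | a :: l, [] => a :: l
  | a :: l, b :: m => (a + b) :: add l m

def smul (c : ℚ) (l : List ℚ) : List ℚ := l.map (c * ·)

/-- substitution of `a - X` -/
def comp (a : ℚ) : List ℚ → List ℚ
  | [] => []
  | c :: l => add [c] (add (smul a (comp a l)) (0 :: smul (-1) (comp a l)))

/-- substitution of `c + w * (X + 1 / X)`, cleared of denominators -/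
def hom (c w : ℚ) : List ℚ → List ℚ
  | [] => []
  | a :: l => add (List.replicate (l.length + 1) 0 ++ [a])
      (add (smul w (hom c w l)) (0 :: add (smul c (hom c w l)) (0 :: smul w (hom c w l))))

def der : List ℚ → List ℚ
  | [] => []
  | _ :: l => add l (0 :: der l)

section
variable {K : Type} [Field K] [CharZero K]

theorem evq_add (l m : List ℚ) (x : K) : evq (add l m) x = evq l x + evq m x := by
  induction l generalizing m with
  | nil => simp [add, evq]
  | cons a l ih => cases m with
    | nil => simp [add, evq]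
    | cons b m => simp only [add, evq, ih]; push_cast; ring

theorem evq_smul (c : ℚ) (l : List ℚ) (x : K) : evq (smul c l) x = c * evq l x := by
  induction l with
  | nil => simp [smul, evq]
  | cons a l ih =>
    simp only [smul, List.map_cons, evq] at ih ⊢
    rw [ih]; push_cast; ring

theorem evq_comp (a : ℚ) (l : List ℚ) (x : K) : evq (comp a l) x = evq l (a - x) := by
  induction l with
  | nil => rfl
  | cons c l ih => simp only [comp, evq_add, evq_smul, evq, ih]; push_cast; ring

theorem evq_mono (n : ℕ) (a : ℚ) (x : K) : evq (List.replicate n 0 ++ [a]) x = a * x ^ n := by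
  induction n with
  | zero => simp [evq]
  | succ n ih => simp only [List.replicate_succ, List.cons_append, evq, ih]; push_cast; ring

theorem evq_hom (c w : ℚ) (l : List ℚ) {z u : K} (h : z * u = w + c * z + w * z ^ 2) :
    evq (hom c w l) z = z ^ l.length * evq l u := by
  induction l with
  | nil => simp [hom, evq]
  | cons a l ih =>
    simp only [hom, evq_add, evq_smul, evq, ih, evq_mono, List.length_cons]
    push_cast
    linear_combination -(z ^ l.length * evq l u) * h

end

theorem evq_ofReal (l : List ℚ) (x : ℝ) : evq l (x : ℂ) = (evq l x : ℝ) := by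
  induction l with
  | nil => simp [evq]
  | cons a l ih => simp [evq, ih]

theorem norm_evq (l : List ℚ) {z : ℂ} (h : ‖z‖ = 1) : ‖evq l z‖ ≤ ((l.map abs).sum : ℚ) := by
  induction l with
  | nil => simp [evq]
  | cons a l ih =>
    simp only [evq, List.map_cons, List.sum_cons]
    refine (norm_add_le _ _).trans ?_
    rw [norm_mul, h, one_mul, Complex.norm_ratCast]
    push_cast at ih ⊢
    linarith

theorem abs_evq (l : List ℚ) {c w : ℚ} (hw : 0 < w) {x : ℝ} (h1 : (c : ℝ) - 2 * w ≤ x)
    (h2 : x ≤ c + 2 * w) : |evq l x| ≤ (((hom c w l).map abs).sum : ℚ) := by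
  have hw' : (0 : ℝ) < w := by exact_mod_cast hw
  obtain ⟨u, rfl⟩ : ∃ u : ℝ, x = c + 2 * w * u := ⟨(x - c) / (2 * w), by field_simp; ring⟩
  have h3 : 0 ≤ 1 - u ^ 2 := by
    have : -1 ≤ u := by nlinarith
    have : u ≤ 1 := by nlinarith
    nlinarith
  have h4 : ((√(1 - u ^ 2) : ℝ) : ℂ) ^ 2 = 1 - u ^ 2 := by exact_mod_cast Real.sq_sqrt h3
  have h5 : ‖(u : ℂ) + √(1 - u ^ 2) * Complex.I‖ = 1 := by
    rw [Complex.norm_add_mul_I, Real.sq_sqrt h3]; simp
  have h6 := norm_evq (hom c w l) h5
  rwa [evq_hom c w l (u := ((c + 2 * w * u : ℝ) : ℂ)) (by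
      push_cast
      linear_combination (-w * Complex.I ^ 2) * h4 - w * (1 - u ^ 2) * Complex.I_sq),
    norm_mul, norm_pow, h5, one_pow, one_mul, evq_ofReal, Complex.norm_real,
    Real.norm_eq_abs] at h6

theorem evq_der (l : List ℚ) (x : ℝ) : HasDerivAt (evq l) (evq (der l) x) x := by
  induction l with
  | nil => exact hasDerivAt_const x 0
  | cons a l ih =>
    have := ((hasDerivAt_id x).mul ih).const_add (a : ℝ)
    simp only [der, evq_add, evq]
    refine HasDerivAt.congr_deriv this (by simp)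

theorem evq_nonneg {l : List ℚ} (h : ∀ a ∈ l, 0 ≤ a) {x : ℝ} (hx : 0 ≤ x) :
    (l.headD 0 : ℝ) ≤ evq l x ∧ 0 ≤ l.headD 0 := by
  induction l with
  | nil => simp [evq]
  | cons a l ih =>
    have h1 := ih fun b hb => h b (by simp [hb])
    have h2 : (0 : ℝ) ≤ l.headD 0 := by exact_mod_cast h1.2
    refine ⟨?_, h a (by simp)⟩
    simp only [evq, List.headD_cons]
    nlinarith [h1.1]

theorem evq_zero (l : List ℚ) : evq l (0 : ℝ) = l.headD 0 := by cases l <;> simp [evq]

theorem eval_pl (lam : ℕ) (L : List ℤ) (x : ℝ) :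
    (Polynomial.C ((lam : ℝ)⁻¹) * pl L).eval x = evq (L.map fun a : ℤ => (a : ℚ) / lam) x := by
  induction L with
  | nil => simp [pl, evq]
  | cons a L ih =>
    simp only [pl, List.map_cons, evq, ← ih]
    simp
    ring

theorem ode (l : List ℚ) {lo hi a K e x : ℝ} (ha : a ∈ Set.Icc lo hi) (hx : x ∈ Set.Icc lo hi)
    (hK : ∀ x ∈ Set.Icc lo hi, |evq (der l) x + 7 / 2 * evq l x| ≤ 7 / 2 * K)
    (he : |evq l a - 1| ≤ e) :
    |evq l x - Real.exp (-(7 / 2) * (x - a))| ≤ (e + K) * (1 + Real.exp (-(7 / 2) * (x - a))) := by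
  have hd : ∀ (s x : ℝ), HasDerivAt (fun x => (K + s * evq l x) * Real.exp (7 / 2 * (x - a)))
      ((7 / 2 * K + s * (evq (der l) x + 7 / 2 * evq l x)) * Real.exp (7 / 2 * (x - a))) x :=
    fun s x => ((((evq_der l x).const_mul s).const_add K).mul
      (((hasDerivAt_id x).sub_const a).const_mul (7 / 2)).exp).congr_deriv (by simp; ring)
  have hm : ∀ s : ℝ, |s| = 1 → MonotoneOn
      (fun x => (K + s * evq l x) * Real.exp (7 / 2 * (x - a))) (Set.Icc lo hi) := fun s hs =>
    monotoneOn_of_deriv_nonneg (convex_Icc _ _)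
      (fun x _ => (hd s x).continuousAt.continuousWithinAt)
      (fun x _ => (hd s x).differentiableAt.differentiableWithinAt) fun x hx => by
        rw [(hd s x).deriv]
        refine mul_nonneg ?_ (Real.exp_pos _).le
        have h1 := hK x (interior_subset hx)
        rw [← one_mul |_|, ← hs, ← abs_mul] at h1
        linarith [(abs_le.1 h1).1]
  have hK0 : 0 ≤ K := by linarith [(abs_nonneg _).trans (hK a ha)]
  have hy := Real.exp_pos (-(7 / 2) * (x - a))
  have hX := Real.exp_pos (7 / 2 * (x - a))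
  have hXy : Real.exp (7 / 2 * (x - a)) * Real.exp (-(7 / 2) * (x - a)) = 1 := by
    rw [← Real.exp_add]; simp
  have key : |evq l x * Real.exp (7 / 2 * (x - a)) - 1| ≤
      (e + K) * (Real.exp (7 / 2 * (x - a)) + 1) := by
    obtain ⟨e1, e2⟩ := abs_le.1 he
    have e3 : 0 ≤ e * Real.exp (7 / 2 * (x - a)) := mul_nonneg (by linarith) hX.le
    have e4 := mul_nonneg hK0 hX.le
    rw [abs_le]
    rcases le_total a x with h | h
    · have h1 := hm 1 (by simp) ha hx h
      have h2 := hm (-1) (by simp) ha hx h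
      simp only [sub_self, mul_zero, Real.exp_zero] at h1 h2
      constructor <;> linarith
    · have h1 := hm 1 (by simp) hx ha h
      have h2 := hm (-1) (by simp) hx ha h
      simp only [sub_self, mul_zero, Real.exp_zero] at h1 h2
      constructor <;> linarith
  have h3 := mul_le_mul_of_nonneg_right key hy.le
  rwa [← abs_of_pos hy, ← abs_mul, abs_of_pos hy, sub_mul, mul_assoc, hXy, mul_one, one_mul,
    mul_assoc (e + K), add_mul _ 1, hXy, one_mul] at h3

/-- the check -/
def chk (n : ℕ) (l : List ℚ) (lo δ T0 : ℚ) : Bool :=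
  (comp lo l).all (0 ≤ ·) && T0 < (comp lo l).headD 0 ^ 2 && lo ≤ -(n * (140147 / 100000)) &&
    lo < n && |(comp (-(n * (140147 / 100000))) l).headD 0 - 1| + 2 / 7 *
      ((hom ((lo + n) / 2) ((n - lo) / 4) (add (der l) (smul (7 / 2) l))).map abs).sum ≤ δ

theorem good {n : ℕ} {cf : List (ℕ × ℕ)} {lam : ℕ} {lo δ T0 : ℚ}
    (h : chk n ((cfZ cf).map fun a : ℤ => (a : ℚ) / lam) lo δ T0 = true) :
    PolyGood n cf lam lo δ T0 := by
  simp only [PolyGood, eval_pl]
  generalize (cfZ cf).map (fun a : ℤ => (a : ℚ) / lam) = l at h ⊢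
  simp only [chk, Bool.and_eq_true, List.all_eq_true, decide_eq_true_eq] at h
  obtain ⟨⟨⟨⟨h1, h2⟩, h3⟩, h4⟩, h5⟩ := h
  refine ⟨fun E hE => ?_, fun E hE hE' => ?_⟩
  · obtain ⟨e1, e2⟩ := evq_nonneg h1 (sub_pos.2 hE).le
    rw [evq_comp, sub_sub_cancel] at e1
    exact (by exact_mod_cast h2 : (T0 : ℝ) < ((comp lo l).headD 0 : ℚ) ^ 2).trans_le
      (pow_le_pow_left₀ (by exact_mod_cast e2) e1 2)
  · have e1 := (Rat.cast_le (K := ℝ)).2 h3
    have e2 := (Rat.cast_le (K := ℝ)).2 h5
    rw [Rat.cast_add, Rat.cast_mul, Rat.cast_abs, Rat.cast_sub, ← evq_zero, evq_comp] at e2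
    have e3 := ode l (lo := lo) (hi := n) (a := -(n * ev)) (x := E)
      ⟨by push_cast at e1; exact e1, by unfold ev; have := n.cast_nonneg (α := ℝ); linarith⟩
      ⟨hE, hE'⟩ (K := 2 / 7 * (((hom ((lo + n) / 2) ((n - lo) / 4)
        (add (der l) (smul (7 / 2) l))).map abs).sum : ℚ)) (fun x hx => by
          have := abs_evq (add (der l) (smul (7 / 2) l)) (c := (lo + n) / 2) (w := (n - lo) / 4)
            (by linarith) (x := x) (by push_cast; linarith [hx.1]) (by push_cast; linarith [hx.2])
          rw [evq_add, evq_smul] at this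
          norm_num at this ⊢
          linarith) le_rfl
    rw [sub_neg_eq_add] at e3
    refine e3.trans (mul_le_mul_of_nonneg_right (le_of_eq_of_le ?_ e2) (by positivity))
    simp [ev]

end PolyOK

open PolyOK

theorem good4 : PolyGood 4 cf4 lam4 (-601/100) (32/10^8) (1599/100) := by
  have := good (n := 4) (cf := cf4) (lam := lam4) (lo := -601/100) (δ := 32/100000000)
    (T0 := 1599/100) (by decide +kernel)
  norm_num at this ⊢
  exact this

theorem good5 : PolyGood 5 cf5 lam5 (-711/100) (37/10^8) (97/50) := by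
  have := good (n := 5) (cf := cf5) (lam := lam5) (lo := -711/100) (δ := 37/100000000)
    (T0 := 97/50) (by decide +kernel)
  norm_num at this ⊢
  exact this

theorem good6 : PolyGood 6 cf6 lam6 (-863/100) (11/10^8) (111/25) := by
  have := good (n := 6) (cf := cf6) (lam := lam6) (lo := -863/100) (δ := 11/100000000)
    (T0 := 111/25) (by decide +kernel)
  norm_num at this ⊢
  exact this

theorem good7 : PolyGood 7 cf7 lam7 (-247/25) (16/10^8) (31/20) := by
  have := good (n := 7) (cf := cf7) (lam := lam7) (lo := -247/25) (δ := 16/100000000)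
    (T0 := 31/20) (by decide +kernel)
  norm_num at this ⊢
  exact this

theorem good8 : PolyGood 8 cf8 lam8 (-227/20) (9/10^8) (51/20) := by
  have := good (n := 8) (cf := cf8) (lam := lam8) (lo := -227/20) (δ := 9/100000000)
    (T0 := 51/20) (by decide +kernel)
  norm_num at this ⊢
  exact this

theorem good9 : PolyGood 9 cf9 lam9 (-1267/100) (27/10^8) (69/50) := by
  have := good (n := 9) (cf := cf9) (lam := lam9) (lo := -1267/100) (δ := 27/100000000)
    (T0 := 69/50) (by decide +kernel)
  norm_num at this ⊢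
  exact this

theorem good10 : PolyGood 10 cf10 lam10 (-1411/100) (11/10^8) (19/10) := by
  have := good (n := 10) (cf := cf10) (lam := lam10) (lo := -1411/100) (δ := 11/100000000)
    (T0 := 19/10) (by decide +kernel)
  norm_num at this ⊢
  exact this

end Vale.Agent.P348
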