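import Vale.Agent.P348.GapOf
import Vale.Agent.P348.Tens

/-! Comparison of the traces of the exponential and of a polynomial approximation. -/

namespace Vale.Agent.P348

open Matrix Filter Topology

theorem Sandwich_entry {n : ℕ} {j k : Fin n} (hjk : j ≠ k) (A B : Matrix (Fin 3) (Fin 3) ℝ)
    (s t : Cfg n) :
    tens (fun i => if i = j then A else if i = k then B else 1) s t =
      A (s j) (t j) * B (s k) (t k) *
        ∏ i ∈ (Finset.univ.erase j).erase k, (1 : Matrix (Fin 3) (Fin 3) ℝ) (s i) (t i) := by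
  simp only [tens, Matrix.of_apply]
  rw [← Finset.mul_prod_erase _ _ (Finset.mem_univ j),
    ← Finset.mul_prod_erase (Finset.univ.erase j) _ (a := k)
      (Finset.mem_erase.2 ⟨hjk.symm, Finset.mem_univ _⟩), mul_assoc]
  simp only [if_true, if_neg hjk.symm]
  congr 2
  refine Finset.prod_congr rfl fun i hi => ?_
  rw [if_neg (Finset.ne_of_mem_erase (Finset.mem_of_mem_erase hi)),
    if_neg (Finset.ne_of_mem_erase hi)]

theorem Sandwich_rank {n : ℕ} {j k : Fin n} (hjk : j ≠ k) (v : Fin 3 → Fin 3 → ℝ) :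
    (Matrix.of fun s t : Cfg n => v (s j) (s k) * v (t j) (t k) *
      ∏ i ∈ (Finset.univ.erase j).erase k,
        (1 : Matrix (Fin 3) (Fin 3) ℝ) (s i) (t i)).PosSemidef := by
  set Y : Matrix (Fin 3) (Fin 3) ℝ := !![1, 1, 1; 0, 0, 0; 0, 0, 0] with hY
  have hJ : ∀ a b, (Yᵀ * Y) a b = 1 := by
    intro a b
    fin_cases a <;> fin_cases b <;> simp [hY, Matrix.mul_apply, Fin.sum_univ_three]
  set T : Matrix (Cfg n) (Cfg n) ℝ :=
    tens (fun i => if i = j then Y else if i = k then Y else 1) with hT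
  have h1 : Tᵀ * T = tens (fun i => if i = j then Yᵀ * Y else if i = k then Yᵀ * Y else 1) := by
    rw [hT, tens_transpose, tens_mul]
    congr 1
    funext i
    split_ifs <;> simp
  have h2 : (Tᵀ * T).PosSemidef := by
    have := Matrix.posSemidef_conjTranspose_mul_self T
    rwa [Matrix.conjTranspose_eq_transpose_of_trivial] at this
  have h3 := h2.conjTranspose_mul_mul_same (diagonal fun s : Cfg n => v (s j) (s k))
  have e : (diagonal fun s : Cfg n => v (s j) (s k))ᴴ * (Tᵀ * T) *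
      (diagonal fun s : Cfg n => v (s j) (s k)) =
      Matrix.of fun s t : Cfg n => v (s j) (s k) * v (t j) (t k) *
        ∏ i ∈ (Finset.univ.erase j).erase k, (1 : Matrix (Fin 3) (Fin 3) ℝ) (s i) (t i) := by
    ext s t
    rw [Matrix.conjTranspose_eq_transpose_of_trivial, diagonal_transpose, mul_diagonal,
      diagonal_mul, h1, Sandwich_entry hjk, hJ, hJ, Matrix.of_apply]
    ring
  rwa [e] at h3

/-- integer form of the generators -/
def Sandwich_eps (c a b : Fin 3) : ℤ :=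
  ![![![0, 0, 0], ![0, 0, 1], ![0, -1, 0]], ![![0, 0, -1], ![0, 0, 0], ![1, 0, 0]],
    ![![0, 1, 0], ![-1, 0, 0], ![0, 0, 0]]] c a b

/-- integer form of the signs -/
def Sandwich_sg (h : Fin 4) (a : Fin 3) : ℤ :=
  if a.succ = 0 ∨ h = 0 ∨ a.succ = h then 1 else -1

theorem Sandwich_idZ : ∀ (h : Fin 4) (a b a' b' : Fin 3),
    (if a = a' then 1 else 0) * (if b = b' then 1 else 0) +
      ∑ c, Sandwich_sg h c * (Sandwich_eps c a a' * Sandwich_eps c b b') =
    ∑ c, (Sandwich_eps c a b * Sandwich_sg h b) * (Sandwich_eps c a' b' * Sandwich_sg h b') +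
      ((if a = b then 1 else 0) * Sandwich_sg h b) *
        ((if a' = b' then 1 else 0) * Sandwich_sg h b') := by
  decide

theorem Sandwich_id (h : Fin 4) (a b a' b' : Fin 3) :
    (1 : Matrix (Fin 3) (Fin 3) ℝ) a a' * (1 : Matrix (Fin 3) (Fin 3) ℝ) b b' +
      ∑ c, sg h c * (Lm c a a' * Lm c b b') =
    ∑ c, (Lm c a b * sg h b) * (Lm c a' b' * sg h b') +
      ((1 : Matrix (Fin 3) (Fin 3) ℝ) a b * sg h b) *
        ((1 : Matrix (Fin 3) (Fin 3) ℝ) a' b' * sg h b') := by
  have h1 : ∀ c a b, Lm c a b = (Sandwich_eps c a b : ℝ) := by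
    intro c a b
    fin_cases c <;> fin_cases a <;> fin_cases b <;> simp [Lm, Sandwich_eps]
  have h2 : ∀ a, sg h a = (Sandwich_sg h a : ℝ) := by
    intro a
    unfold sg chi Sandwich_sg
    split_ifs <;> simp
  have h3 : ∀ a b : Fin 3, (1 : Matrix (Fin 3) (Fin 3) ℝ) a b =
      ((if a = b then 1 else 0 : ℤ) : ℝ) := by
    intro a b
    rw [Matrix.one_apply]
    split_ifs <;> simp
  simp only [h1, h2, h3]
  exact_mod_cast Sandwich_idZ h a b a' b'

theorem Sandwich_bond {n : ℕ} {j k : Fin n} (hjk : j ≠ k) (h : Fin 4) :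
    (1 + ∑ a : Fin 3, sg h a • (site j (Lm a) * site k (Lm a)) :
      Matrix (Cfg n) (Cfg n) ℝ).PosSemidef := by
  have h1 := (Matrix.posSemidef_sum (s := Finset.univ) fun (c : Fin 3) _ =>
    Sandwich_rank hjk fun a b => Lm c a b * sg h b).add
    (Sandwich_rank hjk fun a b => (1 : Matrix (Fin 3) (Fin 3) ℝ) a b * sg h b)
  have e1 : (1 : Matrix (Cfg n) (Cfg n) ℝ) =
      tens (fun i => if i = j then 1 else if i = k then 1 else 1) := by
    rw [← tens_one]
    congr 1
    funext i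
    simp
  refine Eq.mpr (congrArg Matrix.PosSemidef ?_) h1
  ext s t
  have := congrArg (· * ∏ i ∈ (Finset.univ.erase j).erase k,
    (1 : Matrix (Fin 3) (Fin 3) ℝ) (s i) (t i)) (Sandwich_id h (s j) (s k) (t j) (t k))
  simp only [add_mul, Finset.sum_mul] at this
  rw [Matrix.add_apply, Matrix.sum_apply, e1, Sandwich_entry hjk, Matrix.add_apply,
    Matrix.sum_apply]
  simp only [Matrix.smul_apply, site_mul_site hjk, Sandwich_entry hjk, smul_eq_mul,
    Matrix.of_apply, ← mul_assoc] at this ⊢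
  exact this

theorem Hr_eigenvalue_le (n : ℕ) (hn : 2 ≤ n) (h : Fin 4) (i : Cfg n) :
    (Hr_isHermitian n hn h).eigenvalues i ≤ n := by
  have hb : ∀ j : Fin n, bsg h j = sg (if j.val + 1 = n then h else 0) := by
    intro j
    funext a
    unfold bsg
    split_ifs
    · rfl
    · simp [sg, chi]
  have h1 := Matrix.posSemidef_sum (s := Finset.univ) fun (j : Fin n) _ =>
    Sandwich_bond (finRotate_ne hn j) (if j.val + 1 = n then h else 0)
  have e : (∑ j : Fin n, (1 + ∑ a : Fin 3, sg (if j.val + 1 = n then h else 0) a •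
      (site j (Lm a) * site (finRotate n j) (Lm a)) : Matrix (Cfg n) (Cfg n) ℝ)) =
      (n : ℝ) • 1 - Hr n h := by
    rw [Finset.sum_add_distrib, Hr, sub_neg_eq_add]
    simp only [hb, Finset.sum_const, Finset.card_univ, Fintype.card_fin, Nat.cast_smul_eq_nsmul]
  rw [e] at h1
  have hA := Hr_isHermitian n hn h
  have h2 := h1.dotProduct_mulVec_nonneg (hA.eigenvectorBasis i).ofLp
  rw [Matrix.sub_mulVec, hA.mulVec_eigenvectorBasis, Matrix.smul_mulVec, Matrix.one_mulVec,
    ← sub_smul, dotProduct_smul, smul_eq_mul] at h2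
  have h3 : star (hA.eigenvectorBasis i).ofLp ⬝ᵥ (hA.eigenvectorBasis i).ofLp = 1 := by
    have := hA.eigenvectorBasis.orthonormal.1 i
    rw [dotProduct_comm, ← EuclideanSpace.inner_eq_star_dotProduct, real_inner_self_eq_norm_sq,
      this]
    norm_num
  rw [h3] at h2
  linarith

theorem Sandwich_spec {ι : Type} [Fintype ι] [DecidableEq ι] {A : Matrix ι ι ℝ}
    (hA : A.IsHermitian) (d : ι → ℝ) (hd : ∀ s, |d s| ≤ 1) :
    ∃ c : ι → ℝ, (∀ i, |c i| ≤ 1) ∧
      (∀ b : ℝ, trace (diagonal d * NormedSpace.exp (b • A)) =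
        ∑ i, c i * Real.exp (b * hA.eigenvalues i)) ∧
      (∀ q : Polynomial ℝ, trace (diagonal d * Polynomial.aeval A q) =
        ∑ i, c i * q.eval (hA.eigenvalues i)) ∧
      ∀ q : Polynomial ℝ, trace (Polynomial.aeval A q) = ∑ i, q.eval (hA.eigenvalues i) := by
  obtain ⟨U, hU⟩ : ∃ U : Matrix ι ι ℝ, U = hA.eigenvectorUnitary := ⟨_, rfl⟩
  have h1 : U * star U = 1 := by
    rw [hU]
    exact Unitary.coe_mul_star_self _
  have h1' : star U * U = 1 := by
    rw [hU]
    exact Unitary.coe_star_mul_self _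
  have h2 : U⁻¹ = star U := Matrix.inv_eq_right_inv h1
  have h3 : IsUnit U := (Matrix.isUnit_iff_isUnit_det U).2 (Matrix.isUnit_det_of_right_inverse h1)
  have h4 : A = U * diagonal hA.eigenvalues * U⁻¹ := by
    have := hA.spectral_theorem
    rw [Unitary.conjStarAlgAut_apply] at this
    rw [h2, hU]
    exact this
  have htr : ∀ f : ι → ℝ, trace (diagonal d * (U * diagonal f * U⁻¹)) =
      ∑ i, (star U * diagonal d * U) i i * f i := by
    intro f
    rw [h2, ← Matrix.mul_assoc, Matrix.trace_mul_comm, ← Matrix.mul_assoc, ← Matrix.mul_assoc]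
    simp only [Matrix.trace, Matrix.diag, mul_diagonal]
  have hpow : ∀ k : ℕ, A ^ k = U * diagonal (fun i => hA.eigenvalues i ^ k) * U⁻¹ := by
    intro k
    induction k with
    | zero => simp [h2, h1]
    | succ k ih =>
      have e : diagonal (fun i => hA.eigenvalues i ^ (k + 1)) =
          diagonal (fun i => hA.eigenvalues i ^ k) * diagonal hA.eigenvalues := by
        rw [diagonal_mul_diagonal]; simp only [pow_succ]
      have e2 : U * diagonal (fun i => hA.eigenvalues i ^ k) * U⁻¹ *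
          (U * diagonal hA.eigenvalues * U⁻¹) =
          U * diagonal (fun i => hA.eigenvalues i ^ k) * (U⁻¹ * U) *
            diagonal hA.eigenvalues * U⁻¹ := by
        simp only [Matrix.mul_assoc]
      rw [pow_succ, ih, e, ← Matrix.mul_assoc U]
      refine Eq.trans (congrArg _ h4) ?_
      rw [e2, h2, h1', Matrix.mul_one]
  have hq : ∀ q : Polynomial ℝ, Polynomial.aeval A q =
      U * diagonal (fun i => q.eval (hA.eigenvalues i)) * U⁻¹ := by
    intro q
    induction q using Polynomial.induction_on' with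
    | add p q hp hq =>
      rw [map_add, hp, hq, ← Matrix.add_mul, ← Matrix.mul_add, diagonal_add]
      simp only [Polynomial.eval_add]
    | monomial k a =>
      rw [Polynomial.aeval_monomial, hpow, Algebra.algebraMap_eq_smul_one, smul_mul_assoc,
        Matrix.one_mul, ← Matrix.smul_mul, ← Matrix.mul_smul, ← diagonal_smul]
      simp only [Polynomial.eval_monomial]
      rfl
  refine ⟨fun i => (star U * diagonal d * U) i i, fun i => ?_, fun b => ?_, fun q => ?_,
    fun q => ?_⟩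
  · have e1 : (star U * diagonal d * U) i i = ∑ s, d s * U s i ^ 2 := by
      rw [Matrix.mul_apply]
      refine Finset.sum_congr rfl fun s _ => ?_
      rw [mul_diagonal, Matrix.star_apply, star_trivial]; ring
    have e2 : ∑ s, U s i ^ 2 = 1 := by
      have := congrFun (congrFun h1' i) i
      rw [Matrix.mul_apply, Matrix.one_apply_eq] at this
      rw [← this]
      refine Finset.sum_congr rfl fun s _ => ?_
      rw [Matrix.star_apply, star_trivial]; ring
    simp only [e1]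
    refine (Finset.abs_sum_le_sum_abs _ _).trans (le_trans (Finset.sum_le_sum fun s _ => ?_) e2.le)
    rw [abs_mul, abs_of_nonneg (sq_nonneg (U s i))]
    exact mul_le_of_le_one_left (sq_nonneg _) (hd s)
  · have h5 : b • A = U * diagonal (b • hA.eigenvalues) * U⁻¹ := by
      rw [diagonal_smul, Matrix.mul_smul, Matrix.smul_mul, ← h4]
    rw [h5, Matrix.exp_conj _ _ h3, Matrix.exp_diagonal, htr]
    refine Finset.sum_congr rfl fun i _ => ?_
    rw [Pi.coe_exp, ← Real.exp_eq_exp_ℝ]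
    rfl
  · rw [hq, htr]
  · rw [hq, Matrix.trace_conj h3, trace_diagonal]

theorem Sandwich_pt {p y δ η : ℝ} (hδ0 : 0 ≤ δ) (hδ : δ ≤ 1 / 2) (hη : 0 < η) (hy : 0 ≤ y)
    (h : |p - y| ≤ δ * (1 + y)) :
    |y ^ 2 - p ^ 2| ≤ (η + 3 * δ) * y ^ 2 + (δ ^ 2 / η + 2 * δ ^ 2) := by
  have h1 : 2 * δ * y ≤ η * y ^ 2 + δ ^ 2 / η := by
    have e : η * y ^ 2 + δ ^ 2 / η - 2 * δ * y = (η * y - δ) ^ 2 / η := by
      field_simp; ring
    have : 0 ≤ (η * y - δ) ^ 2 / η := by positivity
    linarith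
  have e : y ^ 2 - p ^ 2 = -(2 * y * (p - y)) - (p - y) ^ 2 := by ring
  have h2 : |2 * y * (p - y)| ≤ 2 * y * (δ * (1 + y)) := by
    rw [abs_mul, abs_of_nonneg (by positivity : 0 ≤ 2 * y)]
    exact mul_le_mul_of_nonneg_left h (by positivity)
  have h3 : (p - y) ^ 2 ≤ (δ * (1 + y)) ^ 2 := by
    rw [← sq_abs]; exact pow_le_pow_left₀ (abs_nonneg _) h 2
  have h4 : (δ * (1 + y)) ^ 2 ≤ 2 * δ ^ 2 + 2 * δ ^ 2 * y ^ 2 := by
    nlinarith [mul_nonneg (sq_nonneg δ) (sq_nonneg (y - 1))]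
  have h5 : 2 * δ ^ 2 * y ^ 2 ≤ δ * y ^ 2 := by
    have : 2 * δ ^ 2 ≤ δ := by nlinarith
    exact mul_le_mul_of_nonneg_right this (sq_nonneg y)
  have h6 := abs_le.1 h2
  rw [e, abs_le]
  constructor <;> nlinarith [sq_nonneg (p - y)]

theorem moment_sandwich (n : ℕ) (hn : 2 ≤ n) (h : Fin 4) (p : Polynomial ℝ)
    (lo δ η T0 Zup err : ℝ)
    (hδ0 : 0 ≤ δ) (hδ : δ ≤ 1 / 2) (hη : 0 < η) (hη1 : η + 3 * δ < 1)
    (hT : trace (Gr n 0 * Polynomial.aeval (Hr n h) (p ^ 2)) ≤ T0)
    (hlo : ∀ E : ℝ, E < lo → T0 < p.eval E ^ 2)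
    (happ : ∀ E : ℝ, lo ≤ E → E ≤ n → |p.eval E - Real.exp (-(7 / 2) * (E + n * ev))| ≤
      δ * (1 + Real.exp (-(7 / 2) * (E + n * ev))))
    (hZ : T0 + (δ ^ 2 / η + 2 * δ ^ 2) * 3 ^ n ≤ (1 - η - 3 * δ) * Zup)
    (herr : (η + 3 * δ) * Zup + (δ ^ 2 / η + 2 * δ ^ 2) * 3 ^ n ≤ err) (g : Fin 4) :
    |Zf 7 n g h * Real.exp (-(7 * ev)) ^ n -
      trace (Gr n g * Polynomial.aeval (Hr n h) (p ^ 2))| ≤ err := by
  have hA := Hr_isHermitian n hn h
  obtain ⟨c, hc, hexp, hq, hq1⟩ := Sandwich_spec hA (fun s : Cfg n => ∏ j, sg g (s j)) (by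
    intro s
    rw [Finset.abs_prod]
    refine Finset.prod_le_one (fun j _ => abs_nonneg _) fun j _ => ?_
    unfold sg chi
    split_ifs <;> simp)
  have h1 : Gr n 0 = 1 := by
    rw [Gr, ← diagonal_one]
    congr 1
    funext s
    simp [sg, chi]
  rw [h1, Matrix.one_mul, hq1] at hT
  simp only [Polynomial.eval_pow] at hT
  set y : Cfg n → ℝ := fun i => Real.exp (-(7 / 2) * (hA.eigenvalues i + n * ev)) with hy
  have hpt : ∀ i, |y i ^ 2 - p.eval (hA.eigenvalues i) ^ 2| ≤
      (η + 3 * δ) * y i ^ 2 + (δ ^ 2 / η + 2 * δ ^ 2) := by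
    intro i
    refine Sandwich_pt hδ0 hδ hη (Real.exp_pos _).le (happ _ ?_ (Hr_eigenvalue_le n hn h i))
    by_contra hlt
    have h2 := hlo _ (not_le.1 hlt)
    have h3 := Finset.single_le_sum (f := fun i => p.eval (hA.eigenvalues i) ^ 2)
      (fun i _ => sq_nonneg _) (Finset.mem_univ i)
    linarith
  have hsum := Finset.sum_le_sum (s := Finset.univ) fun i _ => hpt i
  rw [Finset.sum_add_distrib, ← Finset.mul_sum, Finset.sum_const, Finset.card_univ,
    Fintype.card_fun, Fintype.card_fin, Fintype.card_fin, nsmul_eq_mul] at hsum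
  push_cast at hsum
  have h2 : ∑ i, y i ^ 2 - ∑ i, p.eval (hA.eigenvalues i) ^ 2 ≤
      ∑ i, |y i ^ 2 - p.eval (hA.eigenvalues i) ^ 2| := by
    rw [← Finset.sum_sub_distrib]
    exact Finset.sum_le_sum fun i _ => le_abs_self _
  have h3 : ∑ i, y i ^ 2 ≤ Zup := by
    have h4 : (1 - η - 3 * δ) * ∑ i, y i ^ 2 ≤ (1 - η - 3 * δ) * Zup := by linarith
    exact le_of_mul_le_mul_left h4 (by linarith)
  have e1 : Zf 7 n g h * Real.exp (-(7 * ev)) ^ n = ∑ i, c i * y i ^ 2 := by
    rw [Zf, Gr, hexp, Finset.sum_mul]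
    refine Finset.sum_congr rfl fun i _ => ?_
    simp only [hy]
    rw [mul_assoc, ← Real.exp_nat_mul, ← Real.exp_nat_mul, ← Real.exp_add]
    congr 2
    push_cast
    ring
  rw [e1, Gr, hq, ← Finset.sum_sub_distrib]
  simp only [Polynomial.eval_pow]
  refine (Finset.abs_sum_le_sum_abs _ _).trans (le_trans (Finset.sum_le_sum
    (g := fun i => |y i ^ 2 - p.eval (hA.eigenvalues i) ^ 2|) fun i _ => ?_) ?_)
  · rw [← mul_sub, abs_mul]
    exact mul_le_of_le_one_left (abs_nonneg _) (hc i)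
  · have h4 : (η + 3 * δ) * ∑ i, y i ^ 2 ≤ (η + 3 * δ) * Zup :=
      mul_le_mul_of_nonneg_left h3 (by linarith)
    linarith

end Vale.Agent.P348
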