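import Vale.Agent.P348.Orbit
import Vale.Agent.P348.KCode

/-! Symmetries of polynomials in the Hamiltonian, and the three trace formulas. -/

namespace Vale.Agent.P348

open Matrix Filter Topology

theorem SymS_aeval {ι : Type} [Fintype ι] [DecidableEq ι] (H : Matrix ι ι ℝ) (τ : ι ≃ ι)
    (σ : ι → ℝ) (hσ : ∀ s, σ s * σ s = 1) (h : ∀ s t, H (τ s) (τ t) = σ s * σ t * H s t)
    (p : Polynomial ℝ) (s t : ι) :
    Polynomial.aeval H p (τ s) (τ t) = σ s * σ t * Polynomial.aeval H p s t := by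
  have hk : ∀ (k : ℕ) (s t : ι), (H ^ k) (τ s) (τ t) = σ s * σ t * (H ^ k) s t := by
    intro k
    induction k with
    | zero =>
      intro s t
      by_cases hst : s = t
      · simp [hst, hσ]
      · simp [hst]
    | succ k ih =>
      intro s t
      rw [pow_succ, Matrix.mul_apply, Matrix.mul_apply, ← τ.sum_comp, Finset.mul_sum]
      refine Finset.sum_congr rfl fun u _ => ?_
      rw [ih, h]
      linear_combination σ s * σ t * (H ^ k) s u * H u t * hσ u
  induction p using Polynomial.induction_on' with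
  | add p q hp hq => rw [map_add, Matrix.add_apply, Matrix.add_apply, hp, hq, mul_add]
  | monomial k a =>
    rw [Polynomial.aeval_monomial, ← Algebra.smul_def, Matrix.smul_apply, Matrix.smul_apply, hk,
      smul_eq_mul, smul_eq_mul]
    ring

theorem SymS_symm {ι : Type} [Fintype ι] [DecidableEq ι] {H : Matrix ι ι ℝ} (h : H.IsSymm)
    (p : Polynomial ℝ) : (Polynomial.aeval H p).IsSymm := by
  induction p using Polynomial.induction_on' with
  | add p q hp hq => rw [map_add]; exact hp.add hq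
  | monomial k a => rw [Polynomial.aeval_monomial, ← Algebra.smul_def]; exact (h.pow k).smul a

variable {n : ℕ}

/-- the interaction on one bond -/
noncomputable def SymS_bd (j k : Fin n) (c : ℝ) : Matrix (Cfg n) (Cfg n) ℝ :=
  site j Zm * site k Zm + c • (site j Up * site k Dn + site j Dn * site k Up)

theorem SymS_Hs (tw : Bool) : Hs n tw = ∑ j, SymS_bd j (finRotate n j) (tsg tw j) := rfl

theorem SymS_bd_comm {j k : Fin n} (h : j ≠ k) (c : ℝ) : SymS_bd j k c = SymS_bd k j c := by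
  unfold SymS_bd
  rw [site_comm h, site_comm h Up, site_comm h Dn, add_comm (site k Dn * _)]

theorem SymS_site_sub (e : Equiv.Perm (Fin n)) (f : Equiv.Perm (Fin 3)) (j : Fin n)
    (A : Matrix (Fin 3) (Fin 3) ℝ) :
    (site j A).submatrix (e.symm.arrowCongr f) (e.symm.arrowCongr f) =
      site (e j) (A.submatrix f f) := by
  ext s t
  simp only [site, submatrix_apply, of_apply, Equiv.arrowCongr_apply, Equiv.symm_symm,
    Function.comp_apply]
  refine Fintype.prod_equiv e _ _ fun i => ?_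
  by_cases h : i = j
  · simp [h]
  · simp [h, Matrix.one_apply]

theorem SymS_bd_sub (e : Equiv.Perm (Fin n)) (f : Equiv.Perm (Fin 3)) (j k : Fin n) (c : ℝ) :
    (SymS_bd j k c).submatrix (e.symm.arrowCongr f) (e.symm.arrowCongr f) =
      site (e j) (Zm.submatrix f f) * site (e k) (Zm.submatrix f f) +
        c • (site (e j) (Up.submatrix f f) * site (e k) (Dn.submatrix f f) +
          site (e j) (Dn.submatrix f f) * site (e k) (Up.submatrix f f)) := by
  simp only [← SymS_site_sub, submatrix_mul_equiv]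
  rfl

theorem SymS_Hs_perm (e : Equiv.Perm (Fin n)) (tw : Bool) (s t : Cfg n) :
    Hs n tw (e.symm.arrowCongr (Equiv.refl _) s) (e.symm.arrowCongr (Equiv.refl _) t) =
      ∑ j, SymS_bd (e j) (e (finRotate n j)) (tsg tw j) s t := by
  rw [SymS_Hs, Matrix.sum_apply]
  exact Finset.sum_congr rfl fun j _ =>
    congrFun (congrFun (SymS_bd_sub e (Equiv.refl _) j (finRotate n j) (tsg tw j)) s) t

/-- `M` has the sign `ε` under conjugation by the diagonal matrix of `σ` -/
def SymS_sg (σ : Cfg n → ℝ) (M : Matrix (Cfg n) (Cfg n) ℝ) (ε : ℝ) : Prop :=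
  ∀ s t, σ s * σ t * M s t = ε * M s t

theorem SymS_sg_mul {σ : Cfg n → ℝ} (hσ : ∀ s, σ s * σ s = 1) {M N : Matrix (Cfg n) (Cfg n) ℝ}
    {ε ε' : ℝ} (h : SymS_sg σ M ε) (h' : SymS_sg σ N ε') : SymS_sg σ (M * N) (ε * ε') := by
  intro s t
  rw [Matrix.mul_apply, Finset.mul_sum, Finset.mul_sum]
  refine Finset.sum_congr rfl fun u _ => ?_
  linear_combination (σ u * σ t * N u t) * h s u + ε * M s u * h' u t -
    σ s * σ t * M s u * N u t * hσ u

theorem SymS_sg_site (d : Fin 3 → ℝ) (hd : ∀ a, d a * d a = 1) (o j : Fin n)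
    {A : Matrix (Fin 3) (Fin 3) ℝ} {ε : ℝ} (h : ∀ a b, d a * d b * A a b = ε * A a b) :
    SymS_sg (fun s => d (s o)) (site j A) (if j = o then ε else 1) := by
  intro s t
  simp only [site, of_apply]
  rw [← Finset.mul_prod_erase _ _ (Finset.mem_univ o), ← mul_assoc, ← mul_assoc]
  congr 1
  by_cases hj : j = o
  · rw [if_pos hj, if_pos hj.symm, h]
  · rw [if_neg hj, if_neg (Ne.symm hj)]
    by_cases hs : s o = t o
    · rw [hs, hd]
    · simp [hs]

theorem aeval_Hs_rot (n : ℕ) (hn : 3 ≤ n) (tw : Bool) (p : Polynomial ℝ) :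
    ∃ σ : Cfg n → ℝ, (∀ s, σ s * σ s = 1) ∧ (∀ s, σ (flp s) = σ s) ∧
    ∀ s t : Cfg n, Polynomial.aeval (Hs n tw) p (fun j => s (finRotate n j))
      (fun j => t (finRotate n j)) = σ s * σ t * Polynomial.aeval (Hs n tw) p s t := by
  obtain ⟨m, rfl⟩ : ∃ m, n = m + 1 := ⟨n - 1, by omega⟩
  set ε : ℝ := if tw = true then -1 else 1 with hε
  set d : Fin 3 → ℝ := ![ε, 1, ε] with hd
  have hεε : ε * ε = 1 := by rw [hε]; split_ifs <;> norm_num
  have hdd : ∀ a, d a * d a = 1 := fun a => by fin_cases a <;> simp [hd, hεε]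
  refine ⟨fun s => d (s 0), fun s => hdd _, fun s => ?_, ?_⟩
  · change d (s 0).rev = d (s 0)
    generalize s 0 = a
    fin_cases a <;> rfl
  refine SymS_aeval _ ((finRotate (m + 1)).symm.arrowCongr (Equiv.refl _)) _ (fun s => hdd _)
    (fun s t => ?_) p
  have hZ : ∀ j, SymS_sg (fun s => d (s 0)) (site j Zm) (if j = (0 : Fin (m + 1)) then 1 else 1) :=
    fun j => SymS_sg_site d hdd 0 j fun a b => by
      fin_cases a <;> fin_cases b <;> simp [Zm, hd, hεε]
  have hU : ∀ j, SymS_sg (fun s => d (s 0)) (site j Up) (if j = (0 : Fin (m + 1)) then ε else 1) :=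
    fun j => SymS_sg_site d hdd 0 j fun a b => by
      fin_cases a <;> fin_cases b <;> simp [Up, hd]
  have hD : ∀ j, SymS_sg (fun s => d (s 0)) (site j Dn) (if j = (0 : Fin (m + 1)) then ε else 1) :=
    fun j => SymS_sg_site d hdd 0 j fun a b => by
      fin_cases a <;> fin_cases b <;> simp [Dn, hd]
  have h1 : ∀ j : Fin (m + 1), (if finRotate (m + 1) j = 0 then ε else 1) = tsg tw j := by
    intro j
    have h2 : finRotate (m + 1) j = 0 ↔ j.val + 1 = m + 1 := by
      rw [← finRotate_last, (finRotate (m + 1)).apply_eq_iff_eq, Fin.ext_iff, Fin.val_last]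
      omega
    simp only [h2, tsg, hε]
    cases tw <;> simp
  have h2 : ∀ j : Fin (m + 1), tsg tw j * tsg tw j = 1 := fun j => by
    unfold tsg; split_ifs <;> norm_num
  rw [SymS_Hs_perm, SymS_Hs, Matrix.sum_apply, Finset.mul_sum]
  refine Fintype.sum_equiv (finRotate (m + 1)) _ _ fun j => ?_
  generalize hk : finRotate (m + 1) j = k
  have h3 := SymS_sg_mul (fun s => hdd _) (hZ k) (hZ (finRotate (m + 1) k)) s t
  have h4 := SymS_sg_mul (fun s => hdd _) (hU k) (hD (finRotate (m + 1) k)) s t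
  have h5 := SymS_sg_mul (fun s => hdd _) (hD k) (hU (finRotate (m + 1) k)) s t
  rw [ite_self, ite_self] at h3
  rw [h1 k, ← hk, h1 j, hk] at h4 h5
  simp only [SymS_bd, Matrix.add_apply, Matrix.smul_apply, smul_eq_mul]
  linear_combination -h3 - tsg tw k * h4 - tsg tw k * h5 - tsg tw j *
    ((site k Up * site (finRotate (m + 1) k) Dn) s t +
      (site k Dn * site (finRotate (m + 1) k) Up) s t) * h2 k

theorem aeval_Hs_rev (n : ℕ) (hn : 3 ≤ n) (tw : Bool) (p : Polynomial ℝ) (s t : Cfg n) :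
    Polynomial.aeval (Hs n tw) p (fun j => s j.rev) (fun j => t j.rev) =
      Polynomial.aeval (Hs n tw) p s t := by
  have h := SymS_aeval (Hs n tw) (Fin.revPerm.symm.arrowCongr (Equiv.refl _)) (fun _ => 1)
    (fun _ => one_mul _) (fun s t => ?_) p s t
  · rw [one_mul, one_mul] at h
    exact h
  rw [one_mul, one_mul, SymS_Hs_perm, SymS_Hs, Matrix.sum_apply]
  refine Fintype.sum_equiv ((finRotate n).trans Fin.revPerm) _ _ fun j => ?_
  obtain ⟨m, rfl⟩ : ∃ m, n = m + 1 := ⟨n - 1, by omega⟩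
  have h1 : finRotate (m + 1) (finRotate (m + 1) j).rev = j.rev ∧
      (((finRotate (m + 1) j).rev.val + 1 = m + 1) ↔ j.val + 1 = m + 1) := by
    have hj := j.2
    simp only [Fin.ext_iff, coe_finRotate, Fin.val_rev, Fin.val_last]
    split_ifs <;> omega
  have h2 : tsg tw (finRotate (m + 1) j).rev = tsg tw j := by simp only [tsg, h1.2]
  simp only [Equiv.trans_apply, Fin.revPerm_apply]
  rw [h1.1, h2, SymS_bd_comm]
  exact fun h3 => finRotate_ne (by omega) j (Fin.rev_injective h3)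

theorem aeval_Hs_flp (n : ℕ) (hn : 3 ≤ n) (tw : Bool) (p : Polynomial ℝ) (s t : Cfg n) :
    Polynomial.aeval (Hs n tw) p (flp s) (flp t) = Polynomial.aeval (Hs n tw) p s t := by
  have _ := hn
  have h := SymS_aeval (Hs n tw) ((Equiv.refl (Fin n)).symm.arrowCongr Fin.revPerm) (fun _ => 1)
    (fun _ => one_mul _) (fun s t => ?_) p s t
  · rw [one_mul, one_mul] at h
    exact h
  have hZ : Zm.submatrix Fin.revPerm Fin.revPerm = -Zm := by
    ext a b; fin_cases a <;> fin_cases b <;> simp [Zm, Fin.rev]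
  have hU : Up.submatrix Fin.revPerm Fin.revPerm = Dn := by
    ext a b; fin_cases a <;> fin_cases b <;> simp [Up, Dn, Fin.rev]
  have hD : Dn.submatrix Fin.revPerm Fin.revPerm = Up := by
    ext a b; fin_cases a <;> fin_cases b <;> simp [Up, Dn, Fin.rev]
  rw [one_mul, one_mul, SymS_Hs, Matrix.sum_apply, Matrix.sum_apply]
  refine Finset.sum_congr rfl fun j _ => ?_
  have h1 := SymS_bd_sub (Equiv.refl (Fin n)) Fin.revPerm j (finRotate n j) (tsg tw j)
  rw [hZ, hU, hD, site_neg, site_neg, neg_mul_neg, add_comm (site _ Dn * _)] at h1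
  exact congrFun (congrFun h1 s) t

theorem SymS_flp_flp (s : Cfg n) : flp (flp s) = s := funext fun j => Fin.rev_rev (s j)

theorem SymS_dsm_flp (s : Cfg n) : dsm (flp s) + dsm s = 2 * n := by
  unfold dsm flp
  rw [← Finset.sum_add_distrib, Finset.sum_congr rfl (g := fun _ => 2) fun j _ => ?_]
  · simp [mul_comm]
  · have := (s j).2
    rw [Fin.val_rev]; omega

theorem SymS_wsum_congr {φ ψ : ℕ → ℝ} {l : List (ℕ × ℕ)} (c : ℝ)
    (h : ∀ p ∈ l, φ p.1 = c * ψ p.1) : wsum φ l = c * wsum ψ l := by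
  unfold wsum
  rw [← List.sum_map_mul_left]
  exact congrArg List.sum (List.map_congr_left fun p hp => by rw [h p hp]; ring)

theorem SymS_wsum_sub (φ ψ : ℕ → ℝ) (l : List (ℕ × ℕ)) :
    wsum (fun c => φ c / 2 - ψ c) l = wsum φ l / 2 - wsum ψ l := by
  unfold wsum
  induction l with
  | nil => simp
  | cons p l ih => simp only [List.map_cons, List.sum_cons, ih]; ring

theorem SymS_sq (hn : 3 ≤ n) (tw : Bool) (cf : List (ℕ × ℕ)) (s s' : Cfg n) :
    Polynomial.aeval (Hs n tw) (pl (cfZ cf) ^ 2) s s' = ∑ t, RM n tw cf t s * RM n tw cf t s' := by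
  rw [map_pow, sq, Matrix.mul_apply]
  refine Finset.sum_congr rfl fun t _ => ?_
  rw [(SymS_symm (Hs_isSymm n (by omega) tw) _).apply t s]
  rfl

theorem SymS_phi1 (hn : 3 ≤ n) (tw : Bool) (cf : List (ℕ × ℕ)) (c : ℕ) :
    Polynomial.aeval (Hs n tw) (pl (cfZ cf) ^ 2) (dec n c) (dec n c) = phi1 n tw cf c := by
  rw [SymS_sq hn]
  simp only [phi1, sq]

theorem SymS_phi2 (hn : 3 ≤ n) (tw : Bool) (cf : List (ℕ × ℕ)) (c : ℕ) :
    Polynomial.aeval (Hs n tw) (pl (cfZ cf) ^ 2) (flp (dec n c)) (dec n c) =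
      phi2 n tw cf c / 2 - phi1 n tw cf c := by
  have h1 : ∑ t, RM n tw cf (flp t) (dec n c) ^ 2 = phi1 n tw cf c :=
    Fintype.sum_bijective flp (Function.Involutive.bijective SymS_flp_flp) _ _ fun _ => rfl
  have h2 : ∀ t, RM n tw cf t (flp (dec n c)) = RM n tw cf (flp t) (dec n c) := fun t => by
    have := aeval_Hs_flp n hn tw (pl (cfZ cf)) (flp t) (dec n c)
    rwa [SymS_flp_flp] at this
  have h3 : phi2 n tw cf c = phi1 n tw cf c +
      2 * ∑ t, RM n tw cf (flp t) (dec n c) * RM n tw cf t (dec n c) +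
      ∑ t, RM n tw cf (flp t) (dec n c) ^ 2 := by
    rw [phi2, phi1, Finset.mul_sum, ← Finset.sum_add_distrib, ← Finset.sum_add_distrib]
    exact Finset.sum_congr rfl fun t _ => by ring
  simp only [SymS_sq hn, h2]
  rw [h3, h1]
  ring

theorem SymS_orbit (hn : 3 ≤ n) (tw : Bool) (p : Polynomial ℝ) (g : Fin 3 → ℝ)
    (hg : ∀ a, g a.rev = g a) :
    ∑ s : Cfg n, (∏ j, g (s j)) * Polynomial.aeval (Hs n tw) p s s =
      ∑ q ∈ Finset.range (n + 1), wsum (fun c => (∏ j, g (dec n c j)) *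
        Polynomial.aeval (Hs n tw) p (dec n c) (dec n c)) (repL n q) := by
  obtain ⟨σ, h1, -, h3⟩ := aeval_Hs_rot n hn tw p
  refine orbit_sum n (by omega) _ (fun s => ?_) (fun s => ?_) fun s => ?_
  · rw [h3, h1, one_mul, Equiv.prod_comp (finRotate n) fun j => g (s j)]
  · rw [aeval_Hs_rev n hn]
    exact congrArg (· * _) (Equiv.prod_comp Fin.revPerm fun j => g (s j))
  · rw [aeval_Hs_flp n hn]
    simp only [flp, hg]

theorem trace_G0 (n : ℕ) (hn : 3 ≤ n) (tw : Bool) (cf : List (ℕ × ℕ)) :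
    trace (Gs n 0 * Polynomial.aeval (Hs n tw) (pl (cfZ cf) ^ 2)) =
      ∑ q ∈ Finset.range (n + 1), wsum (phi1 n tw cf) (repL n q) := by
  have h := SymS_orbit hn tw (pl (cfZ cf) ^ 2) (fun _ => 1) fun _ => rfl
  simp only [Finset.prod_const_one, one_mul, SymS_phi1 hn] at h
  have h0 : Gs n 0 = 1 := tens_one
  rw [h0, Matrix.one_mul]
  exact h

theorem SymS_trace (M Q : Matrix (Cfg n) (Cfg n) ℝ) (τ : Cfg n → Cfg n) (a : Cfg n → ℝ)
    (h : ∀ s t, M s t = if t = τ s then a s else 0) :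
    trace (M * Q) = ∑ s, a s * Q (τ s) s := by
  simp [Matrix.trace, Matrix.mul_apply, h]

theorem SymS_tens (A : Matrix (Fin 3) (Fin 3) ℝ) (f : Fin 3 → Fin 3) (g : Fin 3 → ℝ)
    (h : ∀ a b, A a b = if b = f a then g a else 0) (s t : Cfg n) :
    tens (fun _ => A) s t = if t = fun j => f (s j) then ∏ j, g (s j) else 0 := by
  simp only [tens, of_apply, h]
  rw [Finset.prod_ite_zero]
  simp [funext_iff]

theorem trace_G3 (n : ℕ) (hn : 3 ≤ n) (tw : Bool) (cf : List (ℕ × ℕ)) :
    trace (Gs n 3 * Polynomial.aeval (Hs n tw) (pl (cfZ cf) ^ 2)) =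
      ∑ q ∈ Finset.range (n + 1), (-1) ^ (n + q) * wsum (phi1 n tw cf) (repL n q) := by
  rw [Gs, SymS_trace _ _ _ _ (SymS_tens (gS 3) id (fun a => (-1) ^ (1 + a.val)) fun a b => by
    fin_cases a <;> fin_cases b <;> simp [gS, pow_succ])]
  refine (SymS_orbit hn tw _ (fun a => (-1) ^ (1 + a.val)) fun a => by
    fin_cases a <;> norm_num [Fin.rev]).trans (Finset.sum_congr rfl fun q _ => ?_)
  refine SymS_wsum_congr _ fun p hp => ?_
  rw [SymS_phi1 hn, Finset.prod_pow_eq_pow_sum, Finset.sum_add_distrib,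
    ← (mem_secL n q p.1 (mem_repL n q p hp)).2]
  simp [dsm]

theorem trace_G1 (n : ℕ) (hn : 3 ≤ n) (tw : Bool) (cf : List (ℕ × ℕ)) :
    trace (Gs n 1 * Polynomial.aeval (Hs n tw) (pl (cfZ cf) ^ 2)) =
      (-1) ^ n * (wsum (phi2 n tw cf) (repL n n) / 2 - wsum (phi1 n tw cf) (repL n n)) := by
  rw [Gs, SymS_trace _ _ _ _ (SymS_tens (gS 1) Fin.rev (fun _ => -1) fun a b => by
    fin_cases a <;> fin_cases b <;> simp [gS, Fin.rev])]
  simp only [Finset.prod_const, Finset.card_univ, Fintype.card_fin]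
  rw [← Finset.mul_sum]
  congr 1
  obtain ⟨σ, h1, h2, h3⟩ := aeval_Hs_rot n hn tw (pl (cfZ cf) ^ 2)
  refine (orbit_sum n (by omega)
    (fun s => Polynomial.aeval (Hs n tw) (pl (cfZ cf) ^ 2) (flp s) s) (fun s => ?_) (fun s => ?_)
    fun s => aeval_Hs_flp n hn tw _ _ _).trans ?_
  · exact (h3 (flp s) s).trans (by rw [h2, h1, one_mul])
  · exact aeval_Hs_rev n hn tw _ (flp s) s
  rw [Finset.sum_range_succ, Finset.sum_eq_zero, zero_add, ← SymS_wsum_sub]
  · simp only [SymS_phi2 hn]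
  intro q hq
  rw [SymS_wsum_congr (ψ := fun _ => 0) 0, zero_mul]
  intro p hp
  rw [zero_mul]
  refine aeval_Hs_charge n tw _ _ _ fun h => ?_
  have h4 := SymS_dsm_flp (dec n p.1)
  have h5 := (mem_secL n q p.1 (mem_repL n q p hp)).2
  have h6 := Finset.mem_range.1 hq
  omega

end Vale.Agent.P348
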