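import Vale.Agent.P348.KCore
import Vale.Agent.P348.KRun
import Vale.Agent.P348.SymS
import Vale.Agent.P348.Sandwich
import Vale.Agent.P348.PolyOK
import Vale.Agent.P348.Basis

/-! From the kernel runs to enclosures of the partition functions of small rings. -/

namespace Vale.Agent.P348

open Matrix

theorem wsum_append (φ : ℕ → ℝ) (a b : List (ℕ × ℕ)) : wsum φ (a ++ b) = wsum φ a + wsum φ b := by
  simp [wsum]

/-- the weighted sum over the lanes `ch` is determined by the number `v` -/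
def Cov (φ : ℕ → ℝ) (n q w : ℕ) (ch : List (ℕ × ℕ)) (v : ℕ) : Prop :=
  (∀ p ∈ ch, p.1 ∈ secL n q 0 []) → wsum φ ch =
    ((ch.map Prod.snd).sum : ℕ) * ((secL n q 0 []).length : ℝ) * (2 ^ (w - 1)) ^ 2 - v

theorem Cov.nil (φ : ℕ → ℝ) (n q w : ℕ) : Cov φ n q w [] 0 := by
  intro _
  simp [wsum]

theorem Cov.app {φ : ℕ → ℝ} {n q w : ℕ} {a b : List (ℕ × ℕ)} {u v : ℕ} (ha : Cov φ n q w a u)
    (hb : Cov φ n q w b v) : Cov φ n q w (a ++ b) (u + v) := by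
  intro h
  rw [wsum_append, ha fun p hp => h p (List.mem_append_left _ hp),
    hb fun p hp => h p (List.mem_append_right _ hp), List.map_append, List.sum_append]
  push_cast
  ring

theorem Cov.one (n m : ℕ) (hn : n = m + 1) (hm : 1 ≤ m) {tw : Bool} {q mask w : ℕ} (hw : 1 ≤ w)
    {cf ch : List (ℕ × ℕ)} {v : ℕ} (hside : sideOK n w mask cf ch = true)
    (hv : sumL (fun s => sqF w ch (finalX m tw mask w cf ch s)) (secL n q 0 []) = v) :
    Cov (phi1 n tw cf) n q w ch v := by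
  subst hn
  exact fun h => run_sound1 m hm tw q mask w hw cf ch v hside h hv

theorem Cov.two (n m top : ℕ) (hn : n = m + 1) (ht : top = 3 ^ n - 1) (hm : 1 ≤ m) {tw : Bool}
    {mask w : ℕ} (hw : 1 ≤ w) {cf ch : List (ℕ × ℕ)} {v : ℕ} (hside : sideOK n w mask cf ch = true)
    (hv : sumL (fun s => sqF w ch (Nat.add (finalX m tw mask w cf ch s)
      (finalX m tw mask w cf ch (Nat.sub top s)))) (secL n n 0 []) = v) :
    Cov (phi2 n tw cf) n n w ch v := by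
  subst hn ht
  exact fun h => run_sound2 m hm tw mask w hw cf ch v hside h hv

theorem Cov.val {φ : ℕ → ℝ} {n q w : ℕ} {ch : List (ℕ × ℕ)} {v D W : ℕ} (S : ℕ)
    (h : Cov φ n q w ch v) (hc : beqP (repL n q) ch = true) (hD : (secL n q 0 []).length = D)
    (hW : (ch.map Prod.snd).sum = W) (hS : S + v = W * D * (2 ^ (w - 1)) ^ 2) :
    wsum φ (repL n q) = S := by
  have e := beqP_eq _ _ hc
  have h1 := h fun p hp => mem_repL n q p (e ▸ hp)
  have h2 : (S : ℝ) + v = W * D * (2 ^ (w - 1)) ^ 2 := by exact_mod_cast hS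
  rw [e, h1, hD, hW]
  linarith

theorem mom_scale (n : ℕ) (g : Fin 4) (tw : Bool) (cf : List (ℕ × ℕ)) (lam : ℕ) :
    trace (Gr n g * Polynomial.aeval (Hr n (twOf tw))
      ((Polynomial.C ((lam : ℝ)⁻¹) * pl (cfZ cf)) ^ 2)) =
      trace (Gs n g * Polynomial.aeval (Hs n tw) (pl (cfZ cf) ^ 2)) / (lam : ℝ) ^ 2 := by
  rw [trace_poly_basis, mul_pow, ← Polynomial.C_pow, ← Polynomial.smul_eq_C_mul, map_smul,
    Matrix.mul_smul, trace_smul, smul_eq_mul, inv_pow, div_eq_inv_mul]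

/-- the normalised partition function at inverse temperature `7` -/
noncomputable def zn (n : ℕ) (g h : Fin 4) : ℝ := Zf 7 n g h * Real.exp (-(7 * ev)) ^ n

theorem mom_of_T (n : ℕ) (hn : 2 ≤ n) (tw : Bool) {cf : List (ℕ × ℕ)} {lam : ℕ} {lo δ T0 : ℝ}
    (hg : PolyGood n cf lam lo δ T0) (η Zup err : ℝ) (hδ0 : 0 ≤ δ) (hδ : δ ≤ 1 / 2) (hη : 0 < η)
    (hη1 : η + 3 * δ < 1)
    (hZ : T0 + (δ ^ 2 / η + 2 * δ ^ 2) * 3 ^ n ≤ (1 - η - 3 * δ) * Zup)
    (herr : (η + 3 * δ) * Zup + (δ ^ 2 / η + 2 * δ ^ 2) * 3 ^ n ≤ err) {T Tg : ℝ}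
    (hT : trace (Gs n 0 * Polynomial.aeval (Hs n tw) (pl (cfZ cf) ^ 2)) = T)
    (hT0 : T / (lam : ℝ) ^ 2 ≤ T0) {g : Fin 4}
    (hTg : trace (Gs n g * Polynomial.aeval (Hs n tw) (pl (cfZ cf) ^ 2)) = Tg) (a e : ℝ)
    (h1 : Tg / (lam : ℝ) ^ 2 + err ≤ a + e) (h2 : a - e ≤ Tg / (lam : ℝ) ^ 2 - err) :
    a - e ≤ zn n g (twOf tw) ∧ zn n g (twOf tw) ≤ a + e := by
  have h := moment_sandwich n hn (twOf tw) _ lo δ η T0 Zup err hδ0 hδ hη hη1
    (by rw [mom_scale, hT]; exact hT0) hg.1 hg.2 hZ herr g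
  rw [mom_scale, hTg, abs_le] at h
  unfold zn
  constructor <;> linarith [h.1, h.2]

end Vale.Agent.P348
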