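import Vale.Agent.P348.GapOf

/-! A variational bound from an isometric matrix product state. -/

namespace Vale.Agent.P348

open Matrix Filter Topology

def qS (a b c d : Fin 3) : ℝ := Zm a c * Zm b d + (Up a c * Dn b d + Dn a c * Up b d)

noncomputable def mpsH {D : ℕ} (A : Fin 3 → Matrix (Fin D) (Fin D) ℝ) : Matrix (Fin D) (Fin D) ℝ :=
  ∑ a, ∑ b, ∑ c, ∑ d, qS a b c d • ((A a * A b)ᵀ * (A c * A d))

section
variable {D : ℕ} (A : Fin 3 → Matrix (Fin D) (Fin D) ℝ)

/-- the transfer map with the one-site operator `O` inserted -/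
def MpsT (O : Matrix (Fin 3) (Fin 3) ℝ) : Module.End ℝ (Matrix (Fin D) (Fin D) ℝ) where
  toFun Z := ∑ a, ∑ c, O a c • ((A a)ᵀ * Z * A c)
  map_add' X Y := by simp only [Matrix.mul_add, Matrix.add_mul, smul_add, Finset.sum_add_distrib]
  map_smul' r X := by
    simp only [Matrix.mul_smul, Matrix.smul_mul, RingHom.id_apply, Finset.smul_sum, smul_comm r]

theorem MpsT_apply (O : Matrix (Fin 3) (Fin 3) ℝ) (Z : Matrix (Fin D) (Fin D) ℝ) :
    MpsT A O Z = ∑ a, ∑ c, O a c • ((A a)ᵀ * Z * A c) := rfl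

theorem MpsT_one (Z : Matrix (Fin D) (Fin D) ℝ) : MpsT A 1 Z = ∑ a, (A a)ᵀ * Z * A a := by
  simp [MpsT_apply, Matrix.one_apply]

def MpsW {N : ℕ} (s : Cfg N) : Matrix (Fin D) (Fin D) ℝ := (List.ofFn fun j => A (s j)).prod

def MpsPhi (N : ℕ) : Matrix (Cfg N) (Cfg N) ℝ →ₗ[ℝ] Matrix (Fin D) (Fin D) ℝ where
  toFun O := ∑ s, ∑ t, O s t • ((MpsW A s)ᵀ * MpsW A t)
  map_add' X Y := by simp only [Matrix.add_apply, add_smul, Finset.sum_add_distrib]
  map_smul' r X := by
    simp only [Matrix.smul_apply, smul_eq_mul, mul_smul, RingHom.id_apply, Finset.smul_sum]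

theorem MpsPhi_apply {N : ℕ} (O : Matrix (Cfg N) (Cfg N) ℝ) :
    MpsPhi A N O = ∑ s, ∑ t, O s t • ((MpsW A s)ᵀ * MpsW A t) := rfl

def MpsRun (O : ℕ → Matrix (Fin 3) (Fin 3) ℝ) : ℕ → Matrix (Fin D) (Fin D) ℝ
  | 0 => 1
  | n + 1 => MpsT A (O n) (MpsRun O n)

theorem Mps_sum_snoc {M : Type} [AddCommMonoid M] {N : ℕ} (f : Cfg (N + 1) → M) :
    ∑ s, f s = ∑ a : Fin 3, ∑ s : Cfg N, f (Fin.snoc (α := fun _ => Fin 3) s a) := by
  rw [← (Fin.snocEquiv fun _ => Fin 3).sum_comp, Fintype.sum_prod_type]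
  rfl

theorem MpsW_snoc {N : ℕ} (s : Cfg N) (a : Fin 3) :
    MpsW A (Fin.snoc (α := fun _ => Fin 3) s a) = MpsW A s * A a := by
  simp [MpsW, List.ofFn_succ', -List.ofFn_succ]

theorem MpsPhi_tens (O : ℕ → Matrix (Fin 3) (Fin 3) ℝ) (N : ℕ) :
    MpsPhi A N (tens fun i => O i) = MpsRun A O N := by
  induction N with
  | zero => simp [MpsPhi_apply, MpsRun, MpsW, tens]
  | succ N ih =>
    rw [MpsRun, ← ih, MpsPhi_apply, MpsPhi_apply, MpsT_apply, Mps_sum_snoc]
    refine Finset.sum_congr rfl fun a _ => ?_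
    simp only [Mps_sum_snoc (N := N), MpsW_snoc, tens, Matrix.of_apply, Fin.prod_univ_castSucc,
      Fin.snoc_castSucc, Fin.snoc_last, Fin.val_castSucc, Fin.val_last, Matrix.mul_sum,
      Matrix.sum_mul, Finset.smul_sum, Matrix.mul_smul, Matrix.smul_mul, smul_smul,
      Matrix.transpose_mul, Matrix.mul_assoc]
    rw [Finset.sum_comm]
    refine Finset.sum_congr rfl fun c _ => Finset.sum_congr rfl fun s _ =>
      Finset.sum_congr rfl fun t _ => ?_
    rw [mul_comm]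

theorem MpsRun_skip (O : ℕ → Matrix (Fin 3) (Fin 3) ℝ) (a m : ℕ)
    (h : ∀ i, a ≤ i → i < a + m → O i = 1) :
    MpsRun A O (a + m) = (MpsT A 1 ^ m) (MpsRun A O a) := by
  induction m with
  | zero => simp
  | succ m ih =>
    rw [← add_assoc, MpsRun, h _ (by omega) (by omega), ih fun i h1 h2 => h i h1 (by omega),
      pow_succ', Module.End.mul_apply]

variable {A}

theorem Mps_pow_one (hA : ∑ a, (A a)ᵀ * A a = 1) (k : ℕ) : (MpsT A 1 ^ k) 1 = 1 := by
  induction k with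
  | zero => simp
  | succ k ih => rw [pow_succ', Module.End.mul_apply, ih, MpsT_one]; simpa using hA

theorem MpsPhi_two (hA : ∑ a, (A a)ᵀ * A a = 1) {N : ℕ} {j k : Fin N} (hjk : j < k)
    (P Q : Matrix (Fin 3) (Fin 3) ℝ) : MpsPhi A N (site j P * site k Q) =
      (MpsT A 1 ^ (N - 1 - k)) (MpsT A Q ((MpsT A 1 ^ (k - j - 1 : ℕ)) (MpsT A P 1))) := by
  have h0 : (j : ℕ) < k := hjk
  have h1 := k.2
  let O : ℕ → Matrix (Fin 3) (Fin 3) ℝ := fun i => if i = j then P else if i = k then Q else 1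
  have e : site j P * site k Q = tens fun i : Fin N => O i := by
    rw [site_mul_site hjk.ne]
    simp only [O, Fin.val_inj]
  have e1 : MpsRun A O j = 1 := by
    have := MpsRun_skip A O 0 j fun i _ h => by
      simp only [O]; rw [if_neg (by omega), if_neg (by omega)]
    rw [zero_add] at this
    rw [this, MpsRun, Mps_pow_one hA]
  have e2 := MpsRun_skip A O (j + 1) (k - j - 1) fun i _ h => by
    simp only [O]; rw [if_neg (by omega), if_neg (by omega)]
  have e3 := MpsRun_skip A O (k + 1) (N - 1 - k) fun i _ h => by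
    simp only [O]; rw [if_neg (by omega), if_neg (by omega)]
  rw [show (j : ℕ) + 1 + (k - j - 1) = k by omega, MpsRun, e1] at e2
  rw [show (k : ℕ) + 1 + (N - 1 - k) = N by omega, MpsRun, e2] at e3
  rw [e, MpsPhi_tens, e3]
  simp only [O, if_true, if_neg h0.ne']

theorem Mps_bound (hA : ∑ a, (A a)ᵀ * A a = 1) (f : Matrix (Fin D) (Fin D) ℝ →ₗ[ℝ] ℝ)
    (Z : Matrix (Fin D) (Fin D) ℝ) : ∃ C : ℝ, ∀ k, |f ((MpsT A 1 ^ k) Z)| ≤ C := by
  obtain ⟨c, hc⟩ : ∃ c : ℝ, ∀ x y : Fin D → ℝ, x ⬝ᵥ Z *ᵥ y ≤ c * (x ⬝ᵥ x + y ⬝ᵥ y) := by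
    refine ⟨∑ i, ∑ j, |Z i j|, fun x y => ?_⟩
    have hx : ∀ (x : Fin D → ℝ) i, x i * x i ≤ x ⬝ᵥ x := fun x i =>
      Finset.single_le_sum (f := fun i => x i * x i) (fun i _ => mul_self_nonneg _)
        (Finset.mem_univ i)
    simp only [Finset.sum_mul]
    rw [dotProduct]
    refine Finset.sum_le_sum fun i _ => ?_
    rw [Matrix.mulVec, dotProduct, Finset.mul_sum]
    refine Finset.sum_le_sum fun j _ => ?_
    have h1 := hx x i
    have h2 := hx y j
    have h3 : |x i * y j| ≤ x ⬝ᵥ x + y ⬝ᵥ y := by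
      rw [abs_le]; constructor <;> nlinarith [sq_nonneg (x i + y j), sq_nonneg (x i - y j)]
    calc x i * (Z i j * y j) = Z i j * (x i * y j) := by ring
      _ ≤ |Z i j| * |x i * y j| := by rw [← abs_mul]; exact le_abs_self _
      _ ≤ _ := mul_le_mul_of_nonneg_left h3 (abs_nonneg _)
  have h1 : ∀ k, ∀ x y : Fin D → ℝ, x ⬝ᵥ (MpsT A 1 ^ k) Z *ᵥ y ≤ c * (x ⬝ᵥ x + y ⬝ᵥ y) := by
    intro k
    induction k with
    | zero => simpa using hc
    | succ k ih =>
      intro x y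
      have h2 : ∀ x : Fin D → ℝ, ∑ a, (A a *ᵥ x) ⬝ᵥ (A a *ᵥ x) = x ⬝ᵥ x := fun x => by
        rw [show x ⬝ᵥ x = x ⬝ᵥ (∑ a, (A a)ᵀ * A a) *ᵥ x by rw [hA, Matrix.one_mulVec],
          Matrix.sum_mulVec, dotProduct_sum]
        refine Finset.sum_congr rfl fun a _ => ?_
        rw [← Matrix.mulVec_mulVec, Matrix.dotProduct_mulVec x, Matrix.vecMul_transpose]
      rw [pow_succ', Module.End.mul_apply, MpsT_one, Matrix.sum_mulVec, dotProduct_sum, ← h2 x,
        ← h2 y, ← Finset.sum_add_distrib, Finset.mul_sum]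
      refine Finset.sum_le_sum fun a _ => ?_
      rw [← Matrix.mulVec_mulVec, ← Matrix.mulVec_mulVec, Matrix.dotProduct_mulVec x,
        Matrix.vecMul_transpose]
      exact ih _ _
  refine ⟨∑ i, ∑ j, 2 * c * |f (Matrix.single i j 1)|, fun k => ?_⟩
  have h3 := h1 k
  generalize (MpsT A 1 ^ k) Z = X at h3
  have h4 : X = ∑ i, ∑ j, X i j • Matrix.single i j (1 : ℝ) := by
    conv_lhs => rw [Matrix.matrix_eq_sum_single X]
    simp
  rw [h4]
  simp only [map_sum, map_smul, smul_eq_mul]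
  refine (Finset.abs_sum_le_sum_abs _ _).trans (Finset.sum_le_sum fun i _ =>
    (Finset.abs_sum_le_sum_abs _ _).trans (Finset.sum_le_sum fun j _ => ?_))
  rw [abs_mul]
  refine mul_le_mul_of_nonneg_right ?_ (abs_nonneg _)
  have h5 := h3 (Pi.single i 1) (Pi.single j 1)
  have h6 := h3 (Pi.single i 1) (Pi.single j (-1))
  simp at h5 h6
  rw [abs_le]; constructor <;> linarith

theorem Mps_psd {X : Matrix (Fin D) (Fin D) ℝ} (h : X.PosSemidef) (k : ℕ) :
    ((MpsT A 1 ^ k) X).PosSemidef := by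
  induction k with
  | zero => simpa using h
  | succ k ih =>
    rw [pow_succ', Module.End.mul_apply, MpsT_one]
    exact posSemidef_sum _ fun a _ => by
      simpa [Matrix.conjTranspose_eq_transpose_of_trivial] using
        ih.conjTranspose_mul_mul_same (A a)

theorem MpsPhi_psd {N : ℕ} {O : Matrix (Cfg N) (Cfg N) ℝ} (h : O.PosSemidef) :
    0 ≤ trace (MpsPhi A N O) := by
  have e : trace (MpsPhi A N O) = ∑ α, ∑ β, (fun s => MpsW A s β α) ⬝ᵥ
      O *ᵥ fun s => MpsW A s β α := by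
    simp only [MpsPhi_apply, Matrix.trace, Matrix.diag, Matrix.sum_apply, Matrix.smul_apply,
      Matrix.mul_apply, Matrix.transpose_apply, smul_eq_mul, dotProduct, Matrix.mulVec,
      Finset.mul_sum]
    refine Finset.sum_congr rfl fun α _ => ?_
    rw [Finset.sum_comm (s := Finset.univ (α := Fin D))]
    refine Finset.sum_congr rfl fun s _ => ?_
    rw [Finset.sum_comm]
    exact Finset.sum_congr rfl fun _ _ => Finset.sum_congr rfl fun _ _ => by ring
  rw [e]
  exact Finset.sum_nonneg fun α _ => Finset.sum_nonneg fun β _ => by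
    simpa using h.dotProduct_mulVec_nonneg fun s => MpsW A s β α

theorem Mps_bond : MpsT A Zm (MpsT A Zm 1) + (MpsT A Dn (MpsT A Up 1) + MpsT A Up (MpsT A Dn 1)) =
    mpsH A := by
  have h : ∀ P Q : Matrix (Fin 3) (Fin 3) ℝ, MpsT A Q (MpsT A P 1) =
      ∑ a, ∑ b, ∑ c, ∑ d, (P a c * Q b d) • ((A a * A b)ᵀ * (A c * A d)) := fun P Q => by
    simp only [MpsT_apply, Matrix.mul_sum, Matrix.sum_mul, Finset.smul_sum, Matrix.mul_smul,
      Matrix.smul_mul, smul_smul, Matrix.transpose_mul, Matrix.mul_assoc, Matrix.one_mul]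
    rw [Finset.sum_comm (s := Finset.univ) (t := Finset.univ)
      (f := fun a b => ∑ c, ∑ d, (P a c * Q b d) • ((A b)ᵀ * ((A a)ᵀ * (A c * A d))))]
    refine Finset.sum_congr rfl fun b _ => ?_
    rw [Finset.sum_comm]
    refine Finset.sum_congr rfl fun a _ => ?_
    rw [Finset.sum_comm]
    exact Finset.sum_congr rfl fun _ _ => Finset.sum_congr rfl fun _ _ => by rw [mul_comm]
  simp only [h, mpsH, qS, add_smul, Finset.sum_add_distrib]

end

theorem Mps_min {n : Type} [Fintype n] [DecidableEq n] [Nonempty n] {H : Matrix n n ℝ}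
    (hH : H.IsHermitian) : ∃ i, (H - hH.eigenvalues i • (1 : Matrix n n ℝ)).PosSemidef := by
  obtain ⟨i, -, hi⟩ := Finset.exists_min_image Finset.univ hH.eigenvalues Finset.univ_nonempty
  refine ⟨i, ?_⟩
  obtain ⟨U, hU⟩ : ∃ U : Matrix n n ℝ, U = hH.eigenvectorUnitary := ⟨_, rfl⟩
  have h1 : U * Uᴴ = 1 := by rw [hU]; exact Unitary.coe_mul_star_self _
  have h4 : H = U * diagonal hH.eigenvalues * Uᴴ := by
    have := hH.spectral_theorem
    rw [Unitary.conjStarAlgAut_apply] at this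
    rw [hU]
    exact this
  generalize hH.eigenvalues = v at *
  have h5 : H - v i • (1 : Matrix n n ℝ) = U * diagonal (fun j => v j - v i) * Uᴴ := by
    rw [← diagonal_sub, Matrix.mul_sub, Matrix.sub_mul, ← h4, ← smul_one_eq_diagonal,
      Matrix.mul_smul, Matrix.smul_mul, Matrix.mul_one, h1]
  rw [h5]
  exact (PosSemidef.diagonal fun j =>
    sub_nonneg.2 (hi j (Finset.mem_univ j))).mul_mul_conjTranspose_same U

theorem variational_of_mps {D : ℕ} (hD : 0 < D) (A : Fin 3 → Matrix (Fin D) (Fin D) ℝ)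
    (Y : Matrix (Fin D) (Fin D) ℝ) (e : ℝ) (hA : ∑ a, (A a)ᵀ * A a = 1)
    (hY : ((-e) • (1 : Matrix (Fin D) (Fin D) ℝ) + Y - ∑ a, (A a)ᵀ * Y * A a - mpsH A).PosSemidef) :
    ∃ C : ℝ, ∀ N : ℕ, 2 ≤ N → ∀ β : ℝ, 0 ≤ β →
      Real.exp (β * (N * e - C)) ≤ trace (NormedSpace.exp (-β • Hs N false)) := by
  obtain ⟨c0, h0⟩ := Mps_bound hA (traceLinearMap _ ℝ ℝ) Y
  obtain ⟨c1, h1⟩ := Mps_bound hA (traceLinearMap _ ℝ ℝ ∘ₗ MpsT A Zm) (MpsT A Zm 1)
  obtain ⟨c2, h2⟩ := Mps_bound hA (traceLinearMap _ ℝ ℝ ∘ₗ MpsT A Up) (MpsT A Dn 1)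
  obtain ⟨c3, h3⟩ := Mps_bound hA (traceLinearMap _ ℝ ℝ ∘ₗ MpsT A Dn) (MpsT A Up 1)
  simp only [LinearMap.comp_apply, traceLinearMap_apply, abs_le] at h0 h1 h2 h3
  have hD' : (0 : ℝ) < D := by exact_mod_cast hD
  refine ⟨e + (2 * c0 + c1 + c2 + c3) / D, fun N hN β hβ => ?_⟩
  have hH : (Hs N false).IsHermitian := by
    have := Hs_isSymm N hN false
    unfold Matrix.IsHermitian
    rwa [Matrix.conjTranspose_eq_transpose_of_trivial]
  obtain ⟨i, hi⟩ := Mps_min hH
  have step : ∀ k, trace ((MpsT A 1 ^ k) (mpsH A)) ≤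
      -e * D + (trace ((MpsT A 1 ^ k) Y) - trace ((MpsT A 1 ^ (k + 1)) Y)) := fun k => by
    have := (Mps_psd (A := A) hY k).trace_nonneg
    rw [← MpsT_one, map_sub, map_sub, map_add, map_smul, Mps_pow_one hA, ← Module.End.mul_apply,
      ← pow_succ] at this
    simp only [trace_sub, trace_add, trace_smul, trace_one, Fintype.card_fin, smul_eq_mul] at this
    linarith
  obtain ⟨n, rfl⟩ : ∃ n, N = n + 2 := ⟨N - 2, by omega⟩
  have e1 : MpsPhi A (n + 2) 1 = 1 := by
    have := MpsRun_skip A (fun _ => 1) 0 (n + 2) fun _ _ _ => rfl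
    rw [zero_add, MpsRun, Mps_pow_one hA] at this
    rw [← tens_one, MpsPhi_tens A (fun _ => 1), this]
  have e2 : trace (MpsPhi A (n + 2) (Hs (n + 2) false)) =
      ∑ j ∈ Finset.range (n + 1), trace ((MpsT A 1 ^ j) (mpsH A)) +
      (trace (MpsT A Zm ((MpsT A 1 ^ n) (MpsT A Zm 1))) +
        (trace (MpsT A Up ((MpsT A 1 ^ n) (MpsT A Dn 1))) +
          trace (MpsT A Dn ((MpsT A 1 ^ n) (MpsT A Up 1))))) := by
    rw [Hs, map_sum, trace_sum, Fin.sum_univ_castSucc, ← Finset.sum_range_reflect,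
      Finset.sum_range]
    congr 1
    · refine Finset.sum_congr rfl fun j _ => ?_
      have hj : finRotate (n + 2) j.castSucc = j.succ := by
        rw [finRotate_apply]; exact Fin.coeSucc_eq_succ
      have hlt : j.castSucc < j.succ := Fin.castSucc_lt_succ
      simp only [hj, tsg, Bool.false_eq_true, false_and, if_false, one_smul, map_add,
        MpsPhi_two hA hlt, Fin.val_succ, Fin.val_castSucc, Nat.add_sub_cancel_left, Nat.sub_self,
        pow_zero, Module.End.one_apply, ← Mps_bond]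
      rw [show n + 2 - 1 - (j + 1 : ℕ) = n + 1 - 1 - j by omega]
    · have hlt : (0 : Fin (n + 2)) < Fin.last (n + 1) := Fin.last_pos
      simp only [finRotate_last, tsg, Bool.false_eq_true, false_and, if_false, one_smul, map_add,
        site_comm hlt.ne', MpsPhi_two hA hlt, trace_add]
      simp
  have e3 := MpsPhi_psd (A := A) hi
  rw [map_sub, map_smul, e1, trace_sub, trace_smul, trace_one, Fintype.card_fin, e2,
    smul_eq_mul] at e3
  have e4 := Finset.sum_le_sum fun k (_ : k ∈ Finset.range (n + 1)) => step k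
  rw [Finset.sum_add_distrib, Finset.sum_range_sub', Finset.sum_const, Finset.card_range,
    nsmul_eq_mul] at e4
  have e5 : hH.eigenvalues i * D ≤ (-(((n + 2 : ℕ) : ℝ) * e - (e + (2 * c0 + c1 + c2 + c3) / D))) *
      D := by
    have := h0 0; have := h0 (n + 1); have := h1 n; have := h2 n; have := h3 n
    rw [neg_sub, sub_mul, add_mul, div_mul_cancel₀ _ hD'.ne']
    push_cast at *
    linarith
  have e6 := le_of_mul_le_mul_right e5 hD'
  rw [GapOf_trace_exp hH]
  refine le_trans (Real.exp_le_exp.2 ?_) (Finset.single_le_sum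
    (f := fun i => Real.exp (-β * hH.eigenvalues i)) (fun _ _ => (Real.exp_pos _).le)
    (Finset.mem_univ i))
  nlinarith

end Vale.Agent.P348
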