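import Vale.Agent.P348.Mps

/-! A verified checker for the hypotheses of `variational_of_mps`. -/

namespace Vale.Agent.P348

open Matrix

def mcDot : List ℤ → List ℤ → ℤ
  | a :: x, b :: y => a * b + mcDot x y
  | [], _ => 0
  | _ :: _, [] => 0

def mcMulT (X Y : List (List ℤ)) : List (List ℤ) := X.map fun x => Y.map fun y => mcDot x y

def mcAddL : List ℤ → List ℤ → List ℤ
  | [], y => y
  | a :: x, [] => a :: x
  | a :: x, b :: y => (a + b) :: mcAddL x y

def mcAdd : List (List ℤ) → List (List ℤ) → List (List ℤ)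
  | [], y => y
  | a :: x, [] => a :: x
  | a :: x, b :: y => mcAddL a b :: mcAdd x y

def mcSmul (c : ℤ) (X : List (List ℤ)) : List (List ℤ) := X.map fun x => x.map fun a => c * a

def mcEnt (X : List (List ℤ)) (i j : ℕ) : ℤ := (X.getD i []).getD j 0

noncomputable def mcM (D : ℕ) (X : List (List ℤ)) : Matrix (Fin D) (Fin D) ℝ :=
  Matrix.of fun i j => (mcEnt X i j : ℝ)

lemma mcDot_nil (x : List ℤ) : mcDot x [] = 0 := by cases x <;> rfl

lemma mcDot_eq (x : List ℤ) : ∀ (y : List ℤ) (D : ℕ), x.length ≤ D →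
    mcDot x y = ∑ k : Fin D, x.getD k 0 * y.getD k 0 := by
  induction x with
  | nil => intro y D _; simp [mcDot]
  | cons a x ih =>
    intro y D h
    cases y with
    | nil => simp [mcDot]
    | cons b y =>
      cases D with
      | zero => simp at h
      | succ D =>
        rw [Fin.sum_univ_succ, mcDot, ih y D (by simpa using h)]
        simp

lemma mcEnt_mulT (X Y : List (List ℤ)) (i j : ℕ) :
    mcEnt (mcMulT X Y) i j = mcDot (X.getD i []) (Y.getD j []) := by
  unfold mcEnt mcMulT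
  by_cases hi : i < X.length
  · by_cases hj : j < Y.length
    · simp [List.getD_eq_getElem?_getD, hi, hj]
    · simp [List.getD_eq_getElem?_getD, hi, hj, mcDot_nil]
  · simp [List.getD_eq_getElem?_getD, hi, mcDot]

lemma mcM_mulT (D : ℕ) (X Y : List (List ℤ)) (hX : ∀ x ∈ X, x.length ≤ D) :
    mcM D (mcMulT X Y) = mcM D X * (mcM D Y)ᵀ := by
  ext i j
  have h : (X.getD i []).length ≤ D := by
    by_cases hi : (i : ℕ) < X.length
    · rw [List.getD_eq_getElem _ _ hi]
      exact hX _ (List.getElem_mem hi)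
    · rw [List.getD_eq_default _ _ (not_lt.1 hi)]
      simp
  simp only [mcM, Matrix.of_apply, Matrix.mul_apply, Matrix.transpose_apply, mcEnt_mulT]
  rw [mcDot_eq _ _ D h]
  simp [mcEnt]

lemma mcAddL_getD (x : List ℤ) : ∀ (y : List ℤ) (k : ℕ),
    (mcAddL x y).getD k 0 = x.getD k 0 + y.getD k 0 := by
  induction x with
  | nil => intro y k; simp [mcAddL]
  | cons a x ih =>
    intro y k
    cases y with
    | nil => simp [mcAddL]
    | cons b y =>
      cases k with
      | zero => simp [mcAddL]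
      | succ k => simpa [mcAddL] using ih y k

lemma mcAddL_nil (x : List ℤ) : mcAddL x [] = x := by cases x <;> rfl

lemma mcAdd_getD (x : List (List ℤ)) : ∀ (y : List (List ℤ)) (k : ℕ),
    (mcAdd x y).getD k [] = mcAddL (x.getD k []) (y.getD k []) := by
  induction x with
  | nil => intro y k; simp [mcAdd, mcAddL]
  | cons a x ih =>
    intro y k
    cases y with
    | nil => simp [mcAdd, mcAddL_nil]
    | cons b y =>
      cases k with
      | zero => simp [mcAdd]
      | succ k => simpa [mcAdd] using ih y k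

lemma mcM_add (D : ℕ) (X Y : List (List ℤ)) : mcM D (mcAdd X Y) = mcM D X + mcM D Y := by
  ext i j
  simp only [mcM, Matrix.of_apply, Matrix.add_apply, mcEnt, mcAdd_getD, mcAddL_getD]
  push_cast
  rfl

lemma mcM_smul (D : ℕ) (c : ℤ) (X : List (List ℤ)) :
    mcM D (mcSmul c X) = (c : ℝ) • mcM D X := by
  ext i j
  simp only [mcM, Matrix.of_apply, Matrix.smul_apply, mcEnt, mcSmul, smul_eq_mul]
  rw [← Int.cast_mul]
  congr 1
  by_cases hi : (i : ℕ) < X.length
  · by_cases hj : (j : ℕ) < X[(i : ℕ)].length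
    · simp [List.getD_eq_getElem?_getD, hi, hj]
    · simp [List.getD_eq_getElem?_getD, hi, hj]
  · simp [List.getD_eq_getElem?_getD, hi]

lemma mc_psd {D : ℕ} (M : Matrix (Fin D) (Fin D) ℝ) (hs : ∀ i j, M i j = M j i)
    (hd : ∀ i, ∑ j, |M i j| ≤ 2 * M i i) : M.PosSemidef := by
  refine Matrix.PosSemidef.of_dotProduct_mulVec_nonneg ?_ fun x => ?_
  · ext i j
    simp [hs i j]
  · have h1 : ∀ i j, -(|M i j| * x i ^ 2 / 2) - |M j i| * x j ^ 2 / 2 +
        (if i = j then 2 * M i i * x i ^ 2 else 0) ≤ x i * (M i j * x j) := by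
      intro i j
      have hii : 0 ≤ M i i := by
        have := (Finset.sum_nonneg fun j _ => abs_nonneg (M i j)).trans (hd i)
        linarith
      split_ifs with h
      · subst h
        rw [abs_of_nonneg hii]
        linarith
      · rw [← hs i j]
        rcases abs_cases (M i j) with h2 | h2
        · rw [h2.1]
          nlinarith [mul_nonneg h2.2 (sq_nonneg (x i + x j))]
        · rw [h2.1]
          nlinarith [mul_nonneg (neg_nonneg.2 h2.2.le) (sq_nonneg (x i - x j))]
    have h2 := Finset.sum_le_sum fun i (_ : i ∈ Finset.univ) =>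
      Finset.sum_le_sum fun j (_ : j ∈ Finset.univ) => h1 i j
    simp only [Finset.sum_add_distrib, Finset.sum_sub_distrib, Finset.sum_neg_distrib,
      Finset.sum_ite_eq, Finset.mem_univ, if_true] at h2
    rw [Finset.sum_comm (f := fun i j => |M j i| * x j ^ 2 / 2)] at h2
    have h3 : ∑ i, ∑ j, |M i j| * x i ^ 2 / 2 ≤ ∑ i, M i i * x i ^ 2 := by
      refine Finset.sum_le_sum fun i _ => ?_
      rw [← Finset.sum_div, ← Finset.sum_mul]
      have := mul_le_mul_of_nonneg_right (hd i) (sq_nonneg (x i))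
      linarith
    have h4 : ∑ i, 2 * M i i * x i ^ 2 = 2 * ∑ i, M i i * x i ^ 2 := by
      rw [Finset.mul_sum]
      exact Finset.sum_congr rfl fun i _ => by ring
    simp only [dotProduct, Matrix.mulVec, star_trivial, Finset.mul_sum]
    linarith

def mcSand (P Z Q : List (List ℤ)) : List (List ℤ) := mcMulT P (mcMulT Q Z)

lemma mcM_sand (D : ℕ) (P Z Q : List (List ℤ)) (hP : ∀ x ∈ P, x.length ≤ D)
    (hQ : ∀ x ∈ Q, x.length ≤ D) :
    mcM D (mcSand P Z Q) = mcM D P * (mcM D Z * (mcM D Q)ᵀ) := by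
  rw [mcSand, mcM_mulT D _ _ hP, mcM_mulT D _ _ hQ, transpose_mul, transpose_transpose]

def mcG (P0 P1 P2 : List (List ℤ)) : List (List ℤ) :=
  mcAdd (mcAdd (mcMulT P0 P0) (mcMulT P1 P1)) (mcMulT P2 P2)

def mcLz (P0 P2 : List (List ℤ)) : List (List ℤ) :=
  mcAdd (mcMulT P2 P2) (mcSmul (-1) (mcMulT P0 P0))

def mcW (P0 P1 P2 Y2 Lz Lu Ld : List (List ℤ)) : List (List ℤ) :=
  mcAdd (mcAdd (mcAdd (mcSand P0 (mcAdd Y2 (mcSmul (-1) Lz)) P0) (mcSand P1 Y2 P1))
    (mcSand P2 (mcAdd Y2 Lz) P2))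
    (mcAdd (mcAdd (mcSand P0 Lu P1) (mcSand P1 Lu P2)) (mcAdd (mcSand P1 Ld P0) (mcSand P2 Ld P1)))

def mcN (P0 P1 P2 Y : List (List ℤ)) (c K : ℤ) : List (List ℤ) :=
  mcAdd (mcSmul (c * c * c * c) Y) (mcSmul (-1) (mcW P0 P1 P2 (mcSmul (c * c) Y)
    (mcSmul K (mcLz P0 P2))
    (mcSmul K (mcAdd (mcMulT P1 P0) (mcMulT P2 P1)))
    (mcSmul K (mcAdd (mcMulT P0 P1) (mcMulT P1 P2)))))

def mcLen (D : ℕ) (P : List (List ℤ)) : Bool := P.all fun x => decide (x.length ≤ D)

def mcIso (D : ℕ) (G : List (List ℤ)) (s : ℤ) : Bool :=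
  (List.range D).all fun i => (List.range D).all fun j =>
    decide (mcEnt G i j = if i = j then s else 0)

def mcDom (D : ℕ) (M : List (List ℤ)) (s : ℤ) : Bool :=
  (List.range D).all fun i => ((List.range D).all fun j => decide (mcEnt M i j = mcEnt M j i)) &&
    decide (((List.range D).map fun j =>
      ((mcEnt M i j - if i = j then s else 0).natAbs : ℤ)).sum ≤ 2 * (mcEnt M i i - s))

lemma mcIso_sound {D : ℕ} {G : List (List ℤ)} {s : ℤ} (h : mcIso D G s = true) :
    mcM D G = (s : ℝ) • (1 : Matrix (Fin D) (Fin D) ℝ) := by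
  ext i j
  simp only [mcIso, List.all_eq_true, List.mem_range, decide_eq_true_eq] at h
  simp only [mcM, Matrix.of_apply, h i i.2 j j.2, Matrix.smul_apply, Matrix.one_apply, Fin.ext_iff]
  split_ifs <;> simp

lemma mcDom_sound {D : ℕ} {M : List (List ℤ)} {s : ℤ} (h : mcDom D M s = true) :
    (mcM D M - (s : ℝ) • (1 : Matrix (Fin D) (Fin D) ℝ)).PosSemidef := by
  simp only [mcDom, List.all_eq_true, List.mem_range, decide_eq_true_eq, Bool.and_eq_true] at h
  apply mc_psd
  · intro i j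
    simp only [mcM, Matrix.of_apply, Matrix.sub_apply, Matrix.smul_apply, Matrix.one_apply,
      (h i i.2).1 j j.2, eq_comm (a := i)]
  · intro i
    have h1 := (h i i.2).2
    have h2 : ∀ f : ℕ → ℤ, ((List.range D).map f).sum = ∑ j : Fin D, f j := by
      intro f
      rw [Fin.sum_univ_eq_sum_range f D]
      rfl
    rw [h2] at h1
    have h3 := (Int.cast_le (R := ℝ)).2 h1
    simp only [Int.natCast_natAbs] at h3
    push_cast at h3
    simp only [mcM, Matrix.of_apply, Matrix.sub_apply, Matrix.smul_apply, Matrix.one_apply,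
      Fin.ext_iff, smul_eq_mul, mul_ite, mul_one, mul_zero, if_true]
    exact h3

theorem mc_sound (D : ℕ) (hD : 0 < D) (P0 P1 P2 Y : List (List ℤ)) (c K eK : ℤ) (e : ℝ)
    (hc : 0 < c) (hK : 0 < K) (he : e * K = eK)
    (h0 : mcLen D P0 = true) (h1 : mcLen D P1 = true) (h2 : mcLen D P2 = true)
    (hI : mcIso D (mcG P0 P1 P2) (c * c) = true)
    (hM : mcDom D (mcN P0 P1 P2 Y c K) (eK * (c * c * c * c)) = true) :
    ∃ C : ℝ, ∀ N : ℕ, 2 ≤ N → ∀ β : ℝ, 0 ≤ β →
      Real.exp (β * (N * e - C)) ≤ trace (NormedSpace.exp (-β • Hs N false)) := by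
  simp only [mcLen, List.all_eq_true, decide_eq_true_eq] at h0 h1 h2
  have hc' : (0 : ℝ) < c := by exact_mod_cast hc
  have hK' : (0 : ℝ) < K := by exact_mod_cast hK
  have hI' := mcIso_sound hI
  have hM' := mcDom_sound hM
  simp only [mcG, mcM_add, mcM_mulT D _ _ h0, mcM_mulT D _ _ h1, mcM_mulT D _ _ h2] at hI'
  simp only [mcN, mcW, mcLz, mcM_add, mcM_smul, mcM_sand D _ _ _ h0 h0, mcM_sand D _ _ _ h1 h1,
    mcM_sand D _ _ _ h2 h2, mcM_sand D _ _ _ h0 h1, mcM_sand D _ _ _ h1 h2,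
    mcM_sand D _ _ _ h1 h0, mcM_sand D _ _ _ h2 h1,
    mcM_mulT D _ _ h0, mcM_mulT D _ _ h1, mcM_mulT D _ _ h2] at hM'
  generalize mcM D P0 = Q0 at hI' hM'
  generalize mcM D P1 = Q1 at hI' hM'
  generalize mcM D P2 = Q2 at hI' hM'
  generalize mcM D Y = Z at hM'
  refine variational_of_mps hD ![(c : ℝ)⁻¹ • Q0ᵀ, (c : ℝ)⁻¹ • Q1ᵀ, (c : ℝ)⁻¹ • Q2ᵀ]
    ((K : ℝ)⁻¹ • Z) e ?_ ?_
  · simp only [Fin.sum_univ_three, Matrix.cons_val, transpose_smul, transpose_transpose,
      smul_mul_assoc, mul_smul_comm, smul_smul, ← smul_add, hI']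
    push_cast
    rw [show (c : ℝ)⁻¹ * (c : ℝ)⁻¹ * (c * c) = 1 by field_simp, one_smul]
  · have h := hM'.smul (a := ((K : ℝ) * (c * c * c * c))⁻¹) (by positivity)
    refine (congrArg Matrix.PosSemidef ?_).mp h
    have e1 : (eK : ℝ) = e * K := he.symm
    simp only [mpsH, qS, Zm, Up, Dn, Fin.sum_univ_three, Matrix.cons_val, Matrix.of_apply,
      Matrix.cons_val', Matrix.cons_val_fin_one, transpose_smul, transpose_transpose,
      transpose_mul, smul_mul_assoc, mul_smul_comm, Matrix.mul_assoc, Matrix.add_mul,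
      Matrix.mul_add, Int.cast_mul, Int.cast_neg, Int.cast_one, e1]
    match_scalars <;> field_simp <;> ring

end Vale.Agent.P348
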