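import Vale.Agent.P348.KCode

/-! Sums of invariant functions over representatives of the orbits. -/

namespace Vale.Agent.P348

open Matrix Filter Topology

open Classical in
theorem Orbit_abs {G X K : Type} [Group G] [Fintype G] [Fintype X] [DecidableEq X]
    [LinearOrder K]
    (g : G → X → X) (g1 : ∀ s, g 1 s = s) (gm : ∀ a b s, g (a * b) s = g a (g b s))
    (key : X → K) (hk : Function.Injective key) (φ : X → ℝ) (hφ : ∀ a s, φ (g a s) = φ s) :
    ∑ s, φ s = ∑ s, ((if ∀ a, key s ≤ key (g a s) then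
      Fintype.card G / ∑ a, if g a s = s then 1 else 0 else 0 : ℕ) : ℝ) * φ s := by
  let _ : MulAction G X := { smul := g, one_smul := g1, mul_smul := gm }
  have hmin : ∀ s, ∃ a, ∀ b, key (g a s) ≤ key (g b s) := fun s => by
    obtain ⟨a, -, ha⟩ := Finset.exists_min_image Finset.univ (fun a => key (g a s))
      ⟨1, Finset.mem_univ _⟩
    exact ⟨a, fun b => ha b (Finset.mem_univ _)⟩
  choose c hc using hmin
  rw [← Finset.sum_fiberwise Finset.univ (fun s => g (c s) s) φ]
  refine Finset.sum_congr rfl fun r _ => ?_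
  split_ifs with hr
  · have h1 : Finset.univ.filter (fun s => g (c s) s = r) = (MulAction.orbit G r).toFinset := by
      ext s
      simp only [Finset.mem_filter, Finset.mem_univ, true_and, Set.mem_toFinset]
      constructor
      · intro h
        refine ⟨(c s)⁻¹, ?_⟩
        change g (c s)⁻¹ r = s
        rw [← h, ← gm, inv_mul_cancel, g1]
      · rintro ⟨a, ha⟩
        have ha' : g a r = s := ha
        refine hk (le_antisymm ?_ ?_)
        · have := hc s a⁻¹
          rwa [← ha', ← gm a⁻¹, inv_mul_cancel, g1, ha'] at this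
        · have := hr (c s * a)
          rwa [gm, ha'] at this
    have h2 := MulAction.card_orbit_mul_card_stabilizer_eq_card_group G r
    have h3 : Fintype.card (MulAction.stabilizer G r) = ∑ a, if g a r = r then 1 else 0 := by
      rw [← Finset.card_filter]
      exact Fintype.card_of_subtype _ fun a => by
        simp only [Finset.mem_filter, Finset.mem_univ, true_and]
        exact Iff.rfl
    have h4 : Fintype.card G / (∑ a, if g a r = r then 1 else 0) =
        (MulAction.orbit G r).toFinset.card := by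
      rw [← h2, ← h3, Nat.mul_div_cancel _ Fintype.card_pos, Set.toFinset_card]
    rw [h1, h4, Finset.sum_congr rfl (g := fun _ => φ r), Finset.sum_const, nsmul_eq_mul]
    intro s hs
    obtain ⟨a, ha⟩ := Set.mem_toFinset.1 hs
    rw [← ha]
    exact hφ a r
  · rw [Nat.cast_zero, zero_mul]
    refine Finset.sum_eq_zero fun s hs => absurd (fun a => ?_) hr
    have h := (Finset.mem_filter.1 hs).2
    have := hc s (a * c s)
    rwa [gm, h] at this

/-- the action of the dihedral group on the sites -/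
def Orbit_pz {n : ℕ} : DihedralGroup n → ZMod n → ZMod n
  | .r i, j => j - i
  | .sr i, j => -1 - j - i

/-- the action of the dihedral group on configurations -/
def Orbit_gd {m : ℕ} (d : DihedralGroup (m + 1)) (s : Cfg (m + 1)) : Cfg (m + 1) :=
  fun j => s (Orbit_pz d j)

theorem Orbit_pz_mul {n : ℕ} (a b : DihedralGroup n) (j : ZMod n) :
    Orbit_pz (a * b) j = Orbit_pz b (Orbit_pz a j) := by
  cases a <;> cases b <;>
    simp only [DihedralGroup.r_mul_r, DihedralGroup.r_mul_sr, DihedralGroup.sr_mul_r,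
      DihedralGroup.sr_mul_sr, Orbit_pz] <;> ring

theorem Orbit_gd_mul {m : ℕ} (a b : DihedralGroup (m + 1)) (s : Cfg (m + 1)) :
    Orbit_gd (a * b) s = Orbit_gd a (Orbit_gd b s) :=
  funext fun j => congrArg s (Orbit_pz_mul a b j)

theorem Orbit_gd_one {m : ℕ} (s : Cfg (m + 1)) : Orbit_gd 1 s = s :=
  funext fun j => congrArg s (sub_zero (G := ZMod (m + 1)) j)

theorem Orbit_rot {m : ℕ} (i : ZMod (m + 1)) (s : Cfg (m + 1)) :
    Orbit_gd (.r i) s = fun j => Orbit_gd (.r (i + 1)) s (finRotate (m + 1) j) := by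
  funext j
  rw [finRotate_apply]
  exact congrArg s (add_sub_add_right_eq_sub (G := ZMod (m + 1)) j i 1).symm

theorem Orbit_rev {m : ℕ} (s : Cfg (m + 1)) : Orbit_gd (.sr 0) s = fun j => s j.rev := by
  funext j
  refine congrArg s ?_
  have h1 : ∀ a : Fin (m + 1), ((a.val : ℕ) : ZMod (m + 1)) = a := fun a =>
    ZMod.natCast_zmod_val (n := m + 1) a
  have h2 : j.rev.val + j.val + 1 = m + 1 := by
    rw [Fin.val_rev]; omega
  have h3 : (((j.rev.val + j.val + 1 : ℕ)) : ZMod (m + 1)) = 0 := by
    rw [h2]; exact ZMod.natCast_self _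
  rw [Nat.cast_add, Nat.cast_add, h1, h1, Nat.cast_one] at h3
  have h4 : ∀ a b : ZMod (m + 1), a + b + 1 = 0 → -1 - b - 0 = a := fun a b h => by
    linear_combination (-1 : ZMod (m + 1)) * h
  exact h4 _ _ h3

theorem Orbit_inv {m : ℕ} {α : Type} (φ : Cfg (m + 1) → α)
    (h1 : ∀ s, φ (fun j => s (finRotate (m + 1) j)) = φ s) (h2 : ∀ s, φ (fun j => s j.rev) = φ s)
    (d : DihedralGroup (m + 1)) (s : Cfg (m + 1)) : φ (Orbit_gd d s) = φ s := by
  have k : ∀ (i : ℕ) (s : Cfg (m + 1)), φ (Orbit_gd (.r i) s) = φ s := fun i s => by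
    induction i with
    | zero => rw [Nat.cast_zero, DihedralGroup.r_zero, Orbit_gd_one]
    | succ i ih => rw [← ih, Orbit_rot i, h1, Nat.cast_succ]
  have k' : ∀ (i : ZMod (m + 1)) (s : Cfg (m + 1)), φ (Orbit_gd (.r i) s) = φ s := fun i s => by
    rw [← ZMod.natCast_zmod_val i]
    exact k _ s
  cases d with
  | r i => exact k' i s
  | sr i =>
    have : DihedralGroup.sr i = DihedralGroup.r (-i) * DihedralGroup.sr 0 := by simp
    rw [this, Orbit_gd_mul, k', Orbit_rev, h2]

theorem Orbit_tr {m : ℕ} (t : Cfg (m + 1)) :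
    trC (3 ^ m) (code fun j => t (finRotate (m + 1) j)) = code t := by
  have h1 : (code fun j => t (finRotate (m + 1) j)) =
      code (Fin.tail t) + 3 ^ m * (t 0).val := by
    rw [code, Fin.sum_univ_castSucc, finRotate_last, Fin.val_last, mul_comm]
    refine congrArg (· + _) (Finset.sum_congr rfl fun j _ => ?_)
    rw [finRotate_apply, Fin.coeSucc_eq_succ]
    rfl
  have h2 := code_lt (Fin.tail t)
  have h3 : code t = code (Fin.tail t) * 3 + (t 0).val := by
    rw [code, code, Fin.sum_univ_succ, Finset.sum_mul, add_comm]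
    simp only [Fin.val_zero, pow_zero, mul_one, Fin.val_succ, pow_succ, mul_assoc]
    rfl
  change (code fun j => t (finRotate (m + 1) j)) % 3 ^ m * 3 +
    (code fun j => t (finRotate (m + 1) j)) / 3 ^ m = code t
  rw [h1, h3, Nat.add_mul_mod_self_left, Nat.mod_eq_of_lt h2,
    Nat.add_mul_div_left _ _ (by positivity), Nat.div_eq_of_lt h2, zero_add]

theorem Orbit_rv (n : ℕ) : ∀ (s : Cfg n) (acc : ℕ),
    rvC n (code s) acc = acc * 3 ^ n + code fun j => s j.rev := by
  induction n with
  | zero => intro s acc; simp [rvC, code]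
  | succ n ih =>
    intro s acc
    have h3 : code s = (s 0).val + 3 * code (Fin.tail s) := by
      rw [code, code, Fin.sum_univ_succ, Finset.mul_sum]
      simp only [Fin.val_zero, pow_zero, mul_one, Fin.val_succ, pow_succ]
      exact congrArg _ (Finset.sum_congr rfl fun j _ => by rw [Fin.tail]; ring)
    have h4 := (s 0).2
    have h5 : code s / 3 = code (Fin.tail s) := by omega
    have h6 : code s % 3 = (s 0).val := by omega
    have h7 : (code fun j => s j.rev) =
        (code fun j => Fin.tail s j.rev) + (s 0).val * 3 ^ n := by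
      rw [code, Fin.sum_univ_castSucc, Fin.rev_last, Fin.val_last]
      refine congrArg (· + _) (Finset.sum_congr rfl fun j _ => ?_)
      rw [Fin.rev_castSucc]
      rfl
    change rvC n (code s / 3) (acc * 3 + code s % 3) = _
    rw [h5, h6, ih, h7]
    ring

theorem Orbit_rots (F : ℕ → ℕ) (p k : ℕ) : ∀ (v : ℕ) (r : List ℕ),
    ((rots p k v r).map F).sum = ∑ i ∈ Finset.range k, F ((trC p)^[i] v) + (r.map F).sum := by
  induction k with
  | zero => intro v r; simp [rots]
  | succ k ih =>
    intro v r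
    change ((v :: rots p k (trC p v) r).map F).sum = _
    rw [List.map_cons, List.sum_cons, ih, Finset.sum_range_succ']
    simp only [Function.iterate_succ, Function.comp_apply, Function.iterate_zero, id_eq]
    ring

theorem Orbit_iter {m : ℕ} (s : Cfg (m + 1)) (i : ℕ) :
    (trC (3 ^ m))^[i] (code s) = code (Orbit_gd (.r i) s) := by
  induction i with
  | zero => rw [Nat.cast_zero, DihedralGroup.r_zero, Orbit_gd_one]; rfl
  | succ i ih => rw [Function.iterate_succ_apply', ih, Orbit_rot i, Orbit_tr, Nat.cast_succ]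

theorem Orbit_range {m : ℕ} (f : ZMod (m + 1) → ℕ) :
    ∑ i ∈ Finset.range (m + 1), f i = ∑ i, f i := by
  rw [Finset.sum_range]
  exact Finset.sum_congr rfl fun i _ => congrArg f (ZMod.natCast_zmod_val (n := m + 1) i)

theorem Orbit_orb {m : ℕ} (F : ℕ → ℕ) (s : Cfg (m + 1)) :
    ((orb (m + 1) (code s)).map F).sum = ∑ d, F (code (Orbit_gd d s)) := by
  change ((rots (3 ^ m) (m + 1) (code s) (rots (3 ^ m) (m + 1) (rvC (m + 1) (code s) 0) [])).map
    F).sum = _
  rw [Orbit_rots, Orbit_rots, Orbit_rv, zero_mul, zero_add, ← Orbit_rev]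
  simp only [Orbit_iter, List.map_nil, List.sum_nil, add_zero]
  rw [Orbit_range fun i => F (code (Orbit_gd (.r i) s)),
    Orbit_range fun i => F (code (Orbit_gd (.r i) (Orbit_gd (.sr 0) s))),
    ← Equiv.sum_comp DihedralGroup.equivSum.symm, Fintype.sum_sum_type]
  refine congrArg₂ (· + ·) rfl ?_
  rw [← Equiv.sum_comp (Equiv.neg (ZMod (m + 1)))]
  refine Finset.sum_congr rfl fun i _ => ?_
  rw [← Orbit_gd_mul, DihedralGroup.r_mul_sr, Equiv.neg_apply, sub_neg_eq_add, zero_add]
  rfl

theorem Orbit_cnt (c : ℕ) (l : List ℕ) :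
    cnt c l = (l.map fun t => if t = c then 1 else 0).sum := by
  induction l with
  | nil => rfl
  | cons t l ih =>
    change cond (Nat.beq c t) (Nat.succ (cnt c l)) (cnt c l) = _
    rw [List.map_cons, List.sum_cons, ← ih]
    by_cases h : t = c
    · subst h
      rw [Nat.beq_refl, if_pos rfl, cond_true, Nat.succ_eq_add_one, add_comm]
    · have : Nat.beq c t = false := by
        rw [← Bool.not_eq_true, Nat.beq_eq]
        exact fun h' => h h'.symm
      rw [this, if_neg h, cond_false, zero_add]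

theorem Orbit_allGe (c : ℕ) (l : List ℕ) :
    allGe c l = true ↔ (l.map fun t => if c ≤ t then 0 else 1).sum = 0 := by
  induction l with
  | nil => exact ⟨fun _ => rfl, fun _ => rfl⟩
  | cons t l ih =>
    change cond (Nat.ble c t) (allGe c l) false = true ↔ _
    rw [List.map_cons, List.sum_cons]
    by_cases h : c ≤ t
    · rw [Nat.ble_eq_true_of_le h, if_pos h, cond_true, zero_add, ih]
    · have : Nat.ble c t = false := by
        rw [← Bool.not_eq_true, Nat.ble_eq]
        exact h
      rw [this, if_neg h, cond_false]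
      simp

theorem Orbit_code_inj {n : ℕ} : Function.Injective (code (n := n)) := fun s t h => by
  rw [← dec_code s, h, dec_code]

theorem Orbit_allGe_orb {m : ℕ} (c : ℕ) (s : Cfg (m + 1)) :
    allGe c (orb (m + 1) (code s)) = true ↔ ∀ d, c ≤ code (Orbit_gd d s) := by
  rw [Orbit_allGe, Orbit_orb, Finset.sum_eq_zero_iff]
  simp

theorem Orbit_cnt_orb {m : ℕ} (t s : Cfg (m + 1)) :
    cnt (code t) (orb (m + 1) (code s)) = ∑ d, if Orbit_gd d s = t then 1 else 0 := by
  rw [Orbit_cnt, Orbit_orb]
  simp only [Orbit_code_inj.eq_iff]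

theorem Orbit_dsm_flp {n : ℕ} (s : Cfg n) : dsm (flp s) + dsm s = 2 * n := by
  rw [dsm, dsm, ← Finset.sum_add_distrib, Finset.sum_congr rfl (g := fun _ => 2)]
  · simp [mul_comm]
  · intro j _
    have := (s j).2
    rw [flp, Fin.val_rev]
    omega

theorem Orbit_dsm_gd {m : ℕ} (d : DihedralGroup (m + 1)) (s : Cfg (m + 1)) :
    dsm (Orbit_gd d s) = dsm s :=
  Orbit_inv dsm (fun s => Equiv.sum_comp (finRotate (m + 1)) fun j => (s j).val)
    (fun s => Equiv.sum_comp Fin.revPerm fun j => (s j).val) d s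

/-- the full action -/
def Orbit_g {m : ℕ} (a : DihedralGroup (m + 1) × ℤˣ) (s : Cfg (m + 1)) : Cfg (m + 1) :=
  Orbit_gd a.1 (if a.2 = 1 then s else flp s)

theorem Orbit_flp_flp {n : ℕ} (s : Cfg n) : flp (flp s) = s := funext fun j => Fin.rev_rev (s j)

theorem Orbit_g_mul {m : ℕ} (a b : DihedralGroup (m + 1) × ℤˣ) (s : Cfg (m + 1)) :
    Orbit_g (a * b) s = Orbit_g a (Orbit_g b s) := by
  obtain ⟨a, u⟩ := a
  obtain ⟨b, v⟩ := b
  have h : (-1 : ℤˣ) ≠ 1 := by decide
  have h' : ∀ t : Cfg (m + 1), flp (Orbit_gd b t) = Orbit_gd b (flp t) := fun _ => rfl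
  rcases Int.units_eq_one_or u with rfl | rfl <;> rcases Int.units_eq_one_or v with rfl | rfl <;>
    simp [Orbit_g, Orbit_gd_mul, h, h', Orbit_flp_flp]

open Classical in
theorem Orbit_repW {m : ℕ} (s : Cfg (m + 1)) :
    (if ∀ a, toLex (dsm s, code s) ≤ toLex (dsm (Orbit_g a s), code (Orbit_g a s)) then
      Fintype.card (DihedralGroup (m + 1) × ℤˣ) / ∑ a, if Orbit_g a s = s then 1 else 0 else 0 : ℕ)
      = if dsm s < m + 1 + 1 then repW (m + 1) (dsm s) (code s) else 0 := by
  have h : (-1 : ℤˣ) ≠ 1 := by decide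
  have e1 : (∀ a, toLex (dsm s, code s) ≤ toLex (dsm (Orbit_g a s), code (Orbit_g a s))) ↔
      (∀ d, code s ≤ code (Orbit_gd d s)) ∧ ∀ d, dsm s < dsm (flp s) ∨
        (dsm s = dsm (flp s) ∧ code s ≤ code (Orbit_gd d (flp s))) := by
    simp only [Prod.forall, Prod.Lex.toLex_le_toLex, Orbit_g, Orbit_dsm_gd]
    constructor
    · intro k
      refine ⟨fun d => ?_, fun d => ?_⟩
      · simpa using k d 1
      · simpa [h] using k d (-1)
    · rintro ⟨k1, k2⟩ d u
      rcases Int.units_eq_one_or u with rfl | rfl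
      · simpa using k1 d
      · simpa [h] using k2 d
  have e2 : (∑ a, if Orbit_g a s = s then 1 else 0 : ℕ) = cnt (code s) (orb (m + 1) (code s)) +
      cnt (code s) (orb (m + 1) (code (flp s))) := by
    rw [Orbit_cnt_orb, Orbit_cnt_orb, Fintype.sum_prod_type_right, UnitsInt.univ,
      Finset.sum_pair h.symm]
    simp [Orbit_g, h]
  have e3 : Fintype.card (DihedralGroup (m + 1) × ℤˣ) = (m + 1) * 4 := by
    rw [Fintype.card_prod, DihedralGroup.card, Fintype.card_units_int]; ring
  have e4 : flC (m + 1) (code s) = code (flp s) := (code_flp s).symm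
  have e5 := Orbit_dsm_flp s
  have e6 : repW (m + 1) (dsm s) (code s) = cond (allGe (code s) (orb (m + 1) (code s)))
      (cond (Nat.blt (dsm s) (m + 1)) ((m + 1) * 4 / cnt (code s) (orb (m + 1) (code s)))
        (cond (allGe (code s) (orb (m + 1) (code (flp s))))
          ((m + 1) * 4 / (cnt (code s) (orb (m + 1) (code s)) +
            cnt (code s) (orb (m + 1) (code (flp s))))) 0)) 0 := by
    rw [← e4]; rfl
  rw [e2, e3, e6]
  simp only [e1, ← Orbit_allGe_orb]
  rcases lt_trichotomy (dsm s) (m + 1) with k | k | k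
  · have k1 : dsm s < dsm (flp s) := by omega
    have k2 : cnt (code s) (orb (m + 1) (code (flp s))) = 0 := by
      rw [Orbit_cnt_orb]
      refine Finset.sum_eq_zero fun d _ => if_neg fun h' => ?_
      have := Orbit_dsm_gd d (flp s)
      rw [h'] at this
      omega
    have k3 : Nat.blt (dsm s) (m + 1) = true := Nat.blt_eq.symm ▸ k
    rw [k2, k3, if_pos (show dsm s < m + 1 + 1 by omega)]
    cases allGe (code s) (orb (m + 1) (code s)) <;> simp [k1]
  · have k1 : dsm s = dsm (flp s) := by omega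
    have k3 : Nat.blt (dsm s) (m + 1) = false := by
      rw [← Bool.not_eq_true, Nat.blt_eq]; omega
    rw [k3, if_pos (show dsm s < m + 1 + 1 by omega)]
    simp only [← k1, lt_self_iff_false, false_or, true_and, ← Orbit_allGe_orb]
    cases allGe (code s) (orb (m + 1) (code s)) <;>
      cases allGe (code s) (orb (m + 1) (code (flp s))) <;> simp
  · rw [if_neg (show ¬ dsm s < m + 1 + 1 by omega), if_neg]
    rintro ⟨-, k2⟩
    have := k2 1
    omega

theorem Orbit_wsum (φ : ℕ → ℝ) (n q : ℕ) :
    wsum φ (repL n q) = ((secL n q 0 []).map fun c => (repW n q c : ℝ) * φ c).sum := by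
  rw [repL]
  induction secL n q 0 [] with
  | nil => rfl
  | cons c l ih =>
    rw [List.map_cons, List.sum_cons, ← ih]
    by_cases h : repW n q c = 0
    · simp only [h, Nat.beq_refl, cond_true, Nat.cast_zero, zero_mul, zero_add]
    · have : Nat.beq (repW n q c) 0 = false := by
        rw [← Bool.not_eq_true, Nat.beq_eq]
        exact h
      simp only [this, cond_false, wsum, List.map_cons, List.sum_cons]

theorem orbit_sum (n : ℕ) (hn : 1 ≤ n) (φ : Cfg n → ℝ)
    (h1 : ∀ s, φ (fun j => s (finRotate n j)) = φ s)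
    (h2 : ∀ s, φ (fun j => s j.rev) = φ s) (h3 : ∀ s, φ (flp s) = φ s) :
    ∑ s, φ s = ∑ q ∈ Finset.range (n + 1), wsum (fun c => φ (dec n c)) (repL n q) := by
  obtain ⟨m, rfl⟩ : ∃ m, n = m + 1 := ⟨n - 1, by omega⟩
  rw [Orbit_abs Orbit_g (fun s => by simp [Orbit_g, Orbit_gd_one]) Orbit_g_mul
    (fun s => toLex (dsm s, code s))
    (fun s t h => Orbit_code_inj (congrArg (fun p => (ofLex p).2) h)) φ (fun a s => by
      rw [Orbit_g, Orbit_inv φ h1 h2]
      split_ifs
      · rfl
      · exact h3 s)]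
  simp only [Orbit_wsum, sum_secL, dec_code]
  rw [Finset.sum_comm]
  refine Finset.sum_congr rfl fun s _ => ?_
  rw [Finset.sum_ite_eq]
  refine (congrArg (fun k : ℕ => (k : ℝ) * φ s) (Orbit_repW s)).trans ?_
  simp only [Finset.mem_range]
  split_ifs <;> simp

theorem mem_repL (n q : ℕ) (p : ℕ × ℕ) (h : p ∈ repL n q) : p.1 ∈ secL n q 0 [] := by
  rw [repL] at h
  generalize secL n q 0 [] = l at h ⊢
  induction l with
  | nil => exact absurd h List.not_mem_nil
  | cons c l ih =>
    cases hb : Nat.beq (repW n q c) 0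
    · simp only [hb, cond_false, List.mem_cons] at h
      rcases h with rfl | h
      · exact List.mem_cons_self
      · exact List.mem_cons_of_mem _ (ih h)
    · simp only [hb, cond_true] at h
      exact List.mem_cons_of_mem _ (ih h)

end Vale.Agent.P348
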