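import Vale.Agent.P348.Tens

/-! Any spin-one triple is similar to `-i Lm`; the spectrum of the ring Hamiltonian. -/

namespace Vale.Agent.P348

open Matrix Filter Topology

/-- Cayley-Hamilton in dimension three with the power sums `0, 2, 0`. -/
theorem spin_cube (A : Matrix (Fin 3) (Fin 3) ℂ) (h1 : trace A = 0) (h2 : trace (A * A) = 2)
    (h3 : trace (A * A * A) = 0) : A.det = 0 ∧ A * A * A = A := by
  have hd : 6 * A.det = trace A ^ 3 - 3 * trace A * trace (A * A) + 2 * trace (A * A * A) := by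
    simp only [Matrix.det_fin_three, Matrix.trace_fin_three, Matrix.mul_apply, Fin.sum_univ_three]
    ring
  have hd0 : A.det = 0 := by
    rw [h1, h2, h3] at hd
    have : (6 : ℂ) * A.det = 0 := by rw [hd]; ring
    simpa using this
  refine ⟨hd0, ?_⟩
  have hch : A * A * A = trace A • (A * A) - ((trace A ^ 2 - trace (A * A)) / 2) • A
      + A.det • (1 : Matrix (Fin 3) (Fin 3) ℂ) := by
    ext i j
    fin_cases i <;> fin_cases j <;>
      simp [Matrix.det_fin_three, Matrix.trace_fin_three, Matrix.mul_apply, Fin.sum_univ_three] <;>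
      ring
  rw [hch, h1, h2, hd0]
  ext i j
  simp

theorem spin_sq_eq (X Y Z : Matrix (Fin 3) (Fin 3) ℂ) (h01 : X * Y - Y * X = Complex.I • Z)
    (h12 : Y * Z - Z * Y = Complex.I • X) : trace (Z * Z) = trace (X * X) := by
  have e1 : Complex.I * trace (Z * Z) = trace (X * Y * Z) - trace (Y * X * Z) := by
    rw [← trace_sub, ← Matrix.sub_mul, h01, Matrix.smul_mul, trace_smul, smul_eq_mul]
  have e2 : Complex.I * trace (X * X) = trace (X * (Y * Z)) - trace (X * (Z * Y)) := by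
    rw [← trace_sub, ← Matrix.mul_sub, h12, Matrix.mul_smul, trace_smul, smul_eq_mul]
  have e3 : trace (Y * X * Z) = trace (X * (Z * Y)) := by
    rw [Matrix.mul_assoc Y, trace_mul_comm Y, Matrix.mul_assoc]
  have e4 : Complex.I * trace (Z * Z) = Complex.I * trace (X * X) := by
    rw [e1, e2, e3, Matrix.mul_assoc]
  exact mul_left_cancel₀ Complex.I_ne_zero e4

theorem spin_Z (X Y Z : Matrix (Fin 3) (Fin 3) ℂ) (h01 : X * Y - Y * X = Complex.I • Z)
    (h12 : Y * Z - Z * Y = Complex.I • X) (h20 : Z * X - X * Z = Complex.I • Y)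
    (hC : X * X + Y * Y + Z * Z = (2 : ℂ) • (1 : Matrix (Fin 3) (Fin 3) ℂ)) :
    Z.det = 0 ∧ Z * Z * Z = Z := by
  have h1 : trace Z = 0 := by
    have e1 : Complex.I * trace Z = 0 := by
      rw [← smul_eq_mul, ← trace_smul, ← h01, trace_sub, trace_mul_comm, sub_self]
    exact (mul_eq_zero.mp e1).resolve_left Complex.I_ne_zero
  have hZX := spin_sq_eq X Y Z h01 h12
  have hXY := spin_sq_eq Y Z X h12 h20
  have h2 : trace (Z * Z) = 2 := by
    have e := congrArg trace hC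
    rw [trace_add, trace_add, trace_smul, trace_one, ← hXY, ← hZX] at e
    simp only [Fintype.card_fin, smul_eq_mul] at e
    have : (3 : ℂ) * trace (Z * Z) = 3 * 2 := by
      push_cast at e
      linear_combination e
    exact mul_left_cancel₀ (by norm_num) this
  have hx : trace (X * X * Z) = 0 := by
    have e1 : Complex.I * trace (X * X * Z) = trace (X * X * (X * Y)) - trace (X * X * (Y * X)) := by
      rw [← trace_sub, ← Matrix.mul_sub, h01, Matrix.mul_smul, trace_smul, smul_eq_mul]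
    have e2 : trace (X * X * (Y * X)) = trace (X * X * (X * Y)) := by
      rw [← Matrix.mul_assoc (X * X) Y X, trace_mul_comm]
      simp only [Matrix.mul_assoc]
    rw [e2, sub_self] at e1
    exact (mul_eq_zero.mp e1).resolve_left Complex.I_ne_zero
  have hy : trace (Y * Y * Z) = 0 := by
    have e1 : Complex.I * trace (Y * Y * Z) = trace (Y * Y * (X * Y)) - trace (Y * Y * (Y * X)) := by
      rw [← trace_sub, ← Matrix.mul_sub, h01, Matrix.mul_smul, trace_smul, smul_eq_mul]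
    have e2 : trace (Y * Y * (X * Y)) = trace (Y * Y * (Y * X)) := by
      rw [← Matrix.mul_assoc (Y * Y) X Y, trace_mul_comm]
      simp only [Matrix.mul_assoc]
    rw [e2, sub_self] at e1
    exact (mul_eq_zero.mp e1).resolve_left Complex.I_ne_zero
  have h3 : trace (Z * Z * Z) = 0 := by
    have e := congrArg (fun W => trace (W * Z)) hC
    simp only [Matrix.add_mul, trace_add, Matrix.smul_mul, Matrix.one_mul, trace_smul, hx, hy, h1,
      smul_zero, zero_add] at e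
    exact e
  exact spin_cube Z h1 h2 h3

/-- the standard triple in the basis `x, y, z` -/
noncomputable def spinT (a : Fin 3) : Matrix (Fin 3) (Fin 3) ℂ :=
  (-Complex.I) • (Lm a).map Complex.ofReal

theorem spin_vec (X Y Z : Matrix (Fin 3) (Fin 3) ℂ) (h01 : X * Y - Y * X = Complex.I • Z)
    (h12 : Y * Z - Z * Y = Complex.I • X) (h20 : Z * X - X * Z = Complex.I • Y)
    (hC : X * X + Y * Y + Z * Z = (2 : ℂ) • (1 : Matrix (Fin 3) (Fin 3) ℂ))
    (h3 : Z * Z * Z = Z) (v : Fin 3 → ℂ) (hv : Z *ᵥ v = 0) :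
    Z *ᵥ (X *ᵥ v) = Complex.I • (Y *ᵥ v) ∧ Z *ᵥ (Y *ᵥ v) = (-Complex.I) • (X *ᵥ v) ∧
    X *ᵥ (Y *ᵥ v) = 0 ∧ Y *ᵥ (X *ᵥ v) = 0 ∧ X *ᵥ (X *ᵥ v) = v ∧ Y *ᵥ (Y *ᵥ v) = v := by
  have hI : Complex.I * Complex.I = -1 := Complex.I_mul_I
  have cZX : ∀ w, Z *ᵥ (X *ᵥ w) = X *ᵥ (Z *ᵥ w) + Complex.I • (Y *ᵥ w) := by
    intro w
    rw [mulVec_mulVec, mulVec_mulVec, ← smul_mulVec, ← h20, sub_mulVec]
    abel
  have cZY : ∀ w, Z *ᵥ (Y *ᵥ w) = Y *ᵥ (Z *ᵥ w) + (-Complex.I) • (X *ᵥ w) := by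
    intro w
    rw [mulVec_mulVec, mulVec_mulVec, neg_smul, ← smul_mulVec, ← h12, sub_mulVec]
    abel
  have cXY : X *ᵥ (Y *ᵥ v) = Y *ᵥ (X *ᵥ v) := by
    have e := congrArg (fun W => W *ᵥ v) h01
    simp only [sub_mulVec, smul_mulVec, hv, smul_zero, ← mulVec_mulVec] at e
    exact sub_eq_zero.mp e
  have cC : X *ᵥ (X *ᵥ v) + Y *ᵥ (Y *ᵥ v) = (2 : ℂ) • v := by
    have e := congrArg (fun W => W *ᵥ v) hC
    simp only [add_mulVec, smul_mulVec, hv, ← mulVec_mulVec, mulVec_zero, add_zero,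
      one_mulVec] at e
    exact e
  have z1 : Z *ᵥ (X *ᵥ v) = Complex.I • (Y *ᵥ v) := by rw [cZX, hv, mulVec_zero, zero_add]
  have z2 : Z *ᵥ (Y *ᵥ v) = (-Complex.I) • (X *ᵥ v) := by rw [cZY, hv, mulVec_zero, zero_add]
  set a := X *ᵥ (Y *ᵥ v) with ha
  set p := X *ᵥ (X *ᵥ v) with hp
  set q := Y *ᵥ (Y *ᵥ v) with hq
  have za : Z *ᵥ a = (-Complex.I) • (p - q) := by
    rw [ha, cZX, z2, mulVec_smul, ← hp, ← hq, smul_sub, neg_smul, neg_smul]
    abel
  have zp : Z *ᵥ p = (2 * Complex.I) • a := by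
    rw [hp, cZX, z1, mulVec_smul, ← ha, ← cXY, two_mul, add_smul]
  have zq : Z *ᵥ q = (-(2 * Complex.I)) • a := by
    rw [hq, cZY, z2, mulVec_smul, ← ha, ← cXY, two_mul, neg_add, add_smul]
  have zza : Z *ᵥ (Z *ᵥ a) = (4 : ℂ) • a := by
    rw [za, mulVec_smul, mulVec_sub, zp, zq, ← sub_smul, smul_smul]
    congr 1
    linear_combination (-4) * hI
  have a0 : a = 0 := by
    have e : Z *ᵥ (Z *ᵥ (Z *ᵥ (Z *ᵥ a))) = Z *ᵥ (Z *ᵥ a) := by
      have e3 : ∀ w, Z *ᵥ (Z *ᵥ (Z *ᵥ w)) = Z *ᵥ w := by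
        intro w
        rw [mulVec_mulVec, mulVec_mulVec, h3]
      exact e3 _
    rw [zza, mulVec_smul, mulVec_smul, zza, smul_smul] at e
    have e2 : (12 : ℂ) • a = 0 := by
      have : (12 : ℂ) = 4 * 4 - 4 := by norm_num
      rw [this, sub_smul, e, sub_self]
    exact (smul_eq_zero.mp e2).resolve_left (by norm_num)
  have pq : p = q := by
    rw [a0, mulVec_zero] at za
    have := (smul_eq_zero.mp za.symm).resolve_left (neg_ne_zero.mpr Complex.I_ne_zero)
    exact sub_eq_zero.mp this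
  have hpv : p = v := by
    rw [← pq, ← two_smul ℂ p] at cC
    exact smul_right_injective _ (two_ne_zero (α := ℂ)) cC
  refine ⟨z1, z2, a0, ?_, hpv, pq ▸ hpv⟩
  rw [← cXY]
  exact a0

theorem spin_similar (S : Fin 3 → Matrix (Fin 3) (Fin 3) ℂ)
    (h01 : S 0 * S 1 - S 1 * S 0 = Complex.I • S 2) (h12 : S 1 * S 2 - S 2 * S 1 = Complex.I • S 0)
    (h20 : S 2 * S 0 - S 0 * S 2 = Complex.I • S 1)
    (hC : S 0 * S 0 + S 1 * S 1 + S 2 * S 2 = (2 : ℂ) • (1 : Matrix (Fin 3) (Fin 3) ℂ)) :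
    ∃ V : Matrix (Fin 3) (Fin 3) ℂ, IsUnit V ∧ ∀ a, S a * V = V * spinT a := by
  obtain ⟨hd, h3⟩ := spin_Z _ _ _ h01 h12 h20 hC
  obtain ⟨v, hv0, hv⟩ := Matrix.exists_mulVec_eq_zero_iff.mpr hd
  obtain ⟨z1, z2, xy, yx, xx, yy⟩ := spin_vec _ _ _ h01 h12 h20 hC h3 v hv
  have hI : Complex.I * Complex.I = -1 := Complex.I_mul_I
  let e : Fin 3 → Fin 3 → ℂ := ![(-Complex.I) • (S 1 *ᵥ v), Complex.I • (S 0 *ᵥ v), v]
  let V : Matrix (Fin 3) (Fin 3) ℂ := Matrix.of fun i c => e c i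
  have hcol : ∀ (W : Matrix (Fin 3) (Fin 3) ℂ) (c i : Fin 3), (W * V) i c = (W *ᵥ e c) i := by
    intro W c i
    simp [V, Matrix.mul_apply, mulVec, dotProduct]
  have e0 : e 0 = (-Complex.I) • (S 1 *ᵥ v) := rfl
  have e1 : e 1 = Complex.I • (S 0 *ᵥ v) := rfl
  have e2 : e 2 = v := rfl
  have hrow : ∀ (T : Matrix (Fin 3) (Fin 3) ℂ) (c i : Fin 3),
      (V * T) i c = (T 0 c • e 0 + T 1 c • e 1 + T 2 c • e 2) i := by
    intro T c i
    simp [V, Matrix.mul_apply, Fin.sum_univ_three, mul_comm]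
  have hV : ∀ a, S a * V = V * spinT a := by
    intro a
    ext i c
    rw [hcol, hrow]
    refine congrFun ?_ i
    fin_cases a <;> fin_cases c <;>
      simp [e0, e1, e2, spinT, Lm, mulVec_smul, mulVec_neg, z1, z2, xy, yx, xx, yy, hv, smul_smul, hI]
  refine ⟨V, ?_, hV⟩
  rw [← Matrix.mulVec_injective_iff_isUnit]
  have hker : ∀ c : Fin 3 → ℂ, V *ᵥ c = 0 → c = 0 := by
    intro c hc
    have hT : ∀ (a : Fin 3) (w : Fin 3 → ℂ), V *ᵥ w = 0 → V *ᵥ (spinT a *ᵥ w) = 0 := by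
      intro a w hw
      rw [mulVec_mulVec, ← hV, ← mulVec_mulVec, hw, mulVec_zero]
    have hz : ∀ w : Fin 3 → ℂ, V *ᵥ w = 0 → w 0 = 0 → w 1 = 0 → w 2 = 0 := by
      intro w hw w0 w1
      have : w 2 • v = 0 := by
        rw [← hw]
        funext i
        simp [V, mulVec, dotProduct, Fin.sum_univ_three, w0, w1, e2, mul_comm]
      exact (smul_eq_zero.mp this).resolve_right hv0
    have c0 : c 0 = 0 := by
      have := hz _ (hT 0 _ (hT 2 _ hc))
        (by simp [spinT, Lm, mulVec, dotProduct, Fin.sum_univ_three])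
        (by simp [spinT, Lm, mulVec, dotProduct, Fin.sum_univ_three])
      simpa [spinT, Lm, mulVec, dotProduct, Fin.sum_univ_three] using this
    have c1 : c 1 = 0 := by
      have := hz _ (hT 1 _ (hT 2 _ hc))
        (by simp [spinT, Lm, mulVec, dotProduct, Fin.sum_univ_three])
        (by simp [spinT, Lm, mulVec, dotProduct, Fin.sum_univ_three])
      simpa [spinT, Lm, mulVec, dotProduct, Fin.sum_univ_three] using this
    have c2 := hz c hc c0 c1
    funext i
    fin_cases i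
    · exact c0
    · exact c1
    · exact c2
  intro x y hxy
  have : V *ᵥ (x - y) = 0 := by
    rw [mulVec_sub]
    exact sub_eq_zero.mpr hxy
  exact sub_eq_zero.mp (hker _ this)

theorem spin_site_intertwine {n : ℕ} (j : Fin n) (A B V : Matrix (Fin 3) (Fin 3) ℂ)
    (h : A * V = V * B) :
    site j A * tens (fun _ : Fin n => V) = tens (fun _ : Fin n => V) * site j B := by
  rw [site_eq_tens, site_eq_tens, tens_mul, tens_mul]
  refine congrArg tens ?_
  funext i
  split_ifs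
  · exact h
  · rw [Matrix.one_mul, Matrix.mul_one]

theorem spin_site_smul {n : ℕ} (j : Fin n) (c : ℂ) (A : Matrix (Fin 3) (Fin 3) ℂ) :
    site j (c • A) = c • site j A := by
  ext s t
  simp only [site, Matrix.of_apply, Matrix.smul_apply, smul_eq_mul]
  rw [← Finset.mul_prod_erase _ _ (Finset.mem_univ j), ← Finset.mul_prod_erase _ _ (Finset.mem_univ j)]
  have e : ∏ i ∈ Finset.univ.erase j, (if i = j then c • A else 1) (s i) (t i)
      = ∏ i ∈ Finset.univ.erase j, (if i = j then A else 1) (s i) (t i) := by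
    refine Finset.prod_congr rfl fun i hi => ?_
    rw [if_neg (Finset.ne_of_mem_erase hi), if_neg (Finset.ne_of_mem_erase hi)]
  rw [e, if_pos rfl, if_pos rfl, Matrix.smul_apply, smul_eq_mul, mul_assoc]

theorem spin_site_map {n : ℕ} (j : Fin n) (A : Matrix (Fin 3) (Fin 3) ℝ) :
    site j (A.map Complex.ofReal) = Complex.ofRealHom.mapMatrix (site j A) := by
  ext s t
  simp only [site, Matrix.of_apply, RingHom.mapMatrix_apply, Matrix.map_apply, map_prod]
  refine Finset.prod_congr rfl fun i _ => ?_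
  split_ifs
  · rfl
  · by_cases h : s i = t i <;> simp [Matrix.one_apply, h]

theorem spin_ham_T (L : ℕ) : ham spinT L = Complex.ofRealHom.mapMatrix (Hr L 0) := by
  unfold ham Hr
  rw [map_neg, map_sum, ← Finset.sum_neg_distrib]
  refine Finset.sum_congr rfl fun j _ => ?_
  rw [map_sum, ← Finset.sum_neg_distrib]
  refine Finset.sum_congr rfl fun a _ => ?_
  have hb : bsg (0 : Fin 4) j a = 1 := by
    unfold bsg sg chi
    simp
  rw [hb, one_smul, map_mul, ← spin_site_map, ← spin_site_map, spinT, spin_site_smul, spin_site_smul,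
    Matrix.smul_mul, Matrix.mul_smul, smul_smul]
  simp

theorem spin_spectrum_map {ι : Type} [Fintype ι] [DecidableEq ι] (A : Matrix ι ι ℝ) :
    spectrum ℝ (Complex.ofRealHom.mapMatrix A) = spectrum ℝ A := by
  ext r
  rw [spectrum.mem_iff, spectrum.mem_iff]
  have e : algebraMap ℝ (Matrix ι ι ℂ) r - Complex.ofRealHom.mapMatrix A
      = Complex.ofRealHom.mapMatrix (algebraMap ℝ (Matrix ι ι ℝ) r - A) := by
    rw [map_sub]
    congr 1
    ext i j
    simp [Matrix.algebraMap_matrix_apply]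
    split_ifs <;> simp
  rw [e, Matrix.isUnit_iff_isUnit_det, Matrix.isUnit_iff_isUnit_det, ← RingHom.map_det,
    isUnit_iff_ne_zero, isUnit_iff_ne_zero]
  simp

theorem spectrum_ham (S : Fin 3 → Matrix (Fin 3) (Fin 3) ℂ) (hS : ∀ a, (S a).IsHermitian)
    (h01 : S 0 * S 1 - S 1 * S 0 = Complex.I • S 2) (h12 : S 1 * S 2 - S 2 * S 1 = Complex.I • S 0)
    (h20 : S 2 * S 0 - S 0 * S 2 = Complex.I • S 1)
    (hC : S 0 * S 0 + S 1 * S 1 + S 2 * S 2 = (2 : ℂ) • (1 : Matrix (Fin 3) (Fin 3) ℂ)) (L : ℕ) :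
    spectrum ℝ (ham S L) = spectrum ℝ (Hr L 0) := by
  have _ := hS
  obtain ⟨V, hVu, hV⟩ := spin_similar S h01 h12 h20 hC
  obtain ⟨u, rfl⟩ := hVu
  let U : (Matrix (Cfg L) (Cfg L) ℂ)ˣ :=
    ⟨tens fun _ => (u : Matrix (Fin 3) (Fin 3) ℂ), tens fun _ => ((u⁻¹ : (Matrix (Fin 3) (Fin 3) ℂ)ˣ) : Matrix (Fin 3) (Fin 3) ℂ),
      by rw [tens_mul]; simp only [Units.mul_inv]; exact tens_one,
      by rw [tens_mul]; simp only [Units.inv_mul]; exact tens_one⟩
  have hU : ham S L * (U : Matrix (Cfg L) (Cfg L) ℂ) = U * ham spinT L := by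
    unfold ham
    rw [Finset.sum_mul, Finset.mul_sum]
    refine Finset.sum_congr rfl fun j _ => ?_
    rw [Finset.sum_mul, Finset.mul_sum]
    refine Finset.sum_congr rfl fun a _ => ?_
    show site j (S a) * site (finRotate L j) (S a) * tens (fun _ => (u : Matrix (Fin 3) (Fin 3) ℂ))
      = tens (fun _ => (u : Matrix (Fin 3) (Fin 3) ℂ)) * (site j (spinT a) * site (finRotate L j) (spinT a))
    rw [Matrix.mul_assoc, spin_site_intertwine _ _ _ _ (hV a), ← Matrix.mul_assoc,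
      spin_site_intertwine _ _ _ _ (hV a), Matrix.mul_assoc]
  have hconj : ham S L = (U : Matrix (Cfg L) (Cfg L) ℂ) * ham spinT L * (U⁻¹ : (Matrix (Cfg L) (Cfg L) ℂ)ˣ) := by
    rw [← hU, mul_assoc, Units.mul_inv, mul_one]
  rw [hconj, spectrum.units_conjugate, spin_ham_T, spin_spectrum_map]

end Vale.Agent.P348
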