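import Vale.Agent.P348.Defs

/-! The Trotter step and the spatial transfer matrix. -/

namespace Vale.Agent.P348

open Matrix

/-- `O 0 = 1`, `O (a + 1) = d L a` -/
def Om (d : ℝ) (a : Fin 4) : Matrix (Fin 3) (Fin 3) ℝ := Fin.cases 1 (fun b => d • Lm b) a

noncomputable def Fm (d : ℝ) (a b : Fin 4) : Matrix (Fin 3) (Fin 3) ℝ :=
  (1 / 2 : ℝ) • (Om d a * Om d b + Om d b * Om d a)

/-- one Trotter step: the bond `(j, j + 1)` carries the label `a j` -/
noncomputable def Gstep (d : ℝ) (n : ℕ) (h : Fin 4) : Matrix (Cfg n) (Cfg n) ℝ :=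
  ∑ a : Fin n → Fin 4, (∏ j : Fin n, if j.val + 1 = n then chi (a j) h else 1) •
    tens fun j => Fm d (a ((finRotate n).symm j)) (a j)

/-- the spatial transfer matrix -/
noncomputable def Xm (d : ℝ) (M : ℕ) (g : Fin 4) : Matrix (Fin M → Fin 4) (Fin M → Fin 4) ℝ :=
  Matrix.of fun a b => trace (diagonal (sg g) * (List.ofFn fun t : Fin M => Fm d (a t) (b t)).prod)

def Rm (M : ℕ) (h : Fin 4) : Matrix (Fin M → Fin 4) (Fin M → Fin 4) ℝ :=
  diagonal fun a => ∏ t, chi (a t) h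

end Vale.Agent.P348
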